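import Vale.Agent.P133.H832.PairU
import Mathlib.Analysis.CStarAlgebra.lpSpace

/-!
P133 (helper832): bounded products of purely infinite C*-algebras.
-/

open scoped ComplexOrder ENNReal

namespace Vale.Agent.P133.H832

open Vale.Agent.P133 Vale.Agent.P133.Statement

universe u v

/-- the elementwise form of pure infiniteness -/
def EltPI (A : Type u) [NonUnitalCStarAlgebra A] [PartialOrder A] [StarOrderedRing A] : Prop :=
  ∀ h : A, 0 ≤ h → ∀ ε : ℝ, 0 < ε → ∃ x y : A,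
      ‖star x * h * x - h‖ < ε ∧ ‖star y * h * y - h‖ < ε ∧ ‖star x * h * y‖ < ε

theorem eltPI_of (A : Type u) [NonUnitalCStarAlgebra A] [PartialOrder A] [StarOrderedRing A]
    (hA : PurelyInfinite A) : EltPI A := fun h h0 ε hε => elementwise hA h h0 ε hε

theorem spi_of_eltPI (A : Type u) [NonUnitalCStarAlgebra A] [PartialOrder A] [StarOrderedRing A]
    (hA : EltPI A) : StronglyPurelyInfinite A :=
  fun x y hx hy ε hε => Vale.Agent.P133.main A hA x y hx hy ε hε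

/-- `PairU` for elements of norm at most `N` -/
theorem pairU_scaled {A : Type u} [NonUnitalCStarAlgebra A] (hA : PairU A) {N : ℝ} (hN : 0 < N)
    {δ : ℝ} (hδ : 0 < δ) (hδ1 : δ < 1) {a b : A} (ha : ‖a‖ ≤ N) (hb : ‖b‖ ≤ N) {η : ℝ}
    (hη : 0 < η) : ∃ s t : A, ‖s‖ ^ 2 ≤ δ⁻¹ ∧ ‖t‖ ^ 2 ≤ δ⁻¹ ∧
      ‖star (a * s) * (a * s) - star a * a‖ ≤ N ^ 2 * (2 * δ + η) ∧
      ‖star (b * t) * (b * t) - star b * b‖ ≤ N ^ 2 * (2 * δ + η) ∧
      ‖star (a * s) * (b * t)‖ ≤ N ^ 2 * η := by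
  have hs : ∀ {w : A}, ‖w‖ ≤ N → ‖N⁻¹ • w‖ ≤ 1 := by
    intro w hw
    rw [norm_smul, Real.norm_of_nonneg (by positivity), inv_mul_le_iff₀ hN, mul_one]
    exact hw
  obtain ⟨s, t, h1, h2, -, -, h3, h4, h5⟩ := hA δ hδ hδ1 (N⁻¹ • a) (N⁻¹ • b) (hs ha) (hs hb) η hη
  have hNN : (0 : ℝ) < N ^ 2 := by positivity
  have key : ∀ w r : A, ‖star ((N⁻¹ • w) * r) * ((N⁻¹ • w) * r) -
      star (N⁻¹ • w) * (N⁻¹ • w)‖ = (N ^ 2)⁻¹ * ‖star (w * r) * (w * r) - star w * w‖ := by
    intro w r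
    have e : star ((N⁻¹ • w) * r) * ((N⁻¹ • w) * r) - star (N⁻¹ • w) * (N⁻¹ • w) =
        (N ^ 2)⁻¹ • (star (w * r) * (w * r) - star w * w) := by
      rw [smul_mul_assoc, star_smul, star_smul, star_trivial, smul_mul_smul_comm,
        smul_mul_smul_comm, ← smul_sub]
      congr 1
      rw [sq, mul_inv]
    rw [e, norm_smul, Real.norm_of_nonneg (by positivity)]
  have key2 : star ((N⁻¹ • a) * s) * ((N⁻¹ • b) * t) = (N ^ 2)⁻¹ • (star (a * s) * (b * t)) := by
    rw [smul_mul_assoc, smul_mul_assoc, star_smul, star_trivial, smul_mul_smul_comm]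
    congr 1
    rw [sq, mul_inv]
  rw [key, inv_mul_le_iff₀ hNN] at h3 h4
  rw [key2, norm_smul, Real.norm_of_nonneg (by positivity), inv_mul_le_iff₀ hNN] at h5
  exact ⟨s, t, h1, h2, h3, h4, h5⟩

theorem lp_mul_apply {I : Type v} {B : I → Type u} [∀ i, NonUnitalCStarAlgebra (B i)]
    (f g : lp B ∞) (i : I) : (f * g) i = f i * g i := by
  rw [lp.infty_coeFn_mul]; rfl

theorem lp_sub_apply {I : Type v} {B : I → Type u} [∀ i, NonUnitalCStarAlgebra (B i)]
    (f g : lp B ∞) (i : I) : (f - g) i = f i - g i := by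
  rw [lp.coeFn_sub]; rfl

/-- `PairU` for all coordinates gives strong pure infiniteness of the bounded product. -/
theorem spi_lp {I : Type v} (B : I → Type u) [∀ i, NonUnitalCStarAlgebra (B i)]
    (hB : ∀ i, PairU (B i)) [PartialOrder (lp B ∞)] [StarOrderedRing (lp B ∞)] :
    StronglyPurelyInfinite (lp B ∞) := by
  intro x y hx hy ε hε
  set N : ℝ := ‖x‖ + ‖y‖ + 1 with hN
  have hN0 : 0 < N := by positivity
  have hxN : ∀ i, ‖x i‖ ≤ N := fun i =>
    (lp.norm_apply_le_norm (by simp) x i).trans (by linarith [norm_nonneg y])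
  have hyN : ∀ i, ‖y i‖ ≤ N := fun i =>
    (lp.norm_apply_le_norm (by simp) y i).trans (by linarith [norm_nonneg x])
  set δ : ℝ := min (1 / 2) (ε / (8 * N ^ 2)) with hδdef
  have hδ : 0 < δ := lt_min (by norm_num) (by positivity)
  have hδ1 : δ < 1 := lt_of_le_of_lt (min_le_left _ _) (by norm_num)
  have hδε : N ^ 2 * δ ≤ ε / 8 := by
    calc N ^ 2 * δ ≤ N ^ 2 * (ε / (8 * N ^ 2)) := by gcongr; exact min_le_right _ _
      _ = ε / 8 := by field_simp
  have hxs : ∀ i, star (x i) = x i := fun i => by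
    rw [← lp.star_apply, (IsSelfAdjoint.of_nonneg hx).star_eq]
  have hys : ∀ i, star (y i) = y i := fun i => by
    rw [← lp.star_apply, (IsSelfAdjoint.of_nonneg hy).star_eq]
  choose s t h1 h2 h3 h4 h5 using fun i => pairU_scaled (hB i) hN0 hδ hδ1 (hxN i) (hyN i) hδ
  have hmem : ∀ r : (i : I) → B i, (∀ i, ‖r i‖ ^ 2 ≤ δ⁻¹) → Memℓp r ∞ := by
    intro r hr
    refine memℓp_infty ⟨Real.sqrt δ⁻¹, ?_⟩
    rintro _ ⟨i, rfl⟩
    exact Real.le_sqrt_of_sq_le (hr i)
  have hb : ∀ {w : lp B ∞}, (∀ i, ‖w i‖ ≤ ε / 2) → ‖w‖ < ε := fun hw =>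
    lt_of_le_of_lt (lp.norm_le_of_forall_le (by positivity) hw) (by linarith)
  refine ⟨⟨s, hmem s h1⟩, ⟨t, hmem t h2⟩, hb fun i => ?_, hb fun i => ?_, hb fun i => ?_⟩
  · simp only [lp_sub_apply, lp_mul_apply, lp.star_apply]
    have e : star (s i) * (x i * x i) * s i - x i * x i =
        star (x i * s i) * (x i * s i) - star (x i) * x i := by
      rw [star_mul, hxs]; simp only [mul_assoc]
    calc _ = ‖star (x i * s i) * (x i * s i) - star (x i) * x i‖ := congrArg _ e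
      _ ≤ N ^ 2 * (2 * δ + δ) := h3 i
      _ ≤ ε / 2 := by nlinarith only [hδε, hε]
  · simp only [lp_sub_apply, lp_mul_apply, lp.star_apply]
    have e : star (t i) * (y i * y i) * t i - y i * y i =
        star (y i * t i) * (y i * t i) - star (y i) * y i := by
      rw [star_mul, hys]; simp only [mul_assoc]
    calc _ = ‖star (y i * t i) * (y i * t i) - star (y i) * y i‖ := congrArg _ e
      _ ≤ N ^ 2 * (2 * δ + δ) := h4 i
      _ ≤ ε / 2 := by nlinarith only [hδε, hε]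
  · simp only [lp_mul_apply, lp.star_apply]
    have e : star (s i) * (x i * y i) * t i = star (x i * s i) * (y i * t i) := by
      rw [star_mul, hxs]; simp only [mul_assoc]
    calc _ = ‖star (x i * s i) * (y i * t i)‖ := congrArg _ e
      _ ≤ N ^ 2 * δ := h5 i
      _ ≤ ε / 2 := by nlinarith only [hδε, hε]

/-- coordinates of a purely infinite bounded product -/
theorem eltPI_coord {I : Type v} (B : I → Type u) [∀ i, NonUnitalCStarAlgebra (B i)]
    [∀ i, PartialOrder (B i)] [∀ i, StarOrderedRing (B i)]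
    [PartialOrder (lp B ∞)] [StarOrderedRing (lp B ∞)] (hB : EltPI (lp B ∞)) (i : I) :
    EltPI (B i) := by
  classical
  intro h h0 ε hε
  obtain ⟨k, rfl⟩ := CStarAlgebra.nonneg_iff_eq_star_mul_self.1 h0
  obtain ⟨x, y, h1, h2, h3⟩ := hB (star (lp.single ∞ i k) * lp.single ∞ i k)
    (star_mul_self_nonneg _) ε hε
  have hk : (star (lp.single ∞ i k) * lp.single ∞ i k : lp B ∞) i = star k * k := by
    rw [lp_mul_apply, lp.star_apply]; simp
  refine ⟨x i, y i, ?_, ?_, ?_⟩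
  · refine lt_of_le_of_lt ?_ h1
    have h4 := lp.norm_apply_le_norm (by simp : (∞ : ℝ≥0∞) ≠ 0) (star x * (star (lp.single ∞ i k) * lp.single ∞ i k) * x -
      star (lp.single ∞ i k) * lp.single ∞ i k) i
    rwa [lp_sub_apply, lp_mul_apply, lp_mul_apply, hk, lp.star_apply] at h4
  · refine lt_of_le_of_lt ?_ h2
    have h4 := lp.norm_apply_le_norm (by simp : (∞ : ℝ≥0∞) ≠ 0) (star y * (star (lp.single ∞ i k) * lp.single ∞ i k) * y -
      star (lp.single ∞ i k) * lp.single ∞ i k) i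
    rwa [lp_sub_apply, lp_mul_apply, lp_mul_apply, hk, lp.star_apply] at h4
  · refine lt_of_le_of_lt ?_ h3
    have h4 := lp.norm_apply_le_norm (by simp : (∞ : ℝ≥0∞) ≠ 0) (star x * (star (lp.single ∞ i k) * lp.single ∞ i k) * y) i
    rwa [lp_mul_apply, lp_mul_apply, hk, lp.star_apply] at h4

/-- bounded products -/
theorem lp_iff {I : Type v} (B : I → Type u) [∀ i, NonUnitalCStarAlgebra (B i)]
    [∀ i, PartialOrder (B i)] [∀ i, StarOrderedRing (B i)]
    [PartialOrder (lp B ∞)] [StarOrderedRing (lp B ∞)] :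
    PurelyInfinite (lp B ∞) ↔ ∀ i, PurelyInfinite (B i) :=
  ⟨fun h i => pi_of_spi (spi_of_eltPI _ (eltPI_coord B (eltPI_of _ h) i)),
    fun h => pi_of_spi (spi_lp B fun i => pairU (B i) (eltPI_of _ (h i)))⟩

end Vale.Agent.P133.H832
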