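import Mathlib.Analysis.CStarAlgebra.Classes

/-!
P133 (helper832): C*-algebras whose closed ideals are totally ordered.
-/

namespace Vale.Agent.P133.H832

universe u

/-- `b` is in the closed two-sided ideal generated by `a` (as `A` has an approximate unit, this
ideal is the closure of the set of all finite sums `∑ r k * a * s k`). -/
def InId {A : Type u} [NonUnitalCStarAlgebra A] (a b : A) : Prop :=
  ∀ ε : ℝ, 0 < ε → ∃ (m : ℕ) (r s : Fin m → A), ‖∑ k, r k * a * s k - b‖ < ε

/-- The closed two-sided ideals of `A` are totally ordered by inclusion; equivalently, the
closed ideals generated by two elements are always comparable. Simple C*-algebras have this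
property. -/
def IsChainC (A : Type u) [NonUnitalCStarAlgebra A] : Prop :=
  ∀ a b : A, InId a b ∨ InId b a

end Vale.Agent.P133.H832
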