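import Mathlib.Analysis.CStarAlgebra.ContinuousFunctionalCalculus.Instances
import Mathlib.Analysis.CStarAlgebra.ContinuousFunctionalCalculus.Order
import Mathlib.Analysis.CStarAlgebra.SpecialFunctions.PosPart

/-!
P133 (helper832): closed two-sided ideals from cones of positive elements.
-/

open scoped ComplexOrder

namespace Vale.Agent.P133.H832

universe u

section

variable {A : Type u} [NonUnitalCStarAlgebra A] [PartialOrder A] [StarOrderedRing A]

theorem cutdown_le {y : A} (hy : 0 ≤ y) {δ : ℝ} (hδ : 0 < δ) :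
    0 ≤ cfcₙ (fun s : ℝ => max (s - δ) 0) y ∧
      cfcₙ (fun s : ℝ => max (s - δ) 0) y ≤ (1 / δ) • (y * y) ∧
      ‖cfcₙ (fun s : ℝ => max (s - δ) 0) y - y‖ ≤ δ := by
  have hsa : IsSelfAdjoint y := IsSelfAdjoint.of_nonneg hy
  have hf0 : (fun s : ℝ => max (s - δ) 0) 0 = 0 := by
    simp only [zero_sub]; exact max_eq_right (by linarith)
  have hyy : y * y = cfcₙ (fun s : ℝ => s * s) y := by
    rw [cfcₙ_mul (fun x : ℝ => x) (fun x : ℝ => x) y (by fun_prop) rfl (by fun_prop) rfl,
      cfcₙ_id' ℝ y]
  refine ⟨cfcₙ_nonneg fun s _ => le_max_right _ _, ?_, ?_⟩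
  · rw [hyy, ← cfcₙ_smul (1 / δ) (fun s : ℝ => s * s) y (by fun_prop) (by simp)]
    refine cfcₙ_mono (fun s hs => ?_) (by fun_prop) (by fun_prop) hf0 (by simp)
    have hs0 : 0 ≤ s := quasispectrum_nonneg_of_nonneg y hy s hs
    simp only [smul_eq_mul]
    refine max_le ?_ (by positivity)
    rw [one_div, ← div_eq_inv_mul, le_div_iff₀ hδ]
    nlinarith [sq_nonneg (s - δ)]
  · have h1 : cfcₙ (fun s : ℝ => max (s - δ) 0) y - y =
        cfcₙ (fun s : ℝ => max (s - δ) 0 - s) y := by
      rw [cfcₙ_sub (fun s : ℝ => max (s - δ) 0) (fun s : ℝ => s) y (by fun_prop) hf0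
        (by fun_prop) rfl, cfcₙ_id' ℝ y]
    rw [h1]
    refine norm_cfcₙ_le fun s hs => ?_
    have hs0 : 0 ≤ s := quasispectrum_nonneg_of_nonneg y hy s hs
    rw [Real.norm_eq_abs, abs_le]
    constructor
    · have := le_max_left (s - δ) 0; linarith
    · have : max (s - δ) 0 ≤ s := max_le (by linarith) hs0
      linarith

theorem ideal_of_cone (S : A → Prop) (h0 : S 0)
    (hcl : ∀ c, 0 ≤ c → (∀ ε : ℝ, 0 < ε → ∃ c', S c' ∧ ‖c' - c‖ < ε) → S c)
    (hord : ∀ c c' (l : ℝ), S c → 0 ≤ c' → 0 ≤ l → c' ≤ l • c → S c')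
    (hconj : ∀ c t, S c → S (star t * c * t))
    (hadd : ∀ c c', S c → S c' → S (c + c')) :
    ∃ J : Submodule ℂ A, IsClosed (J : Set A) ∧ (∀ a x : A, x ∈ J → a * x ∈ J) ∧
      (∀ a x : A, x ∈ J → x * a ∈ J) ∧ (∀ x ∈ J, star x ∈ J) ∧
      ∀ x, x ∈ J ↔ S (star x * x) := by
  let J : Submodule ℂ A :=
    { carrier := {x | S (star x * x)}
      zero_mem' := by simpa using h0
      add_mem' := by
        intro x y hx hy
        have hx' : S (star x * x) := hx
        have hy' : S (star y * y) := hy
        refine hord _ _ 2 (hadd _ _ hx' hy') (star_mul_self_nonneg _) (by norm_num) ?_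
        rw [← sub_nonneg]
        have h1 : (2 : ℝ) • (star x * x + star y * y) - star (x + y) * (x + y) =
            star (x - y) * (x - y) := by
          rw [two_smul, star_add, star_sub, add_mul, mul_add, mul_add, sub_mul, mul_sub, mul_sub]
          abel
        rw [h1]
        exact star_mul_self_nonneg _
      smul_mem' := by
        intro c x hx
        have hx' : S (star x * x) := hx
        refine hord _ _ (‖c‖ ^ 2) hx' (star_mul_self_nonneg _) (by positivity) ?_
        have h1 : star (c • x) * (c • x) = (‖c‖ ^ 2 : ℝ) • (star x * x) := by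
          rw [star_smul, smul_mul_smul_comm, ← Complex.coe_smul]
          congr 1
          rw [Complex.star_def, ← Complex.normSq_eq_conj_mul_self, Complex.normSq_eq_norm_sq]
        rw [h1] }
  have hJ : ∀ x, x ∈ J ↔ S (star x * x) := fun x => Iff.rfl
  refine ⟨J, ?_, ?_, ?_, ?_, hJ⟩
  · rw [← isSeqClosed_iff_isClosed]
    intro u x hu hux
    have hu' : ∀ n, S (star (u n) * u n) := hu
    refine hcl _ (star_mul_self_nonneg _) fun ε hε => ?_
    have h1 : Filter.Tendsto (fun n => star (u n) * u n) Filter.atTop (nhds (star x * x)) :=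
      (hux.star).mul hux
    obtain ⟨n, hn⟩ := (Metric.tendsto_atTop.1 h1) ε hε
    exact ⟨_, hu' n, by rw [← dist_eq_norm]; exact hn n le_rfl⟩
  · intro a x hx
    have hx' : S (star x * x) := hx
    refine hord _ _ ‖star a * a‖ hx' (star_mul_self_nonneg _) (norm_nonneg _) ?_
    have h1 := CStarAlgebra.star_left_conjugate_le_norm_smul (a := x) (b := star a * a)
      (IsSelfAdjoint.star_mul_self a)
    have h2 : star (a * x) * (a * x) = star x * (star a * a) * x := by
      rw [star_mul]; simp only [mul_assoc]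
    rw [h2]
    exact h1
  · intro a x hx
    have hx' : S (star x * x) := hx
    have h2 : star (x * a) * (x * a) = star a * (star x * x) * a := by
      rw [star_mul]; simp only [mul_assoc]
    show S (star (x * a) * (x * a))
    rw [h2]
    exact hconj _ _ hx'
  · intro x hx
    have hx' : S (star x * x) := hx
    show S (star (star x) * star x)
    rw [star_star]
    set y := x * star x with hy
    have hy0 : 0 ≤ y := mul_star_self_nonneg x
    have h1 : S (y * y) := by
      have := hconj _ (star x) hx'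
      rw [star_star] at this
      have h3 : x * (star x * x) * star x = y * y := by rw [hy]; simp only [mul_assoc]
      rwa [h3] at this
    refine hcl _ hy0 fun ε hε => ?_
    obtain ⟨g1, g2, g3⟩ := cutdown_le hy0 (half_pos hε)
    exact ⟨_, hord _ _ _ h1 g1 (by positivity) g2, by linarith⟩

end

end Vale.Agent.P133.H832
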