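import Vale.Agent.P133.H832.Full
import Vale.Agent.P133.H832.ChainDef
import Vale.Agent.P133.H832.ChainI
import Vale.Agent.P133F.Props

/-!
P133 (helper832): the ideal of elements below all multiples.
-/

open scoped ComplexOrder

namespace Vale.Agent.P133.H832

open Vale.Agent.P133 Vale.Agent.P133F

universe u

section

variable {A : Type u} [NonUnitalCStarAlgebra A] [PartialOrder A] [StarOrderedRing A]

/-- `c'` is positive and in the ideal generated by the positive element `c` -/
def SubId (c c' : A) : Prop :=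
  0 ≤ c' ∧ ∀ ε : ℝ, 0 < ε → ∃ (m : ℕ) (t : Fin m → A), ‖∑ k, star (t k) * c * t k - c'‖ < ε

/-- all multiples of `c` are below `a` -/
def InfB (a c : A) : Prop :=
  0 ≤ c ∧ ∀ (m : ℕ) (ε : ℝ), 0 < ε → ∃ r : Fin m → A, ∀ i j,
    ‖star (r i) * a * r j - (if i = j then c else 0)‖ < ε

theorem subId_of_inId {c h : A} (hc : 0 ≤ c) (h0 : 0 ≤ h) (hI : InId (CFC.sqrt c) (CFC.sqrt h)) :
    SubId c h := by
  refine ⟨h0, fun ε hε => ?_⟩
  set q : A := CFC.sqrt c with hq
  have hqs : star q = q := (IsSelfAdjoint.of_nonneg (CFC.sqrt_nonneg c)).star_eq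
  have hqq : q * q = c := CFC.sqrt_mul_sqrt_self c hc
  set y : A := CFC.sqrt h with hy
  have hy0 : 0 ≤ y := CFC.sqrt_nonneg h
  have hys : star y = y := (IsSelfAdjoint.of_nonneg hy0).star_eq
  have hyy : y * y = h := CFC.sqrt_mul_sqrt_self h h0
  set η : ℝ := min 1 (ε / (4 * (‖y‖ + 1))) with hη
  have hyn : 0 ≤ ‖y‖ := norm_nonneg y
  have hη0 : 0 < η := by rw [hη]; positivity
  have hη1 : η ≤ 1 := min_le_left _ _
  have hη2 : η * (4 * (‖y‖ + 1)) ≤ ε := by
    rw [← le_div_iff₀ (by positivity)]; exact min_le_right _ _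
  obtain ⟨m, r, s, hrs⟩ := hI η hη0
  set w : A := ∑ l, r l * q * s l with hw
  have h1 : ‖star w * w - h‖ < ε / 2 := by
    have e1 : star w * w - h = star (w - y) * w + y * (w - y) := by
      rw [← hyy, star_sub, hys, sub_mul, mul_sub]; abel
    have e2 : ‖w‖ ≤ ‖y‖ + 1 := by
      calc ‖w‖ = ‖(w - y) + y‖ := by rw [sub_add_cancel]
        _ ≤ ‖w - y‖ + ‖y‖ := norm_add_le _ _
        _ ≤ ‖y‖ + 1 := by linarith
    calc ‖star w * w - h‖ ≤ ‖star (w - y) * w‖ + ‖y * (w - y)‖ := by
          rw [e1]; exact norm_add_le _ _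
      _ ≤ ‖w - y‖ * ‖w‖ + ‖y‖ * ‖w - y‖ := by
          gcongr
          · exact (norm_mul_le _ _).trans (by rw [norm_star])
          · exact norm_mul_le _ _
      _ ≤ ‖w - y‖ * (‖y‖ + 1) + (‖y‖ + 1) * ‖w - y‖ := by
          gcongr
          linarith
      _ < ε / 2 := by
          have : ‖w - y‖ * (‖y‖ + 1) < η * (‖y‖ + 1) := by gcongr
          nlinarith
  set e : Fin m → ℝ := fun l => √((m : ℝ) * ‖r l‖ ^ 2) with he
  have hee : ∀ l, e l * e l = (m : ℝ) * ‖r l‖ ^ 2 := fun l =>
    Real.mul_self_sqrt (by positivity)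
  set g : A := ∑ l, (e l * e l) • (star (s l) * c * s l) with hg
  have hterm : ∀ l, star (r l * q * s l) * (r l * q * s l) ≤
      (‖r l‖ ^ 2 : ℝ) • (star (s l) * c * s l) := by
    intro l
    have h2 : q * (star (r l) * r l) * q ≤ (‖r l‖ ^ 2 : ℝ) • c := by
      have := CStarAlgebra.star_left_conjugate_le_norm_smul (a := q) (b := star (r l) * r l)
        (IsSelfAdjoint.star_mul_self _)
      rwa [hqs, CStarRing.norm_star_mul_self, ← sq, hqq] at this
    have h3 := star_left_conjugate_le_conjugate h2 (s l)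
    have e1 : star (s l) * (q * (star (r l) * r l) * q) * s l =
        star (r l * q * s l) * (r l * q * s l) := by
      rw [star_mul, star_mul, hqs]; simp only [mul_assoc]
    rw [e1, mul_smul_comm, smul_mul_assoc] at h3
    exact h3
  have h2 : star w * w ≤ g := by
    refine (sum_sq_le _).trans ?_
    rw [hg, Finset.smul_sum]
    refine Finset.sum_le_sum fun l _ => ?_
    rw [hee, mul_smul]
    exact smul_le_smul_of_nonneg_left (hterm l) (by positivity)
  obtain ⟨d, hd⟩ := order_factor (star_mul_self_nonneg w) h2 (half_pos hε)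
  refine ⟨m, fun l => e l • (s l * d), ?_⟩
  have h3 : ∑ l, star (e l • (s l * d)) * c * (e l • (s l * d)) = star d * g * d := by
    rw [hg, Finset.mul_sum, Finset.sum_mul]
    refine Finset.sum_congr rfl fun l _ => ?_
    rw [star_smul, star_trivial, star_mul, smul_mul_assoc, smul_mul_smul_comm, mul_smul_comm,
      smul_mul_assoc]
    simp only [mul_assoc]
  rw [h3]
  calc ‖star d * g * d - h‖ = ‖(star d * g * d - star w * w) + (star w * w - h)‖ := by
        rw [sub_add_sub_cancel]
    _ ≤ ‖star d * g * d - star w * w‖ + ‖star w * w - h‖ := norm_add_le _ _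
    _ < ε := by linarith

theorem SubId.of_le {c c' : A} {l : ℝ} (hc' : 0 ≤ c') (hl : 0 ≤ l) (h : c' ≤ l • c) :
    SubId c c' := by
  refine ⟨hc', fun ε hε => ?_⟩
  obtain ⟨d, hd⟩ := order_factor hc' h (half_pos hε)
  refine ⟨1, fun _ => √l • d, ?_⟩
  have h1 : ∑ _k : Fin 1, star (√l • d) * c * (√l • d) = star d * (l • c) * d := by
    rw [Fin.sum_univ_one, star_smul, star_trivial, smul_mul_assoc, smul_mul_smul_comm,
      Real.mul_self_sqrt hl, mul_smul_comm, smul_mul_assoc]
  rw [h1]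
  linarith

theorem SubId.refl {c : A} (hc : 0 ≤ c) : SubId c c :=
  SubId.of_le hc zero_le_one (by rw [one_smul])

theorem SubId.conj {c : A} (hc : 0 ≤ c) (t : A) : SubId c (star t * c * t) :=
  ⟨star_left_conjugate_nonneg hc t, fun ε hε => ⟨1, fun _ => t, by simpa using hε⟩⟩

theorem SubId.add {c x y : A} (hx : SubId c x) (hy : SubId c y) : SubId c (x + y) := by
  refine ⟨add_nonneg hx.1 hy.1, fun ε hε => ?_⟩
  obtain ⟨m, t, ht⟩ := hx.2 (ε / 2) (half_pos hε)
  obtain ⟨m', t', ht'⟩ := hy.2 (ε / 2) (half_pos hε)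
  refine ⟨m + m', Fin.append t t', ?_⟩
  rw [Fin.sum_univ_add]
  simp only [Fin.append_left, Fin.append_right]
  have h1 : ∑ k, star (t k) * c * t k + ∑ k, star (t' k) * c * t' k - (x + y) =
      (∑ k, star (t k) * c * t k - x) + (∑ k, star (t' k) * c * t' k - y) := by abel
  rw [h1]
  exact (norm_add_le _ _).trans_lt (by linarith)

omit [PartialOrder A] [StarOrderedRing A] in
/-- comparison of two quadratic expressions -/
theorem quad_diff {κ : Type} [Fintype κ] (u v : κ → A) (G G' : κ → κ → A) {δ C : ℝ}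
    (hδ : 0 ≤ δ) (hG : ∀ k k', ‖G k k' - G' k k'‖ ≤ δ) (hu : ∑ k, ‖u k‖ ≤ C)
    (hv : ∑ k, ‖v k‖ ≤ C) :
    ‖∑ k, ∑ k', star (u k) * G k k' * v k' - ∑ k, ∑ k', star (u k) * G' k k' * v k'‖ ≤
      C * C * δ := by
  have hC : 0 ≤ C := (Finset.sum_nonneg fun k _ => norm_nonneg (u k)).trans hu
  have h1 : ∑ k, ∑ k', star (u k) * G k k' * v k' - ∑ k, ∑ k', star (u k) * G' k k' * v k' =
      ∑ k, ∑ k', star (u k) * (G k k' - G' k k') * v k' := by
    simp only [← Finset.sum_sub_distrib]
    refine Finset.sum_congr rfl fun k _ => Finset.sum_congr rfl fun k' _ => ?_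
    rw [mul_sub, sub_mul]
  rw [h1]
  calc _ ≤ ∑ k, ∑ k', ‖u k‖ * δ * ‖v k'‖ := by
        refine norm_sum_le_of_le _ fun k _ => norm_sum_le_of_le _ fun k' _ => ?_
        refine (norm_mul_le _ _).trans ?_
        gcongr
        refine (norm_mul_le _ _).trans ?_
        rw [norm_star]
        gcongr
        exact hG k k'
    _ = (∑ k, ‖u k‖) * δ * ∑ k', ‖v k'‖ := by
        rw [Finset.sum_mul, Finset.sum_mul]
        refine Finset.sum_congr rfl fun k _ => ?_
        rw [Finset.mul_sum]
    _ ≤ C * δ * C := by gcongr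
    _ = C * C * δ := by ring

omit [PartialOrder A] [StarOrderedRing A] in
theorem star_sum_mul_sum {κ : Type} [Fintype κ] (T : κ → A) (a : A) (u v : κ → A) :
    star (∑ k, T k * u k) * a * (∑ k, T k * v k) =
      ∑ k, ∑ k', star (u k) * (star (T k) * a * T k') * v k' := by
  rw [star_sum, Finset.sum_mul, Finset.sum_mul_sum]
  refine Finset.sum_congr rfl fun k _ => Finset.sum_congr rfl fun k' _ => ?_
  rw [star_mul]
  simp only [mul_assoc]

theorem InfB.sub {a c c' : A} (h : InfB a c) (hs : SubId c c') : InfB a c' := by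
  refine ⟨hs.1, fun m ε hε => ?_⟩
  obtain ⟨M, t, ht⟩ := hs.2 (ε / 2) (half_pos hε)
  set C : ℝ := ∑ k, ‖t k‖ with hC
  have hC0 : 0 ≤ C := Finset.sum_nonneg fun k _ => norm_nonneg _
  obtain ⟨r, hr⟩ := h.2 (m * M) (ε / (2 * (C * C + 1))) (by positivity)
  let T : Fin m → Fin M → A := fun i k => r (finProdFinEquiv (i, k))
  refine ⟨fun i => ∑ k, T i k * t k, fun i j => ?_⟩
  have hT : ∀ k k', ‖star (T i k) * a * T j k' - (if i = j ∧ k = k' then c else 0)‖ ≤
      ε / (2 * (C * C + 1)) := by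
    intro k k'
    have h1 := (hr (finProdFinEquiv (i, k)) (finProdFinEquiv (j, k'))).le
    simp only [EmbeddingLike.apply_eq_iff_eq, Prod.mk.injEq] at h1
    exact h1
  have h2 : star (∑ k, T i k * t k) * a * (∑ k, T j k * t k) =
      ∑ k, ∑ k', star (t k) * (star (T i k) * a * T j k') * t k' := by
    rw [star_sum, Finset.sum_mul, Finset.sum_mul_sum]
    refine Finset.sum_congr rfl fun k _ => Finset.sum_congr rfl fun k' _ => ?_
    rw [star_mul]
    simp only [mul_assoc]
  have h3 : ∑ k, ∑ k', star (t k) * (if i = j ∧ k = k' then c else 0) * t k' =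
      if i = j then ∑ k, star (t k) * c * t k else 0 := by
    by_cases hij : i = j
    · simp only [hij, true_and, if_true]
      refine Finset.sum_congr rfl fun k _ => ?_
      simp only [mul_ite, ite_mul, mul_zero, zero_mul, Finset.sum_ite_eq, Finset.mem_univ, if_true]
    · simp [hij]
  have h4 := quad_diff t t (fun k k' => star (T i k) * a * T j k')
    (fun k k' => if i = j ∧ k = k' then c else 0) (by positivity) hT (le_refl C) (le_refl C)
  rw [h3, ← h2] at h4
  have h5 : C * C * (ε / (2 * (C * C + 1))) ≤ ε / 2 := by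
    rw [mul_div_assoc', div_le_div_iff₀ (by positivity) (by norm_num)]
    nlinarith [mul_nonneg hC0 hC0]
  have h6 : ‖(if i = j then ∑ k, star (t k) * c * t k else 0) - (if i = j then c' else 0)‖ <
      ε / 2 := by
    split_ifs
    · exact ht
    · simpa using half_pos hε
  calc _ ≤ ‖star (∑ k, T i k * t k) * a * (∑ k, T j k * t k) -
        (if i = j then ∑ k, star (t k) * c * t k else 0)‖ +
        ‖(if i = j then ∑ k, star (t k) * c * t k else 0) - (if i = j then c' else 0)‖ := by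
        refine le_trans (le_of_eq ?_) (norm_add_le _ _)
        rw [sub_add_sub_cancel]
    _ < ε := by linarith

theorem infB_of_wpi {n : ℕ} (hA : WPI A n) {a c : A} (hc : 0 ≤ c)
    (h : ∀ δ : ℝ, 0 < δ → ∃ T : Fin n → A, ∀ i j,
      ‖star (T i) * a * T j - (if i = j then c else 0)‖ ≤ δ) : InfB a c := by
  refine ⟨hc, fun m ε hε => ?_⟩
  obtain ⟨z, hz⟩ := hA c hc m (ε / 2) (half_pos hε)
  set C : ℝ := ∑ j, ∑ i, ‖z i j‖ with hC
  have hC0 : 0 ≤ C := Finset.sum_nonneg fun j _ => Finset.sum_nonneg fun i _ => norm_nonneg _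
  have hCj : ∀ j, ∑ i, ‖z i j‖ ≤ C := fun j =>
    Finset.single_le_sum (f := fun j => ∑ i, ‖z i j‖)
      (fun j _ => Finset.sum_nonneg fun i _ => norm_nonneg _) (Finset.mem_univ j)
  obtain ⟨T, hT⟩ := h (ε / (2 * (C * C + 1))) (by positivity)
  refine ⟨fun j => ∑ i, T i * z i j, fun j j' => ?_⟩
  have h2 := star_sum_mul_sum T a (fun i => z i j) (fun i => z i j')
  have h3 : ∑ k, ∑ k', star (z k j) * (if k = k' then c else 0) * z k' j' =
      ∑ i, star (z i j) * c * z i j' := by
    refine Finset.sum_congr rfl fun k _ => ?_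
    simp only [mul_ite, ite_mul, mul_zero, zero_mul, Finset.sum_ite_eq, Finset.mem_univ, if_true]
  have h4 := quad_diff (fun i => z i j) (fun i => z i j') (fun k k' => star (T k) * a * T k')
    (fun k k' => if k = k' then c else 0) (by positivity) hT (hCj j) (hCj j')
  rw [h3, ← h2] at h4
  have h5 : C * C * (ε / (2 * (C * C + 1))) ≤ ε / 2 := by
    rw [mul_div_assoc', div_le_div_iff₀ (by positivity) (by norm_num)]
    nlinarith [mul_nonneg hC0 hC0]
  have h6 := hz j j'
  calc _ ≤ ‖star (∑ i, T i * z i j) * a * (∑ i, T i * z i j') -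
        ∑ i, star (z i j) * c * z i j'‖ +
        ‖∑ i, star (z i j) * c * z i j' - (if j = j' then c else 0)‖ := by
        refine le_trans (le_of_eq ?_) (norm_add_le _ _)
        rw [sub_add_sub_cancel]
    _ < ε := by linarith

/-- the closed ideal of all `x` with all multiples of `x* x` below `a` -/
theorem exists_ideal (hA : IsChainC A) (a : A) :
    ∃ J : Submodule ℂ A, IsClosed (J : Set A) ∧ (∀ a x : A, x ∈ J → a * x ∈ J) ∧
      (∀ a x : A, x ∈ J → x * a ∈ J) ∧ (∀ x ∈ J, star x ∈ J) ∧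
      ∀ x, x ∈ J ↔ InfB a (star x * x) := by
  refine ideal_of_cone (InfB a) ?_ ?_ ?_ ?_ ?_
  · exact ⟨le_rfl, fun m ε hε => ⟨fun _ => 0, fun i j => by simpa using hε⟩⟩
  · intro c hc h
    refine ⟨hc, fun m ε hε => ?_⟩
    obtain ⟨c', hc', hcc⟩ := h (ε / 2) (half_pos hε)
    obtain ⟨r, hr⟩ := hc'.2 m (ε / 2) (half_pos hε)
    refine ⟨r, fun i j => ?_⟩
    have h6 : ‖(if i = j then c' else 0) - (if i = j then c else 0)‖ < ε / 2 := by
      split_ifs
      · exact hcc
      · simpa using half_pos hε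
    have h7 := hr i j
    calc _ ≤ ‖star (r i) * a * r j - (if i = j then c' else 0)‖ +
          ‖(if i = j then c' else 0) - (if i = j then c else 0)‖ := by
          refine le_trans (le_of_eq ?_) (norm_add_le _ _)
          rw [sub_add_sub_cancel]
      _ < ε := by linarith
  · intro c c' l hc hc' hl hle
    exact hc.sub (SubId.of_le hc' hl hle)
  · intro c t hc
    exact hc.sub (SubId.conj hc.1 t)
  · intro c c' hc hc'
    rcases hA (CFC.sqrt c) (CFC.sqrt c') with h | h
    · exact hc.sub ((SubId.refl hc.1).add (subId_of_inId hc.1 hc'.1 h))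
    · exact hc'.sub ((subId_of_inId hc'.1 hc.1 h).add (SubId.refl hc'.1))

end

end Vale.Agent.P133.H832
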