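import Vale.Agent.P133.Bdl.B1

/-!
P133 (helper832): quotients of nonunital C*-algebras by closed two-sided ideals.
-/

open scoped ComplexOrder

namespace Vale.Agent.P133.H832

open Vale.Agent.P133

universe u

section

variable {A : Type u} [NonUnitalCStarAlgebra A]

/-- a closed two-sided ideal, as an ideal of the unitization -/
noncomputable def idealU (J : Submodule ℂ A) (hJ : IsClosed (J : Set A))
    (hl : ∀ a x : A, x ∈ J → a * x ∈ J) (hr : ∀ a x : A, x ∈ J → x * a ∈ J)
    (hs : ∀ x ∈ J, star x ∈ J) : CIdeal (Unitization ℂ A) where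
  toSub :=
    { carrier := {x | x.fst = 0 ∧ x.snd ∈ J}
      zero_mem' := ⟨rfl, J.zero_mem⟩
      add_mem' := fun {a b} ha hb => ⟨by rw [Unitization.fst_add, ha.1, hb.1, add_zero], by
        rw [Unitization.snd_add]; exact J.add_mem ha.2 hb.2⟩
      smul_mem' := fun c x hx => ⟨by rw [Unitization.fst_smul, hx.1, smul_zero], by
        rw [Unitization.snd_smul]; exact J.smul_mem c hx.2⟩ }
  mul_left' a x hx := ⟨by rw [Unitization.fst_mul, hx.1, mul_zero], by
    rw [Unitization.snd_mul]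
    exact J.add_mem (J.add_mem (J.smul_mem _ hx.2) (by rw [hx.1, zero_smul]; exact J.zero_mem))
      (hl _ _ hx.2)⟩
  mul_right' a x hx := ⟨by rw [Unitization.fst_mul, hx.1, zero_mul], by
    rw [Unitization.snd_mul]
    exact J.add_mem (J.add_mem (by rw [hx.1, zero_smul]; exact J.zero_mem) (J.smul_mem _ hx.2))
      (hr _ _ hx.2)⟩
  star_mem' x hx := ⟨by rw [Unitization.fst_star, hx.1, star_zero], by
    rw [Unitization.snd_star]; exact hs _ hx.2⟩
  closed' := by
    have h1 : Continuous (fun x : Unitization ℂ A => x.fst) := Unitization.continuous_fst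
    have h2 : Continuous (fun x : Unitization ℂ A => x.snd) := Unitization.continuous_snd
    exact (isClosed_singleton.preimage h1).inter (hJ.preimage h2)

theorem mem_idealU {J : Submodule ℂ A} {hJ : IsClosed (J : Set A)}
    {hl : ∀ a x : A, x ∈ J → a * x ∈ J} {hr : ∀ a x : A, x ∈ J → x * a ∈ J}
    {hs : ∀ x ∈ J, star x ∈ J} {x : A} :
    (x : Unitization ℂ A) ∈ idealU J hJ hl hr hs ↔ x ∈ J :=
  ⟨fun h => by simpa using h.2, fun h => ⟨by simp, by simpa using h⟩⟩

/-- a closed ideal of a unital algebra, as a subalgebra -/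
def subAlg {M : Type u} [CStarAlgebra M] (K : CIdeal M) : NonUnitalStarSubalgebra ℂ M where
  carrier := {x | x ∈ K}
  zero_mem' := K.zero_mem
  add_mem' := K.add_mem
  smul_mem' c _ hx := K.csmul_mem c hx
  mul_mem' {a _} _ hb := K.left_mem a hb
  star_mem' := K.star_mem

theorem subAlg_closed {M : Type u} [CStarAlgebra M] (K : CIdeal M) :
    IsClosed ((subAlg K : NonUnitalStarSubalgebra ℂ M) : Set M) := K.closed'

theorem exists_quotient (J : Submodule ℂ A) (hJ : IsClosed (J : Set A))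
    (hl : ∀ a x : A, x ∈ J → a * x ∈ J) (hr : ∀ a x : A, x ∈ J → x * a ∈ J)
    (hs : ∀ x ∈ J, star x ∈ J) :
    ∃ (B : Type u) (_ : NonUnitalCStarAlgebra B) (_ : PartialOrder B) (_ : StarOrderedRing B)
      (φ : A →⋆ₙₐ[ℂ] B), Function.Surjective φ ∧ ∀ x, φ x = 0 ↔ x ∈ J := by
  let I := idealU J hJ hl hr hs
  have hIA : ∀ x ∈ I, x ∈ final_ideal A := fun x hx => hx.1
  let K : CIdeal (Quo I) := CIdeal.map I (final_ideal A) hIA
  let S := subAlg K
  let i1 : NonUnitalCStarAlgebra S :=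
    NonUnitalStarSubalgebra.nonUnitalCStarAlgebra S (h_closed := subAlg_closed K)
  let q : Unitization ℂ A →⋆ₙₐ[ℂ] Quo I := (Quo.qm I : Unitization ℂ A →⋆ₙₐ[ℂ] Quo I)
  let f : A →⋆ₙₐ[ℂ] Quo I := q.comp (Unitization.inrNonUnitalStarAlgHom ℂ A)
  have hf : ∀ x, f x ∈ S := fun x => ⟨(x : Unitization ℂ A), final_mem_iff.2 ⟨x, rfl⟩, rfl⟩
  refine ⟨S, i1, CStarAlgebra.spectralOrder S, CStarAlgebra.spectralOrderedRing S,
    NonUnitalStarAlgHom.codRestrict f S hf, ?_, ?_⟩
  · rintro ⟨y, x, hx, rfl⟩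
    obtain ⟨r, rfl⟩ := final_mem_iff.1 hx
    exact ⟨r, Subtype.ext rfl⟩
  · intro x
    rw [← mem_idealU (J := J) (hJ := hJ) (hl := hl) (hr := hr) (hs := hs), ← Quo.qm_eq_zero]
    constructor
    · intro h
      exact congrArg Subtype.val h
    · intro h
      exact Subtype.ext h

end

end Vale.Agent.P133.H832
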