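import Vale.Agent.P133.H832.Contr
import Vale.Agent.P133.H832.LInf

/-!
P133 (helper832): diagonalization by contractions, for arbitrary C*-algebras.
-/

open scoped ComplexOrder

namespace Vale.Agent.P133.H832

open Vale.Agent.P133 Vale.Agent.P133.Statement

universe u

/-- diagonalization of every finite family of elements by contractions -/
def Diag (A : Type u) [NonUnitalCStarAlgebra A] : Prop :=
  ∀ (n : ℕ) (a : Fin n → A) (ε : ℝ), 0 < ε → ∃ d : Fin n → A, (∀ i, ‖d i‖ ≤ 1) ∧
    ∀ i j, ‖star (a i * d i) * (a j * d j) - (if i = j then star (a i) * a i else 0)‖ < ε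

/-- the relative form of `EltPI` for the unitization -/
theorem pirel_of_eltPI (A : Type u) [NonUnitalCStarAlgebra A] [PartialOrder A]
    [StarOrderedRing A] (hpi : EltPI A) : PIrel (final_ideal A) := by
  intro h hh h0 ε hε
  obtain ⟨h, rfl⟩ := final_mem_iff.1 hh
  rw [Unitization.inr_nonneg_iff] at h0
  obtain ⟨u, v, h1, h2, h3⟩ := hpi h h0 ε hε
  refine ⟨(u : Unitization ℂ A), final_mem_iff.2 ⟨u, rfl⟩, (v : Unitization ℂ A),
    final_mem_iff.2 ⟨v, rfl⟩, ?_, ?_, ?_⟩
  · rw [← Unitization.inr_star, ← Unitization.inr_mul, ← Unitization.inr_mul,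
      ← Unitization.inr_sub, final_norm]
    exact h1
  · rw [← Unitization.inr_star, ← Unitization.inr_mul, ← Unitization.inr_mul,
      ← Unitization.inr_sub, final_norm]
    exact h2
  · rw [← Unitization.inr_star, ← Unitization.inr_mul, ← Unitization.inr_mul, final_norm]
    exact h3

theorem diag_of_eltPI (A : Type u) [NonUnitalCStarAlgebra A] [PartialOrder A]
    [StarOrderedRing A] (hpi : EltPI A) : Diag A := by
  intro n a ε hε
  set N : ℝ := ∑ i, ‖a i‖ + 1 with hN
  have hN0 : 0 < N := add_pos_of_nonneg_of_pos (Finset.sum_nonneg fun i _ => norm_nonneg _) one_pos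
  have haN : ∀ i, ‖a i‖ ≤ N := fun i =>
    (Finset.single_le_sum (fun k _ => norm_nonneg (a k)) (Finset.mem_univ i)).trans (by linarith)
  have hNN : (0 : ℝ) < N ^ 2 := by positivity
  have hε' : 0 < ε / (2 * N ^ 2) := by positivity
  obtain ⟨d, hdA, hd1, hdd, hdc⟩ := fam_contr (final_ideal A) (pirel_of_eltPI A hpi)
    (fun i => ((N⁻¹ • a i : A) : Unitization ℂ A)) (fun i => final_mem_iff.2 ⟨_, rfl⟩)
    (fun i => by
      rw [final_norm, norm_smul, Real.norm_of_nonneg (by positivity), inv_mul_le_iff₀ hN0,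
        mul_one]
      exact haN i) hε'
  choose r hr using fun i => final_mem_iff.1 (hdA i)
  obtain rfl : d = fun i => ((r i : A) : Unitization ℂ A) := funext hr
  refine ⟨r, fun i => by simpa only [final_norm] using hd1 i, fun i j => ?_⟩
  have key : ∀ i j, star ((N⁻¹ • a i) * r i) * ((N⁻¹ • a j) * r j) =
      (N ^ 2)⁻¹ • (star (a i * r i) * (a j * r j)) := by
    intro i j
    rw [smul_mul_assoc, smul_mul_assoc, star_smul, star_trivial, smul_mul_smul_comm]
    congr 1
    rw [sq, mul_inv]
  have key2 : ∀ i, star (N⁻¹ • a i) * (N⁻¹ • a i) = (N ^ 2)⁻¹ • (star (a i) * a i) := by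
    intro i
    rw [star_smul, star_trivial, smul_mul_smul_comm]
    congr 1
    rw [sq, mul_inv]
  by_cases hij : i = j
  · subst hij
    have h1 := hdd i
    simp only [← Unitization.inr_star, ← Unitization.inr_mul, ← Unitization.inr_sub, final_norm]
      at h1
    rw [key, key2, ← smul_sub, norm_smul, Real.norm_of_nonneg (by positivity),
      inv_mul_le_iff₀ hNN] at h1
    simp only [if_true]
    refine lt_of_le_of_lt h1 ?_
    have : N ^ 2 * (ε / (2 * N ^ 2)) = ε / 2 := by field_simp
    rw [this]; linarith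
  · have h1 := hdc i j hij
    simp only [← Unitization.inr_star, ← Unitization.inr_mul, final_norm] at h1
    rw [key, norm_smul, Real.norm_of_nonneg (by positivity), inv_mul_le_iff₀ hNN] at h1
    simp only [if_neg hij, sub_zero]
    refine lt_of_le_of_lt h1 ?_
    have : N ^ 2 * (ε / (2 * N ^ 2)) = ε / 2 := by field_simp
    rw [this]; linarith

theorem spi_of_diag (A : Type u) [NonUnitalCStarAlgebra A] [PartialOrder A]
    [StarOrderedRing A] (hA : Diag A) : StronglyPurelyInfinite A := by
  intro x y hx hy ε hε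
  obtain ⟨d, -, hd⟩ := hA 2 ![x, y] ε hε
  have hxs : star x = x := (IsSelfAdjoint.of_nonneg hx).star_eq
  have hys : star y = y := (IsSelfAdjoint.of_nonneg hy).star_eq
  refine ⟨d 0, d 1, ?_, ?_, ?_⟩
  · have h1 := hd 0 0
    simp only [Matrix.cons_val_zero, if_true, star_mul, hxs] at h1
    simpa only [mul_assoc] using h1
  · have h1 := hd 1 1
    simp only [Matrix.cons_val_one, Matrix.cons_val_zero, if_true, star_mul, hys] at h1
    simpa only [mul_assoc] using h1
  · have h1 := hd 0 1
    simp only [Matrix.cons_val_one, Matrix.cons_val_zero, star_mul, hxs,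
      Fin.isValue, zero_ne_one, if_false, sub_zero] at h1
    simpa only [mul_assoc] using h1

end Vale.Agent.P133.H832
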