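import Vale.Agent.P133.H832.Ext
import Vale.Agent.P133.H832.Diag

/-!
P133 (helper832): extensions of purely infinite C*-algebras.
-/

open scoped ComplexOrder CStarAlgebra

namespace Vale.Agent.P133.H832

open Vale.Agent.P133 Vale.Agent.P133.Statement

universe u

section

variable {A B : Type u} [NonUnitalCStarAlgebra A] [NonUnitalCStarAlgebra B]

/-- lifting with control of the norm -/
theorem exists_lift (φ : A →⋆ₙₐ[ℂ] B) (x : A) {ε : ℝ} (hε : 0 < ε) (h : ‖φ x‖ ≤ ε) :
    ∃ y : A, φ y = φ x ∧ ‖y‖ ≤ ε := by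
  let _ : PartialOrder (Unitization ℂ A) := CStarAlgebra.spectralOrder _
  have _ : StarOrderedRing (Unitization ℂ A) := CStarAlgebra.spectralOrderedRing _
  let _ : PartialOrder (Unitization ℂ B) := CStarAlgebra.spectralOrder _
  have _ : StarOrderedRing (Unitization ℂ B) := CStarAlgebra.spectralOrderedRing _
  set g : ℝ → ℝ := fun u => 1 / max 1 (Real.sqrt u / ε) with hg
  have hgc : Continuous g := by
    rw [hg]
    refine continuous_const.div (continuous_const.max (Real.continuous_sqrt.div_const _))
      (fun u => ?_)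
    exact (lt_of_lt_of_le one_pos (le_max_left _ _)).ne'
  set X : Unitization ℂ A := (x : Unitization ℂ A) with hX
  set Q : Unitization ℂ A := star X * X with hQ
  have hQ0 : 0 ≤ Q := star_mul_self_nonneg X
  have hmem : X * cfc g Q ∈ final_ideal A := (final_ideal A).right_mem (final_mem_iff.2 ⟨x, rfl⟩) _
  obtain ⟨y, hy⟩ := final_mem_iff.1 hmem
  refine ⟨y, ?_, ?_⟩
  · have h1 : (Unitization.starMap φ) (X * cfc g Q) = ((φ x : B) : Unitization ℂ B) := by
      have h2 : (Unitization.starMap φ) X = ((φ x : B) : Unitization ℂ B) := by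
        rw [hX]; simp
      have h3 : (Unitization.starMap φ) (cfc g Q) = 1 := by
        rw [map_cfc' (Unitization.starMap φ) hgc (IsSelfAdjoint.of_nonneg hQ0)]
        have h4 : (Unitization.starMap φ) Q = star ((φ x : B) : Unitization ℂ B) *
            ((φ x : B) : Unitization ℂ B) := by
          rw [hQ, map_mul, map_star, h2]
        rw [h4]
        have h5 : 0 ≤ star ((φ x : B) : Unitization ℂ B) * ((φ x : B) : Unitization ℂ B) :=
          star_mul_self_nonneg _
        have h6 : ‖star ((φ x : B) : Unitization ℂ B) * ((φ x : B) : Unitization ℂ B)‖ ≤ ε * ε := by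
          rw [CStarRing.norm_star_mul_self, final_norm]
          exact mul_le_mul h h (norm_nonneg _) hε.le
        rw [← cfc_const_one ℝ (star ((φ x : B) : Unitization ℂ B) *
          ((φ x : B) : Unitization ℂ B))]
        refine cfc_congr (fun u hu => ?_)
        have h7 : 0 ≤ u := spec_nonneg h5 hu
        have h8 : u ≤ ε * ε := (spec_le_norm hu).trans h6
        have h9 : Real.sqrt u ≤ ε := by
          rw [Real.sqrt_le_left hε.le, sq]; exact h8
        rw [hg]
        simp only
        rw [max_eq_left ((div_le_one₀ hε).2 h9), div_one]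
      rw [map_mul, h2, h3, mul_one]
    rw [hy] at h1
    have h2 : (Unitization.starMap φ) ((y : A) : Unitization ℂ A) =
        ((φ y : B) : Unitization ℂ B) := by simp
    rw [h2] at h1
    exact Unitization.inr_injective h1
  · rw [← final_norm y, ← hy]
    have h1 : ‖X * cfc g Q‖ * ‖X * cfc g Q‖ ≤ ε * ε := by
      rw [← CStarRing.norm_star_mul_self, star_mul, star_cfc]
      have h2 : cfc g Q * star X * (X * cfc g Q) = cfc (fun u => g u * (u * g u)) Q := by
        have hid : Continuous (fun u => u * g u) := continuous_id.mul hgc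
        calc cfc g Q * star X * (X * cfc g Q) = cfc g Q * (Q * cfc g Q) := by
              rw [hQ]; simp only [mul_assoc]
          _ = _ := by rw [mul_cfc hgc hQ0, cfc_mul' hgc hid]
      rw [h2]
      refine norm_cfc_le' hQ0 (by positivity) (fun u hu _ => ?_)
      have hm : 0 < max 1 (Real.sqrt u / ε) := lt_of_lt_of_le one_pos (le_max_left _ _)
      have h3 : g u * (u * g u) = u / (max 1 (Real.sqrt u / ε)) ^ 2 := by
        rw [hg]; field_simp
      rw [h3, abs_of_nonneg (by positivity), div_le_iff₀ (by positivity)]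
      have h4 : Real.sqrt u / ε ≤ max 1 (Real.sqrt u / ε) := le_max_right _ _
      have h5 : 0 ≤ Real.sqrt u / ε := by positivity
      have h6 : (Real.sqrt u / ε) ^ 2 ≤ (max 1 (Real.sqrt u / ε)) ^ 2 :=
        pow_le_pow_left₀ h5 h4 2
      rw [div_pow, Real.sq_sqrt hu, div_le_iff₀ (by positivity)] at h6
      nlinarith
    nlinarith [norm_nonneg (X * cfc g Q)]

end

/-- the kernel of `φ` as an ideal of the unitization -/
noncomputable def kerIdeal {A B : Type u} [NonUnitalCStarAlgebra A] [NonUnitalCStarAlgebra B]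
    (φ : A →⋆ₙₐ[ℂ] B) : CIdeal (Unitization ℂ A) where
  toSub :=
    { carrier := {x | x.fst = 0 ∧ φ x.snd = 0}
      add_mem' := by
        rintro x y ⟨h1, h2⟩ ⟨h3, h4⟩
        exact ⟨by simp [h1, h3], by simp [h2, h4]⟩
      zero_mem' := ⟨by simp, by simp⟩
      smul_mem' := by
        rintro c x ⟨h1, h2⟩
        exact ⟨by simp [h1], by simp [h2]⟩ }
  mul_left' := by
    rintro a x ⟨h1, h2⟩
    refine ⟨by simp [h1], ?_⟩
    simp [h1, h2]
  mul_right' := by
    rintro a x ⟨h1, h2⟩
    refine ⟨by simp [h1], ?_⟩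
    simp [h1, h2]
  star_mem' := by
    rintro x ⟨h1, h2⟩
    refine ⟨by simp [h1], ?_⟩
    rw [Unitization.snd_star, map_star, h2, star_zero]
  closed' := by
    have hc : Continuous φ := by
      exact map_continuous φ
    have h1 : IsClosed {x : Unitization ℂ A | x.fst = 0} :=
      isClosed_singleton.preimage Unitization.continuous_fst
    have h2 : IsClosed {x : Unitization ℂ A | φ x.snd = 0} :=
      isClosed_singleton.preimage (hc.comp Unitization.continuous_snd)
    exact h1.inter h2

theorem mem_kerIdeal {A B : Type u} [NonUnitalCStarAlgebra A] [NonUnitalCStarAlgebra B]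
    {φ : A →⋆ₙₐ[ℂ] B} {x : Unitization ℂ A} :
    x ∈ kerIdeal φ ↔ ∃ a : A, φ a = 0 ∧ x = (a : Unitization ℂ A) := by
  constructor
  · rintro ⟨h1, h2⟩
    refine ⟨x.snd, h2, ?_⟩
    ext
    · simpa using h1
    · simp
  · rintro ⟨a, ha, rfl⟩
    exact ⟨by simp, by simpa using ha⟩

/-- extensions -/
theorem eltPI_ext {I A B : Type u} [NonUnitalCStarAlgebra I] [PartialOrder I] [StarOrderedRing I]
    [NonUnitalCStarAlgebra A] [PartialOrder A] [StarOrderedRing A]
    [NonUnitalCStarAlgebra B] [PartialOrder B] [StarOrderedRing B]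
    (ι : I →⋆ₙₐ[ℂ] A) (φ : A →⋆ₙₐ[ℂ] B) (hφ : Function.Surjective φ)
    (hex : ∀ a, φ a = 0 ↔ ∃ x, ι x = a) (hI : EltPI I) (hB : EltPI B) : EltPI A := by
  have hDB : Diag B := diag_of_eltPI B hB
  -- the ideal is purely infinite
  have hker : PIrel (kerIdeal φ) := by
    intro h hh h0 ε hε
    have hrI : cfc Real.sqrt h ∈ kerIdeal φ :=
      cfc_mem_ideal (kerIdeal φ) Real.continuous_sqrt Real.sqrt_zero (IsSelfAdjoint.of_nonneg h0) hh
    obtain ⟨a, ha, hra⟩ := mem_kerIdeal.1 hrI
    obtain ⟨z, hz⟩ := (hex a).1 ha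
    have hrr : cfc Real.sqrt h * cfc Real.sqrt h = h := t1_sqrt_mul_sqrt h0
    have hrs : star (cfc Real.sqrt h) = cfc Real.sqrt h := t1_sqrt_sa h
    have hhz : h = ((ι (star z * z) : A) : Unitization ℂ A) := by
      calc h = star (cfc Real.sqrt h) * cfc Real.sqrt h := by rw [hrs, hrr]
        _ = _ := by
            rw [hra, ← hz, map_mul, map_star, Unitization.inr_mul, Unitization.inr_star]
    obtain ⟨u, v, h1, h2, h3⟩ := hI (star z * z) (star_mul_self_nonneg z) ε hε
    have hle : ∀ w : I, ‖((ι w : A) : Unitization ℂ A)‖ ≤ ‖w‖ := fun w => by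
      rw [final_norm]; exact NonUnitalStarAlgHom.norm_apply_le ι w
    have hmem : ∀ w : I, ((ι w : A) : Unitization ℂ A) ∈ kerIdeal φ := fun w =>
      mem_kerIdeal.2 ⟨ι w, (hex _).2 ⟨w, rfl⟩, rfl⟩
    refine ⟨((ι u : A) : Unitization ℂ A), hmem u, ((ι v : A) : Unitization ℂ A), hmem v,
      ?_, ?_, ?_⟩
    · refine lt_of_le_of_lt ?_ h1
      have := hle (star u * (star z * z) * u - star z * z)
      rwa [map_sub, map_mul, map_mul, map_star, Unitization.inr_sub, Unitization.inr_mul,
        Unitization.inr_mul, Unitization.inr_star, ← hhz] at this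
    · refine lt_of_le_of_lt ?_ h2
      have := hle (star v * (star z * z) * v - star z * z)
      rwa [map_sub, map_mul, map_mul, map_star, Unitization.inr_sub, Unitization.inr_mul,
        Unitization.inr_mul, Unitization.inr_star, ← hhz] at this
    · refine lt_of_le_of_lt ?_ h3
      have := hle (star u * (star z * z) * v)
      rwa [map_mul, map_mul, map_star, Unitization.inr_mul,
        Unitization.inr_mul, Unitization.inr_star, ← hhz] at this
  -- `A` modulo the ideal
  have hmod : ∀ h ∈ final_ideal A, 0 ≤ h → ∀ ε : ℝ, 0 < ε →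
      ∃ (s : Fin 4 → Unitization ℂ A) (i : Fin 4 → Fin 4 → Unitization ℂ A),
      (∀ j, s j ∈ final_ideal A) ∧ (∀ j k, i j k ∈ kerIdeal φ) ∧
      ∀ j k, ‖star (s j) * h * s k - (if j = k then h else 0) - i j k‖ ≤ ε := by
    intro h hh h0 ε hε
    obtain ⟨a, rfl⟩ := final_mem_iff.1 hh
    rw [Unitization.inr_nonneg_iff] at h0
    obtain ⟨c, rfl⟩ := CStarAlgebra.nonneg_iff_eq_star_mul_self.1 h0
    obtain ⟨d, -, hd⟩ := hDB 4 (fun _ => φ c) ε hε
    choose s hs using fun j => hφ (d j)
    have key : ∀ j k, ∃ y : A, φ y = φ (star (s j) * (star c * c) * s k -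
        (if j = k then star c * c else 0)) ∧ ‖y‖ ≤ ε := by
      intro j k
      refine exists_lift φ _ hε ?_
      have h1 := hd j k
      have h2 : φ (star (s j) * (star c * c) * s k - (if j = k then star c * c else 0)) =
          star (φ c * d j) * (φ c * d k) - (if j = k then star (φ c) * φ c else 0) := by
        rw [map_sub, map_mul, map_mul, map_mul, map_star, map_star, hs, hs, star_mul]
        congr 1
        · simp only [mul_assoc]
        · split_ifs
          · rw [map_mul, map_star]
          · rw [map_zero]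
      rw [h2]
      exact h1.le
    choose y hy hyn using key
    refine ⟨fun j => ((s j : A) : Unitization ℂ A), fun j k =>
      ((star (s j) * (star c * c) * s k - (if j = k then star c * c else 0) - y j k : A) :
        Unitization ℂ A), fun j => final_mem_iff.2 ⟨_, rfl⟩, fun j k => mem_kerIdeal.2
        ⟨_, by rw [map_sub, hy, sub_self], rfl⟩, fun j k => ?_⟩
    have h3 : star ((s j : A) : Unitization ℂ A) * ((star c * c : A) : Unitization ℂ A) *
        ((s k : A) : Unitization ℂ A) - (if j = k then ((star c * c : A) : Unitization ℂ A)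
          else 0) - ((star (s j) * (star c * c) * s k - (if j = k then star c * c else 0) -
            y j k : A) : Unitization ℂ A) = ((y j k : A) : Unitization ℂ A) := by
      have h4 : (if j = k then ((star c * c : A) : Unitization ℂ A) else 0) =
          ((if j = k then star c * c else 0 : A) : Unitization ℂ A) := by
        split_ifs
        · rfl
        · rw [Unitization.inr_zero]
      rw [h4, ← Unitization.inr_star, ← Unitization.inr_mul, ← Unitization.inr_mul,
        ← Unitization.inr_sub, ← Unitization.inr_sub, sub_sub_cancel]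
    rw [h3, final_norm]
    exact hyn j k
  have hA : PIrel (final_ideal A) := ext_rel (kerIdeal φ) (final_ideal A)
    (fun x hx => by
      obtain ⟨a, -, rfl⟩ := mem_kerIdeal.1 hx
      exact final_mem_iff.2 ⟨a, rfl⟩) hker hmod
  intro h h0 ε hε
  obtain ⟨x, hx, y, hy, h1, h2, h3⟩ := hA (h : Unitization ℂ A) (final_mem_iff.2 ⟨h, rfl⟩)
    (Unitization.inr_nonneg_iff.2 h0) ε hε
  obtain ⟨x, rfl⟩ := final_mem_iff.1 hx
  obtain ⟨y, rfl⟩ := final_mem_iff.1 hy
  simp only [← Unitization.inr_star, ← Unitization.inr_mul, ← Unitization.inr_sub, final_norm]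
    at h1 h2 h3
  exact ⟨x, y, h1, h2, h3⟩

end Vale.Agent.P133.H832
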