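import Vale.Agent.P133.H832.ChainDef
import Mathlib.Analysis.CStarAlgebra.ContinuousFunctionalCalculus.Order

/-!
P133 (helper832, helper681): C*-algebras with a tame lattice of closed two-sided ideals.
-/

open scoped ComplexOrder

namespace Vale.Agent.P133.H832

universe u

/-- `J` is a closed two-sided ideal. -/
def IsClosedIdeal {A : Type u} [NonUnitalCStarAlgebra A] (J : Submodule ℂ A) : Prop :=
  IsClosed (J : Set A) ∧ ∀ a x : A, x ∈ J → a * x ∈ J ∧ x * a ∈ J

/-- For every closed two-sided ideal `J` of `A` and every `a ∉ J` there are closed ideals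
`⟨d⟩ ⊆ ⟨e⟩ ⊆ ⟨a⟩`, the first relatively compact in the second (`e` acts as a unit on `d`), with
`⟨e⟩ ⊄ J` and `⟨e⟩ ∩ J ⊆ ⟨d⟩`. This is the case if the closed ideals of `A` are totally ordered,
and if the primitive ideal space of `A` has a basis of compact open sets. -/
def IsTameC (A : Type u) [NonUnitalCStarAlgebra A] [PartialOrder A] : Prop :=
  ∀ J : Submodule ℂ A, IsClosedIdeal J → ∀ a ∉ J, ∃ e d : A, 0 ≤ e ∧ e * d = d ∧
    InId a e ∧ e ∉ J ∧ ∀ x ∈ J, InId e x → InId d x

end Vale.Agent.P133.H832
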