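import Vale.Agent.P133.H832.Tame1

/-!
P133 (helper832): prime quotients, maximal ideals of elements below `a`.
-/

open scoped ComplexOrder

namespace Vale.Agent.P133.H832

open Vale.Agent.P133

universe u

section

variable {A : Type u} [NonUnitalCStarAlgebra A] [PartialOrder A] [StarOrderedRing A]

omit [PartialOrder A] [StarOrderedRing A] in
theorem isClosedIdeal_left {P : Submodule ℂ A} (hP : IsClosedIdeal P) (b : A) :
    ∃ N : Submodule ℂ A, IsClosedIdeal N ∧ ∀ x, x ∈ N ↔ ∀ w, x * w * b ∈ P := by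
  let N : Submodule ℂ A :=
    { carrier := {x | ∀ w, x * w * b ∈ P}
      zero_mem' := fun w => by simp only [zero_mul]; exact P.zero_mem
      add_mem' := fun {x y} hx hy w => by rw [add_mul, add_mul]; exact P.add_mem (hx w) (hy w)
      smul_mem' := fun c x hx w => by
        rw [smul_mul_assoc, smul_mul_assoc]; exact P.smul_mem c (hx w) }
  refine ⟨N, ⟨?_, fun a x hx => ⟨fun w => ?_, fun w => ?_⟩⟩, fun x => Iff.rfl⟩
  · have h1 : (N : Set A) = ⋂ w : A, (fun x : A => x * w * b) ⁻¹' (P : Set A) := by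
      ext x
      rw [Set.mem_iInter]
      exact Iff.rfl
    rw [h1]
    exact isClosed_iInter fun w => hP.1.preimage (by fun_prop)
  · have h1 : a * x * w * b = a * (x * w * b) := by simp only [mul_assoc]
    rw [h1]
    exact (hP.2 _ _ (hx w)).1
  · have h1 : x * a * w * b = x * (a * w) * b := by simp only [mul_assoc]
    rw [h1]
    exact hx _

omit [PartialOrder A] [StarOrderedRing A] in
theorem isClosedIdeal_right {P : Submodule ℂ A} (hP : IsClosedIdeal P) (N : Submodule ℂ A) :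
    ∃ M : Submodule ℂ A, IsClosedIdeal M ∧ ∀ x, x ∈ M ↔ ∀ z ∈ N, ∀ w, z * w * x ∈ P := by
  let M : Submodule ℂ A :=
    { carrier := {x | ∀ z ∈ N, ∀ w, z * w * x ∈ P}
      zero_mem' := fun z _ w => by simp only [mul_zero]; exact P.zero_mem
      add_mem' := fun {x y} hx hy z hz w => by
        rw [mul_add]; exact P.add_mem (hx z hz w) (hy z hz w)
      smul_mem' := fun c x hx z hz w => by
        rw [mul_smul_comm]; exact P.smul_mem c (hx z hz w) }
  refine ⟨M, ⟨?_, fun a x hx => ⟨fun z hz w => ?_, fun z hz w => ?_⟩⟩, fun x => Iff.rfl⟩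
  · have h1 : (M : Set A) = ⋂ z : A, ⋂ _ : z ∈ N, ⋂ w : A,
        (fun x : A => z * w * x) ⁻¹' (P : Set A) := by
      ext x
      simp only [Set.mem_iInter]
      exact Iff.rfl
    rw [h1]
    exact isClosed_iInter fun z => isClosed_iInter fun _ => isClosed_iInter fun w =>
      hP.1.preimage (by fun_prop)
  · have h1 : z * w * (a * x) = z * (w * a) * x := by simp only [mul_assoc]
    rw [h1]
    exact hx z hz _
  · have h1 : z * w * (x * a) = z * w * x * a := by simp only [mul_assoc]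
    rw [h1]
    exact (hP.2 _ _ (hx z hz w)).2

/-- elements outside a closed ideal survive in a prime quotient -/
theorem exists_prime_quotient {J : Submodule ℂ A} (hJ : IsClosedIdeal J) {a : A} (ha : 0 ≤ a)
    (haJ : a ∉ J) :
    ∃ (B : Type u) (_ : NonUnitalCStarAlgebra B) (_ : PartialOrder B) (_ : StarOrderedRing B)
      (φ : A →⋆ₙₐ[ℂ] B), Function.Surjective φ ∧ (∀ x ∈ J, φ x = 0) ∧ φ a ≠ 0 ∧
        ∀ c b : A, φ c ≠ 0 → φ b ≠ 0 → ∃ w, φ (c * w * b) ≠ 0 := by
  obtain ⟨δ, hδ, hJδ⟩ : ∃ δ : ℝ, 0 < δ ∧ ∀ y ∈ J, δ ≤ ‖a - y‖ := by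
    by_contra hcon
    push Not at hcon
    refine haJ (hJ.lim fun ε hε => ?_)
    obtain ⟨y, hy, h1⟩ := hcon ε hε
    exact ⟨y, hy, by rwa [← norm_neg, neg_sub]⟩
  obtain ⟨P, hJP, hP, hPδ, hmax⟩ := exists_max (Q := fun P => ∀ y ∈ P, δ ≤ ‖a - y‖) hJ hJδ (by
    intro N hN y hy
    refine le_of_forall_pos_le_add fun ε hε => ?_
    obtain ⟨y', hy', h1⟩ := Metric.mem_closure_iff.1 hy ε hε
    obtain ⟨P, -, hP, hyP⟩ := hN y' hy'
    rw [dist_eq_norm] at h1
    calc δ ≤ ‖a - y'‖ := hP _ hyP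
      _ = ‖(a - y) + (y - y')‖ := by rw [sub_add_sub_cancel]
      _ ≤ ‖a - y‖ + ‖y - y'‖ := norm_add_le _ _
      _ ≤ ‖a - y‖ + ε := by linarith)
  obtain ⟨B, i1, i2, i3, φ, hφ, hk⟩ := hP.quot
  refine ⟨B, i1, i2, i3, φ, hφ, fun x hx => (hk x).2 (hJP hx), fun h0 => ?_, fun c b hc hb => ?_⟩
  · have h1 := hPδ a ((hk a).1 h0)
    rw [sub_self, norm_zero] at h1
    linarith
  by_contra hcon
  push Not at hcon
  have hcon' : ∀ w, c * w * b ∈ P := fun w => (hk _).1 (hcon w)
  have hcut : ∀ N : Submodule ℂ A, IsClosedIdeal N → P ≤ N → (∃ z ∈ N, z ∉ P) →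
      ∃ s : ℝ, s < δ ∧ ∀ s', s < s' → cfcₙ (fun t : ℝ => max (t - s') 0) a ∈ N := by
    rintro N hN hPN ⟨z, hz, hzP⟩
    have h1 : ¬ ∀ y ∈ N, δ ≤ ‖a - y‖ := fun h => hzP (by rw [← hmax N hPN hN h]; exact hz)
    push Not at h1
    obtain ⟨y, hy, h1⟩ := h1
    exact ⟨_, h1, fun s' hs' => hN.cut_mem ha hy hs'⟩
  obtain ⟨N, hN, hN'⟩ := isClosedIdeal_left hP b
  obtain ⟨M, hM, hM'⟩ := isClosedIdeal_right hP N
  obtain ⟨s1, h1, hs1⟩ := hcut N hN (fun x hx => (hN' x).2 fun w =>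
    (hP.2 _ _ (hP.2 _ _ hx).2).2) ⟨c, (hN' c).2 hcon', fun h => hc ((hk c).2 h)⟩
  obtain ⟨s2, h2, hs2⟩ := hcut M hM (fun x hx => (hM' x).2 fun z _ w =>
    (hP.2 _ _ hx).1) ⟨b, (hM' b).2 fun z hz w => (hN' z).1 hz w, fun h => hb ((hk b).2 h)⟩
  set s : ℝ := (max (max s1 s2) 0 + δ) / 2 with hs
  have hm1 : max (max s1 s2) 0 < δ := max_lt (max_lt h1 h2) hδ
  have hs0 : 0 < s := by have := le_max_right (max s1 s2) 0; linarith
  have hsδ : s < δ := by linarith
  have hs1s : s1 < s := by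
    have := (le_max_left s1 s2).trans (le_max_left (max s1 s2) 0); linarith
  have hs2s : s2 < s := by
    have := (le_max_right s1 s2).trans (le_max_left (max s1 s2) 0); linarith
  set h : A := cfcₙ (fun t : ℝ => max (t - s) 0) a with hh
  obtain ⟨hh0, -, hha⟩ := cutdown_le ha hs0
  have hhs : star h = h := (IsSelfAdjoint.of_nonneg hh0).star_eq
  have h3 : h * h * h ∈ P := (hM' h).1 (hs2 s hs2s) h (hs1 s hs1s) h
  have h4 : h ∈ P := by
    refine hP.of_star_mul_self (hP.of_star_mul_self ?_)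
    have h5 : star (star h * h) * (star h * h) = h * h * h * h := by
      rw [star_mul, star_star, hhs]; simp only [mul_assoc]
    rw [h5]
    exact (hP.2 _ _ h3).2
  have h5 := hPδ h h4
  rw [← norm_neg, neg_sub] at h5
  linarith

theorem infB_lim {a c : A} (hc : 0 ≤ c)
    (h : ∀ ε : ℝ, 0 < ε → ∃ c', InfB a c' ∧ ‖c' - c‖ < ε) : InfB a c := by
  refine ⟨hc, fun m ε hε => ?_⟩
  obtain ⟨c', hc', hcc⟩ := h (ε / 2) (half_pos hε)
  obtain ⟨r, hr⟩ := hc'.2 m (ε / 2) (half_pos hε)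
  refine ⟨r, fun i j => ?_⟩
  have h6 : ‖(if i = j then c' else 0) - (if i = j then c else 0)‖ < ε / 2 := by
    split_ifs
    · exact hcc
    · simpa using half_pos hε
  have h7 := hr i j
  calc _ ≤ ‖star (r i) * a * r j - (if i = j then c' else 0)‖ +
        ‖(if i = j then c' else 0) - (if i = j then c else 0)‖ := by
        refine le_trans (le_of_eq ?_) (norm_add_le _ _)
        rw [sub_add_sub_cancel]
    _ < ε := by linarith

/-- limits of elements `x` with `InfB a (x* x)` -/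
theorem infB_closure {a x : A} {N : Submodule ℂ A} (hN : ∀ y ∈ N, InfB a (star y * y))
    (hx : x ∈ N.topologicalClosure) : InfB a (star x * x) := by
  refine infB_lim (star_mul_self_nonneg x) fun ε hε => ?_
  obtain ⟨u, hu, hux⟩ := mem_closure_iff_seq_limit.1 hx
  have h1 : Filter.Tendsto (fun n => star (u n) * u n) Filter.atTop (nhds (star x * x)) :=
    (hux.star).mul hux
  obtain ⟨n, hn⟩ := (Metric.tendsto_atTop.1 h1) ε hε
  exact ⟨_, hN _ (hu n), by rw [← dist_eq_norm]; exact hn n le_rfl⟩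

/-- a maximal closed ideal of elements all multiples of which are below `a` -/
theorem exists_maxIdeal (a : A) :
    ∃ J : Submodule ℂ A, IsClosedIdeal J ∧ (∀ x ∈ J, InfB a (star x * x)) ∧
      ∀ g : A, 0 ≤ g → (∀ j ∈ J, 0 ≤ j → InfB a (j + g)) → g ∈ J := by
  have h0 : IsClosedIdeal (⊥ : Submodule ℂ A) := by
    refine ⟨?_, fun b x hx => ?_⟩
    · rw [Submodule.bot_coe]; exact isClosed_singleton
    · rw [Submodule.mem_bot] at hx
      rw [hx, mul_zero, zero_mul]
      exact ⟨Submodule.zero_mem _, Submodule.zero_mem _⟩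
  have h00 : InfB a (0 : A) := ⟨le_rfl, fun m ε hε => ⟨fun _ => 0, fun i j => by simpa using hε⟩⟩
  obtain ⟨J, -, hJ, hJa, hmax⟩ := exists_max (Q := fun P => ∀ x ∈ P, InfB a (star x * x)) h0
    (by
      intro x hx
      rw [Submodule.mem_bot] at hx
      rw [hx, mul_zero]
      exact h00) (by
    intro N hN x hx
    refine infB_closure (fun y hy => ?_) hx
    obtain ⟨P, -, hP, hyP⟩ := hN y hy
    exact hP y hyP)
  refine ⟨J, hJ, hJa, fun g hg hgJ => ?_⟩
  obtain ⟨I, hI, hI'⟩ := isClosedIdeal_inId g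
  have hN : ∀ b x : A, x ∈ J ⊔ I → b * x ∈ J ⊔ I ∧ x * b ∈ J ⊔ I := by
    intro b x hx
    obtain ⟨j, hj, z, hz, rfl⟩ := Submodule.mem_sup.1 hx
    rw [mul_add, add_mul]
    exact ⟨Submodule.add_mem_sup (hJ.2 _ _ hj).1 (hI.2 _ _ hz).1,
      Submodule.add_mem_sup (hJ.2 _ _ hj).2 (hI.2 _ _ hz).2⟩
  have h1 : ∀ x ∈ (J ⊔ I).topologicalClosure, InfB a (star x * x) := by
    intro x hx
    refine infB_closure (fun y hy => ?_) hx
    obtain ⟨j, hj, z, hz, rfl⟩ := Submodule.mem_sup.1 hy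
    refine (hgJ (star j * j) (hJ.2 _ _ hj).1 (star_mul_self_nonneg j)).sub ?_
    refine subId_of_inId' (add_nonneg (star_mul_self_nonneg j) hg) (star_mul_self_nonneg _) ?_
    obtain ⟨K, hK, hK'⟩ := isClosedIdeal_inId (star j * j + g)
    have h2 : star j * j + g ∈ K := (hK' _).2 (InId.refl _)
    have h3 : j ∈ K := hK.of_star_mul_self
      (hK.of_le (star_mul_self_nonneg j) (le_add_of_nonneg_right hg) h2)
    have h4 : g ∈ K := hK.of_le hg (le_add_of_nonneg_left (star_mul_self_nonneg j)) h2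
    have h5 : z ∈ K := hK.inId h4 ((hI' z).1 hz)
    exact (hK' _).1 (hK.2 _ _ (K.add_mem h3 h5)).1
  have h2 := hmax _ (le_sup_left.trans (Submodule.le_topologicalClosure _))
    (isClosedIdeal_closure hN) h1
  rw [← h2]
  exact Submodule.le_topologicalClosure _ (le_sup_right (a := J) ((hI' g).2 (InId.refl g)))

/-- totally ordered ideals are tame -/
theorem tame_of_chain (hA : IsChainC A) : IsTameC A := by
  intro J hJ a haJ
  set b : A := star a * a with hb
  have hb0 : 0 ≤ b := star_mul_self_nonneg a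
  have hbJ : b ∉ J := fun h => haJ (hJ.of_star_mul_self h)
  obtain ⟨δ, hδ, hd⟩ : ∃ δ : ℝ, 0 < δ ∧ cfcₙ (fun t : ℝ => max (t - δ) 0) b ∉ J := by
    by_contra hcon
    push Not at hcon
    refine hbJ (hJ.lim fun ε hε => ⟨_, hcon (ε / 2) (half_pos hε), ?_⟩)
    have := (cutdown_le hb0 (half_pos hε)).2.2
    linarith
  set f : ℝ → ℝ := fun t => min (max t 0 / δ) 1 with hf
  have hfc : Continuous f := by fun_prop
  have hf0 : f 0 = 0 := by simp [hf]
  have hdc : Continuous (fun t : ℝ => max (t - δ) 0) := by fun_prop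
  have hd0 : (fun t : ℝ => max (t - δ) 0) 0 = 0 := by
    simp only [zero_sub]; exact max_eq_right (by linarith)
  have hed : cfcₙ f b * cfcₙ (fun t : ℝ => max (t - δ) 0) b =
      cfcₙ (fun t : ℝ => max (t - δ) 0) b := by
    rw [← cfcₙ_mul f (fun t : ℝ => max (t - δ) 0) b hfc.continuousOn hf0 hdc.continuousOn hd0]
    refine cfcₙ_congr fun t _ => ?_
    simp only [hf]
    rcases le_total (t - δ) 0 with h | h
    · rw [max_eq_right h, mul_zero]
    · have h1 : 1 ≤ max t 0 / δ := by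
        rw [le_div_iff₀ hδ, one_mul]; exact (by linarith : δ ≤ t).trans (le_max_left _ _)
      rw [min_eq_right h1, one_mul]
  have heI : InId a (cfcₙ f b) := by
    obtain ⟨I, hI, hI'⟩ := isClosedIdeal_inId a
    rw [← hI']
    have hbI : b ∈ I := (hI.2 _ _ ((hI' a).2 (InId.refl a))).1
    refine hI.of_le (y := (1 / δ) • b) (cfcₙ_nonneg fun t _ => le_min (by positivity) (by norm_num))
      ?_ ?_
    · have h1 : (1 / δ) • b = cfcₙ (fun t : ℝ => (1 / δ) • t) b := by
        rw [cfcₙ_smul (1 / δ) (fun t : ℝ => t) b (by fun_prop) rfl, cfcₙ_id' ℝ b]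
      rw [h1]
      refine cfcₙ_mono (fun t ht => ?_) hfc.continuousOn (by fun_prop) hf0 (by simp)
      have ht0 : 0 ≤ t := quasispectrum_nonneg_of_nonneg b hb0 t ht
      simp only [hf, max_eq_left ht0, smul_eq_mul]
      exact (min_le_left _ _).trans (le_of_eq (by ring))
    · have h1 : (1 / δ) • b = ((1 / δ : ℝ) : ℂ) • b := by rw [Complex.coe_smul]
      rw [h1]
      exact I.smul_mem _ hbI
  refine ⟨cfcₙ f b, cfcₙ (fun t : ℝ => max (t - δ) 0) b, cfcₙ_nonneg fun t _ =>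
    le_min (by positivity) (by norm_num), hed, heI, fun he => hd ?_, fun x hx _ => ?_⟩
  · rw [← hed]; exact (hJ.2 _ _ he).2
  · rcases hA (cfcₙ (fun t : ℝ => max (t - δ) 0) b) x with h | h
    · exact h
    · exact absurd (hJ.inId hx h) hd

end

end Vale.Agent.P133.H832
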