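import Vale.Agent.P133.Bdl.B1

/-!
P133 (helper832): the diagonalization property for pairs of arbitrary elements with multipliers
whose norms depend on the accuracy of the diagonal entries only.
-/

open scoped ComplexOrder

namespace Vale.Agent.P133.H832

open Vale.Agent.P133

universe u

/-- for all contractions `a, b` there are `s, t` with `(as)*(as) ≈ a*a`, `(bt)*(bt) ≈ b*b` and
`(as)*(bt)` as small as we like, where the norms of `s, t` are bounded in terms of `δ` only. -/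
def PairU (A : Type u) [NonUnitalCStarAlgebra A] : Prop :=
  ∀ δ : ℝ, 0 < δ → δ < 1 → ∀ a b : A, ‖a‖ ≤ 1 → ‖b‖ ≤ 1 → ∀ η : ℝ, 0 < η →
    ∃ s t : A, ‖s‖ ^ 2 ≤ δ⁻¹ ∧ ‖t‖ ^ 2 ≤ δ⁻¹ ∧ ‖a * s‖ ≤ 1 ∧ ‖b * t‖ ≤ 1 ∧
      ‖star (a * s) * (a * s) - star a * a‖ ≤ 2 * δ + η ∧
      ‖star (b * t) * (b * t) - star b * b‖ ≤ 2 * δ + η ∧
      ‖star (a * s) * (b * t)‖ ≤ η

section unital

variable {M : Type u} [CStarAlgebra M] [PartialOrder M] [StarOrderedRing M]

/-- normalization of an approximate relation -/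
theorem normalize (A : CIdeal M) {x s₀ : M} (hs₀ : s₀ ∈ A) (hx : 0 ≤ x) (hx1 : ‖x‖ ≤ 1) {η : ℝ}
    (hη : 0 < η) (h : ‖star s₀ * x ^ 2 * s₀ - x ^ 2‖ < η) :
    (1 + η)⁻¹ • s₀ ∈ A ∧ ‖x * ((1 + η)⁻¹ • s₀)‖ ≤ 1 ∧
      ‖star (x * ((1 + η)⁻¹ • s₀)) * (x * ((1 + η)⁻¹ • s₀)) - x * x‖ ≤ 3 * η := by
  have hxs : star x = x := (IsSelfAdjoint.of_nonneg hx).star_eq
  have e0 : star s₀ * x ^ 2 * s₀ = star (x * s₀) * (x * s₀) := by
    rw [star_mul, hxs]; noncomm_ring
  rw [e0, sq x] at h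
  have hxx : ‖x * x‖ ≤ 1 := (norm_mul_le _ _).trans (mul_le_one₀ hx1 (norm_nonneg _) hx1)
  have hw : ‖star (x * s₀) * (x * s₀)‖ ≤ 1 + η := by
    calc ‖star (x * s₀) * (x * s₀)‖ = ‖(star (x * s₀) * (x * s₀) - x * x) + x * x‖ := by
          rw [sub_add_cancel]
      _ ≤ ‖star (x * s₀) * (x * s₀) - x * x‖ + ‖x * x‖ := norm_add_le _ _
      _ ≤ 1 + η := by linarith
  set l : ℝ := (1 + η)⁻¹ with hl
  have hl0 : 0 < l := by positivity
  have hl1 : l * (1 + η) = 1 := inv_mul_cancel₀ (by positivity)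
  have hl2 : l ≤ 1 := inv_le_one_of_one_le₀ (by linarith)
  have e1 : star (x * (l • s₀)) * (x * (l • s₀)) = (l * l) • (star (x * s₀) * (x * s₀)) := by
    rw [mul_smul_comm, star_smul, star_trivial, smul_mul_smul_comm]
  have hle : ‖star (x * (l • s₀)) * (x * (l • s₀))‖ ≤ 1 := by
    rw [e1, norm_smul, Real.norm_of_nonneg (by positivity)]
    calc l * l * ‖star (x * s₀) * (x * s₀)‖ ≤ l * l * (1 + η) := by gcongr
      _ = l := by rw [mul_assoc, hl1, mul_one]
      _ ≤ 1 := hl2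
  refine ⟨A.smul_mem _ hs₀, ?_, ?_⟩
  · rw [CStarRing.norm_star_mul_self] at hle
    nlinarith only [hle, norm_nonneg (x * (l • s₀))]
  · rw [e1]
    have e2 : (l * l) • (star (x * s₀) * (x * s₀)) - x * x =
        (star (x * s₀) * (x * s₀) - x * x) - (1 - l * l) • (star (x * s₀) * (x * s₀)) := by
      rw [sub_smul, one_smul]; abel
    have hl3 : l * l ≤ 1 := by nlinarith only [hl0, hl2]
    rw [e2]
    calc ‖(star (x * s₀) * (x * s₀) - x * x) - (1 - l * l) • (star (x * s₀) * (x * s₀))‖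
        ≤ ‖star (x * s₀) * (x * s₀) - x * x‖ + ‖(1 - l * l) • (star (x * s₀) * (x * s₀))‖ :=
          norm_sub_le _ _
      _ ≤ η + (1 - l * l) * (1 + η) := by
          rw [norm_smul, Real.norm_of_nonneg (by linarith)]
          gcongr
      _ ≤ 3 * η := by nlinarith only [hl1, hl0, hl2, hη]

/-- one side of the construction -/
theorem side (A : CIdeal M) {a : M} (ha : a ∈ A) (ha1 : ‖a‖ ≤ 1) {δ : ℝ} (hδ : 0 < δ)
    {s₁ : M} {η : ℝ}
    (h1 : ‖cfc (K.ramp δ (2 * δ)) (a * star a) * s₁‖ ≤ 1)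
    (h2 : ‖star (cfc (K.ramp δ (2 * δ)) (a * star a) * s₁) *
        (cfc (K.ramp δ (2 * δ)) (a * star a) * s₁) -
        cfc (K.ramp δ (2 * δ)) (a * star a) * cfc (K.ramp δ (2 * δ)) (a * star a)‖ ≤ η) :
    ∃ s ∈ A, ‖s‖ ^ 2 ≤ δ⁻¹ ∧ a * s = cfc (K.ramp δ (2 * δ)) (a * star a) * s₁ * a ∧
      ‖a * s‖ ≤ 1 ∧ ‖star (a * s) * (a * s) - star a * a‖ ≤ 2 * δ + η := by
  have hP : 0 ≤ a * star a := mul_star_self_nonneg a
  set x : M := cfc (K.ramp δ (2 * δ)) (a * star a) with hx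
  set g : M := cfc (K.rampv δ (2 * δ)) (a * star a) with hg
  have hxs : star x = x := star_cfc _ _
  have hgs : star g = g := star_cfc _ _
  have hc0 : Continuous (fun s => K.rampv δ (2 * δ) s) := K.rampv_cont hδ
  have hc1 : Continuous (fun s => s * K.rampv δ (2 * δ) s) := continuous_id.mul hc0
  have hc2 : Continuous (fun s => K.rampv δ (2 * δ) s * (s * K.rampv δ (2 * δ) s)) := hc0.mul hc1
  have hc3 : Continuous (fun s => K.ramp δ (2 * δ) s * K.ramp δ (2 * δ) s) :=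
    (K.ramp_cont _ _).mul (K.ramp_cont _ _)
  have hc4 : Continuous (fun s => δ⁻¹ * (K.ramp δ (2 * δ) s * K.ramp δ (2 * δ) s)) :=
    continuous_const.mul hc3
  have hc5 : Continuous (fun s => 1 - K.ramp δ (2 * δ) s * K.ramp δ (2 * δ) s) :=
    continuous_const.sub hc3
  have hxg : a * star a * g = x := by
    rw [hg, hx, cfc_factor (K.rampv_cont hδ) hP (fun s _ => K.ramp_factor hδ (by linarith))]
  have has : a * (star a * g * s₁ * a) = x * s₁ * a := by
    rw [← hxg]; noncomm_ring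
  have hnas : ‖x * s₁ * a‖ ≤ 1 :=
    (norm_mul_le _ _).trans (mul_le_one₀ h1 (norm_nonneg _) ha1)
  refine ⟨star a * g * s₁ * a, A.left_mem _ ha, ?_, has, by rw [has]; exact hnas, ?_⟩
  · have e1 : star (star a * g * s₁ * a) * (star a * g * s₁ * a) =
        star (s₁ * a) * (g * (a * star a) * g) * (s₁ * a) := by
      simp only [star_mul, star_star, hgs]; noncomm_ring
    have hle : g * (a * star a) * g ≤ δ⁻¹ • (x * x) := by
      have e2 : g * (a * star a) * g =
          cfc (fun u => K.rampv δ (2 * δ) u * (u * K.rampv δ (2 * δ) u)) (a * star a) := by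
        rw [mul_assoc, hg, mul_cfc (K.rampv_cont hδ) hP,
          cfc_mul' (K.rampv_cont hδ) hc1]
      have e3 : δ⁻¹ • (x * x) =
          cfc (fun u => δ⁻¹ * (K.ramp δ (2 * δ) u * K.ramp δ (2 * δ) u)) (a * star a) := by
        rw [hx, cfc_mul' (K.ramp_cont _ _) (K.ramp_cont _ _),
          ← cfc_smul δ⁻¹ _ (a * star a) hc3.continuousOn]
        rfl
      rw [e2, e3]
      refine cfc_le_cfc hc2 hc4 hP (fun u hu => ?_)
      rcases le_total u δ with h | h
      · have h0 : K.ramp δ (2 * δ) u = 0 := K.ramp_eq_zero (by linarith) h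
        simp only [K.rampv, h0, zero_div, mul_zero, le_refl]
      · have hu0 : 0 < u := lt_of_lt_of_le hδ h
        have e4 : K.rampv δ (2 * δ) u = K.ramp δ (2 * δ) u / u := by
          rw [K.rampv, max_eq_right h]
        rw [e4]
        have e5 : K.ramp δ (2 * δ) u / u * (u * (K.ramp δ (2 * δ) u / u)) =
            u⁻¹ * (K.ramp δ (2 * δ) u * K.ramp δ (2 * δ) u) := by
          field_simp
        rw [e5]
        exact mul_le_mul_of_nonneg_right (inv_anti₀ hδ h) (mul_self_nonneg _)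
    have h3 : star (star a * g * s₁ * a) * (star a * g * s₁ * a) ≤
        δ⁻¹ • (star (x * s₁ * a) * (x * s₁ * a)) := by
      rw [e1]
      calc star (s₁ * a) * (g * (a * star a) * g) * (s₁ * a)
          ≤ star (s₁ * a) * (δ⁻¹ • (x * x)) * (s₁ * a) := K.conj_le hle _
        _ = δ⁻¹ • (star (x * s₁ * a) * (x * s₁ * a)) := by
            rw [mul_smul_comm, smul_mul_assoc]
            congr 1
            simp only [star_mul, hxs]; noncomm_ring
    have h4 := K.norm_mono (star_mul_self_nonneg _) h3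
    rw [norm_smul, Real.norm_of_nonneg (by positivity), CStarRing.norm_star_mul_self,
      CStarRing.norm_star_mul_self] at h4
    rw [sq]
    refine h4.trans ?_
    calc δ⁻¹ * (‖x * s₁ * a‖ * ‖x * s₁ * a‖) ≤ δ⁻¹ * 1 := by
          gcongr
          exact mul_le_one₀ hnas (norm_nonneg _) hnas
      _ = δ⁻¹ := mul_one _
  · rw [has]
    have e1 : star (x * s₁ * a) * (x * s₁ * a) - star a * a =
        star a * (star (x * s₁) * (x * s₁) - x * x) * a -
          star a * (1 - x * x) * a := by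
      simp only [star_mul]; noncomm_ring
    have e2 : (1 : M) - x * x =
        cfc (fun u => 1 - K.ramp δ (2 * δ) u * K.ramp δ (2 * δ) u) (a * star a) := by
      rw [hx, cfc_mul' (K.ramp_cont _ _) (K.ramp_cont _ _),
        cfc_sub (fun _ => (1 : ℝ)) (fun u => K.ramp δ (2 * δ) u * K.ramp δ (2 * δ) u)
          (a * star a) continuousOn_const hc3.continuousOn,
        cfc_const_one ℝ (a * star a)]
    have h3 : ‖star a * (1 - x * x) * a‖ ≤ 2 * δ := by
      have h4 := norm_conj_cfc_le (g := fun u => 1 - K.ramp δ (2 * δ) u * K.ramp δ (2 * δ) u)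
        hc5 (fun s _ => by nlinarith only [K.ramp_nonneg δ (2 * δ) s, K.ramp_le_one δ (2 * δ) s])
        (δ := 2 * δ) (by positivity) (fun s hs => by
          rcases le_total s (2 * δ) with h | h
          · nlinarith only [K.ramp_nonneg δ (2 * δ) s, K.ramp_le_one δ (2 * δ) s, h, hs,
              mul_nonneg hs (mul_self_nonneg (K.ramp δ (2 * δ) s))]
          · rw [K.ramp_eq_one (by linarith) h]; simp only [mul_one, sub_self, mul_zero]; positivity)
        (star a)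
      rw [star_star, ← e2] at h4
      exact h4
    rw [e1]
    calc ‖star a * (star (x * s₁) * (x * s₁) - x * x) * a - star a * (1 - x * x) * a‖
        ≤ ‖star a * (star (x * s₁) * (x * s₁) - x * x) * a‖ + ‖star a * (1 - x * x) * a‖ :=
          norm_sub_le _ _
      _ ≤ η + 2 * δ := by
          refine add_le_add ?_ h3
          have h5 : ‖star a‖ ≤ 1 := by rw [norm_star]; exact ha1
          calc ‖star a * (star (x * s₁) * (x * s₁) - x * x) * a‖
              ≤ ‖star a‖ * ‖star (x * s₁) * (x * s₁) - x * x‖ * ‖a‖ :=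
                (norm_mul_le _ _).trans (by gcongr; exact norm_mul_le _ _)
            _ ≤ 1 * η * 1 := by
                have hη0 : 0 ≤ η := (norm_nonneg _).trans h2
                gcongr
            _ = η := by ring
      _ = 2 * δ + η := by ring

/-- the relative form -/
theorem pairU_rel (A : CIdeal M) (hA : PIrel A) {δ : ℝ} (hδ : 0 < δ) {a b : M} (ha : a ∈ A)
    (hb : b ∈ A) (ha1 : ‖a‖ ≤ 1) (hb1 : ‖b‖ ≤ 1) {η : ℝ} (hη : 0 < η) :
    ∃ s ∈ A, ∃ t ∈ A, ‖s‖ ^ 2 ≤ δ⁻¹ ∧ ‖t‖ ^ 2 ≤ δ⁻¹ ∧ ‖a * s‖ ≤ 1 ∧ ‖b * t‖ ≤ 1 ∧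
      ‖star (a * s) * (a * s) - star a * a‖ ≤ 2 * δ + η ∧
      ‖star (b * t) * (b * t) - star b * b‖ ≤ 2 * δ + η ∧
      ‖star (a * s) * (b * t)‖ ≤ η := by
  have hP : 0 ≤ a * star a := mul_star_self_nonneg a
  have hQ : 0 ≤ b * star b := mul_star_self_nonneg b
  have hpx : PC A (cfc (K.ramp δ (2 * δ)) (a * star a)) :=
    K.PC.ramp A hP (A.right_mem ha _) hδ.le (by linarith)
  have hpy : PC A (cfc (K.ramp δ (2 * δ)) (b * star b)) :=
    K.PC.ramp A hQ (A.right_mem hb _) hδ.le (by linarith)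
  set x : M := cfc (K.ramp δ (2 * δ)) (a * star a) with hx
  set y : M := cfc (K.ramp δ (2 * δ)) (b * star b) with hy
  have hη3 : 0 < η / 3 := by positivity
  obtain ⟨s₀, hs₀, t₀, ht₀, h1, h2, h3⟩ := T7 A hA hpx.mem hpy.mem hpx.nonneg hpy.nonneg hη3
  obtain ⟨hs₁, hs₂, hs₃⟩ := normalize A hs₀ hpx.nonneg hpx.norm_le hη3 h1
  obtain ⟨ht₁, ht₂, ht₃⟩ := normalize A ht₀ hpy.nonneg hpy.norm_le hη3 h2
  obtain ⟨s, hs, hsn, has, has1, has2⟩ := side A ha ha1 hδ (s₁ := (1 + η / 3)⁻¹ • s₀) (η := η) hs₂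
    (hs₃.trans (by linarith))
  obtain ⟨t, ht, htn, hbt, hbt1, hbt2⟩ := side A hb hb1 hδ (s₁ := (1 + η / 3)⁻¹ • t₀) (η := η) ht₂
    (ht₃.trans (by linarith))
  refine ⟨s, hs, t, ht, hsn, htn, has1, hbt1, has2, hbt2, ?_⟩
  rw [has, hbt, ← hx, ← hy]
  set l : ℝ := (1 + η / 3)⁻¹ with hl
  have hl0 : 0 < l := by positivity
  have hl1 : l ≤ 1 := inv_le_one_of_one_le₀ (by linarith)
  have hxs : star x = x := hpx.star_eq
  have e1 : star (x * (l • s₀) * a) * (y * (l • t₀) * b) =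
      (l * l) • (star a * (star s₀ * x * y * t₀) * b) := by
    simp only [mul_smul_comm, smul_mul_assoc, star_smul, star_trivial, star_mul, hxs, smul_smul]
    congr 1; noncomm_ring
  rw [e1, norm_smul, Real.norm_of_nonneg (by positivity)]
  have h5 : ‖star a‖ ≤ 1 := by rw [norm_star]; exact ha1
  calc l * l * ‖star a * (star s₀ * x * y * t₀) * b‖ ≤ 1 * 1 * (1 * (η / 3) * 1) := by
        gcongr
        refine (norm_mul_le _ _).trans ?_
        gcongr
        exact norm_mul_le_of_le h5 h3.le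
    _ ≤ η := by linarith

end unital

/-- purely infinite algebras have property `PairU` -/
theorem pairU (A : Type u) [NonUnitalCStarAlgebra A] [PartialOrder A] [StarOrderedRing A]
    (hpi : ∀ h : A, 0 ≤ h → ∀ ε : ℝ, 0 < ε → ∃ x y : A,
      ‖star x * h * x - h‖ < ε ∧ ‖star y * h * y - h‖ < ε ∧ ‖star x * h * y‖ < ε) : PairU A := by
  have hP : PIrel (final_ideal A) := by
    intro h hh h0 ε hε
    obtain ⟨h, rfl⟩ := final_mem_iff.1 hh
    rw [Unitization.inr_nonneg_iff] at h0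
    obtain ⟨u, v, h1, h2, h3⟩ := hpi h h0 ε hε
    refine ⟨(u : Unitization ℂ A), final_mem_iff.2 ⟨u, rfl⟩, (v : Unitization ℂ A),
      final_mem_iff.2 ⟨v, rfl⟩, ?_, ?_, ?_⟩
    · rw [← Unitization.inr_star, ← Unitization.inr_mul, ← Unitization.inr_mul,
        ← Unitization.inr_sub, final_norm]
      exact h1
    · rw [← Unitization.inr_star, ← Unitization.inr_mul, ← Unitization.inr_mul,
        ← Unitization.inr_sub, final_norm]
      exact h2
    · rw [← Unitization.inr_star, ← Unitization.inr_mul, ← Unitization.inr_mul, final_norm]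
      exact h3
  intro δ hδ _ a b ha hb η hη
  obtain ⟨s, hs, t, ht, h1, h2, h3, h4, h5, h6, h7⟩ := pairU_rel (final_ideal A) hP hδ
    (a := (a : Unitization ℂ A)) (b := (b : Unitization ℂ A))
    (final_mem_iff.2 ⟨a, rfl⟩) (final_mem_iff.2 ⟨b, rfl⟩) (by rwa [final_norm])
    (by rwa [final_norm]) hη
  obtain ⟨s, rfl⟩ := final_mem_iff.1 hs
  obtain ⟨t, rfl⟩ := final_mem_iff.1 ht
  simp only [← Unitization.inr_star, ← Unitization.inr_mul, ← Unitization.inr_sub, final_norm]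
    at h1 h2 h3 h4 h5 h6 h7
  exact ⟨s, t, h1, h2, h3, h4, h5, h6, h7⟩

end Vale.Agent.P133.H832
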