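import Mathlib.Analysis.CStarAlgebra.Classes

/-!
P133 (helper832, helper681): simple C*-algebras.
-/

namespace Vale.Agent.P133.H832

universe u

/-- The C*-algebra `A` is simple: every nonzero element generates a dense two-sided ideal. -/
def IsSimpleC (A : Type u) [NonUnitalCStarAlgebra A] : Prop :=
  ∀ a b : A, a ≠ 0 → ∀ ε : ℝ, 0 < ε → ∃ (m : ℕ) (r s : Fin m → A),
    ‖∑ k, r k * a * s k - b‖ < ε

end Vale.Agent.P133.H832
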