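import Vale.Agent.P133.H832.Full
import Vale.Agent.P133.H832.ChainDef
import Vale.Agent.P133.H832.ChainI
import Vale.Agent.P133.H832.ChainQ

/-!
P133 (helper832): a quotient of an algebra with totally ordered ideals.
-/

open scoped ComplexOrder

namespace Vale.Agent.P133.H832

open Vale.Agent.P133

universe u

section

variable {A : Type u} [NonUnitalCStarAlgebra A]

theorem InId.term (x r s : A) : InId x (r * x * s) := fun ε hε =>
  ⟨1, fun _ => r, fun _ => s, by simpa using hε⟩

theorem InId.zero (x : A) : InId x 0 := fun ε hε =>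
  ⟨0, Fin.elim0, Fin.elim0, by simpa using hε⟩

theorem InId.add {x y z : A} (hy : InId x y) (hz : InId x z) : InId x (y + z) := by
  intro ε hε
  obtain ⟨m, r, s, h1⟩ := hy (ε / 2) (half_pos hε)
  obtain ⟨m', r', s', h2⟩ := hz (ε / 2) (half_pos hε)
  refine ⟨m + m', Fin.append r r', Fin.append s s', ?_⟩
  rw [Fin.sum_univ_add]
  simp only [Fin.append_left, Fin.append_right]
  have h3 : ∑ k, r k * x * s k + ∑ k, r' k * x * s' k - (y + z) =
      (∑ k, r k * x * s k - y) + (∑ k, r' k * x * s' k - z) := by abel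
  rw [h3]
  exact (norm_add_le _ _).trans_lt (by linarith)

theorem InId.lim {x y : A} (h : ∀ ε : ℝ, 0 < ε → ∃ z, InId x z ∧ ‖z - y‖ < ε) : InId x y := by
  intro ε hε
  obtain ⟨z, hz, hzy⟩ := h (ε / 2) (half_pos hε)
  obtain ⟨m, r, s, h1⟩ := hz (ε / 2) (half_pos hε)
  refine ⟨m, r, s, ?_⟩
  calc _ = ‖(∑ k, r k * x * s k - z) + (z - y)‖ := by rw [sub_add_sub_cancel]
    _ ≤ ‖∑ k, r k * x * s k - z‖ + ‖z - y‖ := norm_add_le _ _
    _ < ε := by linarith

theorem InId.sum {x : A} {ι : Type} (S : Finset ι) (f : ι → A) (h : ∀ i ∈ S, InId x (f i)) :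
    InId x (∑ i ∈ S, f i) := by
  classical
  induction S using Finset.induction_on with
  | empty => simpa using InId.zero x
  | insert i S hi ih =>
    rw [Finset.sum_insert hi]
    exact (h i (Finset.mem_insert_self _ _)).add
      (ih fun j hj => h j (Finset.mem_insert_of_mem hj))

theorem InId.mul {x y : A} (h : InId x y) (a b : A) : InId x (a * y * b) := by
  intro ε hε
  obtain ⟨m, r, s, h1⟩ := h (ε / (‖a‖ * ‖b‖ + 1)) (by positivity)
  refine ⟨m, fun k => a * r k, fun k => s k * b, ?_⟩
  have h2 : ∑ k, a * r k * x * (s k * b) - a * y * b = a * (∑ k, r k * x * s k - y) * b := by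
    rw [mul_sub, sub_mul, Finset.mul_sum, Finset.sum_mul]
    congr 1
    refine Finset.sum_congr rfl fun k _ => ?_
    simp only [mul_assoc]
  rw [h2]
  calc _ ≤ ‖a‖ * ‖∑ k, r k * x * s k - y‖ * ‖b‖ :=
        (norm_mul_le _ _).trans (by gcongr; exact norm_mul_le _ _)
    _ ≤ ‖a‖ * (ε / (‖a‖ * ‖b‖ + 1)) * ‖b‖ := by gcongr
    _ = (‖a‖ * ‖b‖) / (‖a‖ * ‖b‖ + 1) * ε := by ring
    _ < ε := by
        have h3 : (‖a‖ * ‖b‖) / (‖a‖ * ‖b‖ + 1) < 1 := by
          rw [div_lt_one (by positivity)]; linarith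
        nlinarith

theorem InId.mulR {x y : A} (h : InId x y) (b : A) : InId x (y * b) := by
  intro ε hε
  obtain ⟨m, r, s, h1⟩ := h (ε / (‖b‖ + 1)) (by positivity)
  refine ⟨m, r, fun k => s k * b, ?_⟩
  have h2 : ∑ k, r k * x * (s k * b) - y * b = (∑ k, r k * x * s k - y) * b := by
    rw [sub_mul, Finset.sum_mul]
    congr 1
    refine Finset.sum_congr rfl fun k _ => ?_
    simp only [mul_assoc]
  rw [h2]
  calc _ ≤ ‖∑ k, r k * x * s k - y‖ * ‖b‖ := norm_mul_le _ _
    _ ≤ (ε / (‖b‖ + 1)) * ‖b‖ := by gcongr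
    _ = ‖b‖ / (‖b‖ + 1) * ε := by ring
    _ < ε := by
        have h3 : ‖b‖ / (‖b‖ + 1) < 1 := by
          rw [div_lt_one (by positivity)]; linarith
        nlinarith

theorem InId.trans {x y z : A} (h : InId x y) (h' : InId y z) : InId x z := by
  refine InId.lim fun ε hε => ?_
  obtain ⟨m, r, s, h1⟩ := h' ε hε
  exact ⟨_, InId.sum _ _ fun k _ => h.mul (r k) (s k), h1⟩

theorem InId.star_right {x y : A} (hx : star x = x) (h : InId x y) : InId x (star y) := by
  intro ε hε
  obtain ⟨m, r, s, h1⟩ := h ε hε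
  refine ⟨m, fun k => star (s k), fun k => star (r k), ?_⟩
  have h2 : ∑ k, star (s k) * x * star (r k) - star y = star (∑ k, r k * x * s k - y) := by
    rw [star_sub, star_sum]
    congr 1
    refine Finset.sum_congr rfl fun k _ => ?_
    rw [star_mul, star_mul, hx]
    simp only [mul_assoc]
  rw [h2, norm_star]
  exact h1

theorem InId.smul {x y : A} (c : ℂ) (h : InId x y) : InId x (c • y) := by
  intro ε hε
  obtain ⟨m, r, s, h1⟩ := h (ε / (‖c‖ + 1)) (by positivity)
  refine ⟨m, fun k => c • r k, s, ?_⟩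
  have h2 : ∑ k, c • r k * x * s k - c • y = c • (∑ k, r k * x * s k - y) := by
    rw [smul_sub, Finset.smul_sum]
    congr 1
    refine Finset.sum_congr rfl fun k _ => ?_
    rw [smul_mul_assoc, smul_mul_assoc]
  rw [h2, norm_smul]
  calc ‖c‖ * ‖∑ k, r k * x * s k - y‖ ≤ ‖c‖ * (ε / (‖c‖ + 1)) := by gcongr
    _ = ‖c‖ / (‖c‖ + 1) * ε := by ring
    _ < ε := by
        have h3 : ‖c‖ / (‖c‖ + 1) < 1 := by
          rw [div_lt_one (by positivity)]; linarith
        nlinarith

/-- elements generating an ideal far from `a` -/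
def Far (a : A) (e : ℝ) (x : A) : Prop := ∀ y, InId x y → e ≤ ‖a - y‖

theorem far_add (hA : IsChainC A) {a : A} {e : ℝ} {x x' : A} (hx : Far a e x)
    (hx' : Far a e x') : Far a e (x + x') := by
  have key : ∀ {x x' : A}, InId x x' → Far a e x → Far a e (x + x') := by
    intro x x' h hf y hy
    refine hf y (InId.lim fun ε hε => ?_)
    obtain ⟨m, r, s, h1⟩ := hy ε hε
    refine ⟨_, InId.sum _ _ fun k _ => ?_, h1⟩
    have h2 : r k * (x + x') * s k = r k * x * s k + r k * x' * s k := by
      rw [mul_add, add_mul]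
    rw [h2]
    exact (InId.term x _ _).add (h.mul _ _)
  rcases hA x x' with h | h
  · exact key h hx
  · rw [add_comm]; exact key h hx'

theorem exists_farIdeal (hA : IsChainC A) {a : A} (ha : star a = a) {e : ℝ} (hae : e ≤ ‖a‖) :
    ∃ J : Submodule ℂ A, IsClosed (J : Set A) ∧ (∀ a x : A, x ∈ J → a * x ∈ J) ∧
      (∀ a x : A, x ∈ J → x * a ∈ J) ∧ (∀ x ∈ J, star x ∈ J) ∧ ∀ x, x ∈ J ↔ Far a e x := by
  let J : Submodule ℂ A :=
    { carrier := {x | Far a e x}
      zero_mem' := by
        intro y hy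
        have h1 : y = 0 := by
          rw [← norm_le_zero_iff]
          refine le_of_forall_pos_le_add fun ε hε => ?_
          obtain ⟨m, r, s, h⟩ := hy ε hε
          simp only [mul_zero, zero_mul, Finset.sum_const_zero, zero_sub, norm_neg] at h
          linarith
        rw [h1, sub_zero]
        exact hae
      add_mem' := fun hx hy => far_add hA hx hy
      smul_mem' := by
        intro c x hx y hy
        refine hx y (InId.lim fun ε hε => ?_)
        obtain ⟨m, r, s, h1⟩ := hy ε hε
        refine ⟨_, InId.sum _ _ fun k _ => ?_, h1⟩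
        have h2 : r k * (c • x) * s k = (c • r k) * x * s k := by
          rw [mul_smul_comm, smul_mul_assoc, smul_mul_assoc, smul_mul_assoc]
        rw [h2]
        exact InId.term _ _ _ }
  have hJ : ∀ x, x ∈ J ↔ Far a e x := fun x => Iff.rfl
  refine ⟨J, ?_, ?_, ?_, ?_, hJ⟩
  · rw [← isSeqClosed_iff_isClosed]
    intro u x hu hux y hy
    have hu' : ∀ n, Far a e (u n) := hu
    refine le_of_forall_pos_le_add fun ε hε => ?_
    obtain ⟨m, r, s, h1⟩ := hy (ε / 2) (half_pos hε)
    have h2 : Filter.Tendsto (fun n => ∑ k, r k * u n * s k) Filter.atTop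
        (nhds (∑ k, r k * x * s k)) :=
      tendsto_finsetSum _ fun k _ => (hux.const_mul (r k)).mul_const (s k)
    obtain ⟨n, hn⟩ := (Metric.tendsto_atTop.1 h2) (ε / 2) (half_pos hε)
    have h3 := hn n le_rfl
    rw [dist_eq_norm] at h3
    have h4 := hu' n (∑ k, r k * u n * s k) (InId.sum _ _ fun k _ => InId.term _ _ _)
    calc e ≤ ‖a - ∑ k, r k * u n * s k‖ := h4
      _ = ‖(a - y) - (∑ k, r k * x * s k - y) - (∑ k, r k * u n * s k - ∑ k, r k * x * s k)‖ := by
          congr 1; abel
      _ ≤ ‖a - y‖ + ‖∑ k, r k * x * s k - y‖ + ‖∑ k, r k * u n * s k - ∑ k, r k * x * s k‖ :=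
          (norm_sub_le _ _).trans (by gcongr; exact norm_sub_le _ _)
      _ ≤ ‖a - y‖ + ε := by linarith
  · intro b x hx y hy
    refine (hJ x).1 hx y (InId.lim fun ε hε => ?_)
    obtain ⟨m, r, s, h1⟩ := hy ε hε
    refine ⟨_, InId.sum _ _ fun k _ => ?_, h1⟩
    have h2 : r k * (b * x) * s k = (r k * b) * x * s k := by simp only [mul_assoc]
    rw [h2]
    exact InId.term _ _ _
  · intro b x hx y hy
    refine (hJ x).1 hx y (InId.lim fun ε hε => ?_)
    obtain ⟨m, r, s, h1⟩ := hy ε hε
    refine ⟨_, InId.sum _ _ fun k _ => ?_, h1⟩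
    have h2 : r k * (x * b) * s k = r k * x * (b * s k) := by simp only [mul_assoc]
    rw [h2]
    exact InId.term _ _ _
  · intro x hx y hy
    have h1 : InId x (star y) := by
      intro ε hε
      obtain ⟨m, r, s, h1⟩ := hy ε hε
      refine ⟨m, fun k => star (s k), fun k => star (r k), ?_⟩
      have h2 : ∑ k, star (s k) * x * star (r k) - star y =
          star (∑ k, r k * star x * s k - y) := by
        rw [star_sub, star_sum]
        congr 1
        refine Finset.sum_congr rfl fun k _ => ?_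
        rw [star_mul, star_mul, star_star]
        simp only [mul_assoc]
      rw [h2, norm_star]
      exact h1
    have h2 := (hJ x).1 hx _ h1
    have h3 : a - star y = star (a - y) := by rw [star_sub, ha]
    rwa [h3, norm_star] at h2

variable [PartialOrder A] [StarOrderedRing A]

/-- the cut of `a` at `e` is in every closed ideal at distance less than `e` -/
theorem inId_cut {a : A} (ha : 0 ≤ a) {e : ℝ} (he : 0 < e) {x : A} (hx : star x = x) {y : A}
    (hy : InId x y) (hay : ‖a - y‖ < e) : InId x (cfcₙ (fun t : ℝ => max (t - e) 0) a) := by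
  have hsa : IsSelfAdjoint a := IsSelfAdjoint.of_nonneg ha
  -- self-adjoint approximant
  set Y : A := ((1 / 2 : ℝ) : ℂ) • (y + star y) with hY
  have hYI : InId x Y := (hy.add (hy.star_right hx)).smul _
  have hYs : star Y = Y := by
    rw [hY, star_smul, Complex.star_def, Complex.conj_ofReal, star_add, star_star, add_comm]
  have hYn : ‖a - Y‖ ≤ e := by
    have h1 : a - Y = ((1 / 2 : ℝ) : ℂ) • ((a - y) + star (a - y)) := by
      rw [hY, star_sub, hsa.star_eq]
      have h2 : a = ((1 / 2 : ℝ) : ℂ) • (a + a) := by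
        rw [← two_smul ℂ a, smul_smul]
        norm_num
      nth_rewrite 1 [h2]
      rw [← smul_sub]
      congr 1
      abel
    rw [h1, norm_smul, Complex.norm_real, Real.norm_of_nonneg (by norm_num)]
    have h3 : ‖(a - y) + star (a - y)‖ ≤ ‖a - y‖ + ‖a - y‖ :=
      (norm_add_le _ _).trans (by rw [norm_star])
    linarith
  -- the cut and its root
  set f : ℝ → ℝ := fun t => max (t - e) 0 with hf
  have hf0 : f 0 = 0 := by simp only [hf, zero_sub]; exact max_eq_right (by linarith)
  have hfc : Continuous f := by fun_prop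
  set h : A := cfcₙ f a with hh
  have hh0 : 0 ≤ h := cfcₙ_nonneg fun s _ => le_max_right _ _
  set q : A := cfcₙ (fun t => √(f t)) a with hq
  have hqc : Continuous (fun t => √(f t)) := hfc.sqrt
  have hq0 : (fun t => √(f t)) 0 = 0 := by simp only [hf0, Real.sqrt_zero]
  have hqs : star q = q := (cfcₙ_predicate (p := IsSelfAdjoint) (fun t => √(f t)) a).star_eq
  have hqq : q * q = h := by
    rw [hq, ← cfcₙ_mul (fun t => √(f t)) (fun t => √(f t)) a hqc.continuousOn hq0
      hqc.continuousOn hq0, hh]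
    exact cfcₙ_congr fun t _ => Real.mul_self_sqrt (le_max_right _ _)
  have hqaq : q * a * q - e • (q * q) = h * h := by
    have e1 : q * a * q = cfcₙ (fun t => √(f t) * t * √(f t)) a := by
      rw [cfcₙ_mul (fun t => √(f t) * t) (fun t => √(f t)) a
        (hqc.mul continuous_id).continuousOn (by simp) hqc.continuousOn hq0,
        cfcₙ_mul (fun t => √(f t)) (fun t => t) a hqc.continuousOn hq0 (by fun_prop) rfl,
        cfcₙ_id' ℝ a]
    have e2 : e • (q * q) = cfcₙ (fun t => e • f t) a := by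
      rw [hqq, hh, cfcₙ_smul e f a hfc.continuousOn hf0]
    have e3 : h * h = cfcₙ (fun t => f t * f t) a := by
      rw [hh, cfcₙ_mul f f a hfc.continuousOn hf0 hfc.continuousOn hf0]
    rw [e1, e2, e3, ← cfcₙ_sub (fun t => √(f t) * t * √(f t)) (fun t => e • f t) a
      ((hqc.mul continuous_id).mul hqc).continuousOn (by simp)
      (hfc.const_smul e).continuousOn (by simp [hf0])]
    refine cfcₙ_congr fun t _ => ?_
    have h1 : √(f t) * t * √(f t) = f t * t := by
      calc √(f t) * t * √(f t) = (√(f t) * √(f t)) * t := by ring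
        _ = f t * t := by rw [Real.mul_self_sqrt (le_max_right _ _)]
    simp only [h1, smul_eq_mul]
    rcases le_total (t - e) 0 with h2 | h2
    · have : f t = 0 := max_eq_right h2
      rw [this]; ring
    · have : f t = t - e := max_eq_left h2
      rw [this]; ring
  have hgle : h * h ≤ q * Y * q := by
    have h1 := CStarAlgebra.star_left_conjugate_le_norm_smul (a := q) (b := a - Y)
      (by rw [IsSelfAdjoint, star_sub, hsa.star_eq, hYs])
    rw [hqs] at h1
    have h2 : ‖a - Y‖ • (q * q) ≤ e • (q * q) := by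
      have h3 : 0 ≤ q * q := by rw [hqq]; exact hh0
      exact smul_le_smul_of_nonneg_right hYn h3
    have h3 := h1.trans h2
    rw [← hqaq]
    rw [mul_sub, sub_mul, sub_le_comm] at h3
    exact h3
  have hhh : 0 ≤ h * h := by
    have := star_mul_self_nonneg h
    rwa [(IsSelfAdjoint.of_nonneg hh0).star_eq] at this
  have hI2 : InId x (h * h) := by
    refine InId.lim fun ε hε => ?_
    obtain ⟨d, hd⟩ := order_factor hhh hgle (half_pos hε)
    exact ⟨star d * (q * Y * q) * d, (hYI.mul _ _).mul _ _, by linarith⟩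
  refine InId.lim fun ε hε => ?_
  -- `(h - δ)_+ = h * h * k`
  have hδ : 0 < ε / 2 := half_pos hε
  refine ⟨cfcₙ (fun s : ℝ => max (s - ε / 2) 0) h, ?_, by
    have := (cutdown_le hh0 hδ).2.2; linarith⟩
  set k : ℝ → ℝ := fun s => max (s - ε / 2) 0 / (max s (ε / 2)) ^ 2 with hk
  have hkpos : ∀ s : ℝ, 0 < (max s (ε / 2)) ^ 2 := fun s => by
    have : ε / 2 ≤ max s (ε / 2) := le_max_right _ _
    positivity
  have hkc : Continuous k := Continuous.div (by fun_prop) (by fun_prop) fun s => (hkpos s).ne'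
  have hk0 : k 0 = 0 := by
    simp only [hk, zero_sub]
    rw [max_eq_right (by linarith), zero_div]
  have e1 : cfcₙ (fun s : ℝ => max (s - ε / 2) 0) h = h * h * cfcₙ k h := by
    have hhs : IsSelfAdjoint h := IsSelfAdjoint.of_nonneg hh0
    have e2 : h * h = cfcₙ (fun s : ℝ => s * s) h := by
      rw [cfcₙ_mul (fun x : ℝ => x) (fun x : ℝ => x) h (by fun_prop) rfl (by fun_prop) rfl,
        cfcₙ_id' ℝ h]
    rw [e2, ← cfcₙ_mul (fun s : ℝ => s * s) k h (by fun_prop) (by simp) hkc.continuousOn hk0]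
    refine cfcₙ_congr fun s hs => ?_
    have hs0 : 0 ≤ s := quasispectrum_nonneg_of_nonneg h hh0 s hs
    simp only [hk]
    rcases le_total s (ε / 2) with h2 | h2
    · rw [max_eq_right (by linarith : s - ε / 2 ≤ 0)]; simp
    · rw [max_eq_left h2]
      have : s ≠ 0 := by linarith
      field_simp
  rw [e1]
  exact hI2.mulR _

/-- a quotient in which `a` survives and in whose nonzero elements the cut of `a` is contained -/
theorem exists_chain_quotient (hA : IsChainC A) {a : A} (ha : 0 ≤ a) {e : ℝ} (he : 0 < e)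
    (hae : e ≤ ‖a‖) :
    ∃ (B : Type u) (_ : NonUnitalCStarAlgebra B) (_ : PartialOrder B) (_ : StarOrderedRing B)
      (φ : A →⋆ₙₐ[ℂ] B), Function.Surjective φ ∧ φ a ≠ 0 ∧ ∀ x, star x = x → φ x ≠ 0 →
        InId x (cfcₙ (fun t : ℝ => max (t - e) 0) a) := by
  obtain ⟨J, hJc, hl, hr, hs, hJ⟩ :=
    exists_farIdeal hA (IsSelfAdjoint.of_nonneg ha).star_eq hae
  obtain ⟨B, i1, i2, i3, φ, hφ, hk⟩ := exists_quotient J hJc hl hr hs
  refine ⟨B, i1, i2, i3, φ, hφ, fun h0 => ?_, fun x hx hne => ?_⟩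
  · have h1 : Far a e a := (hJ a).1 ((hk a).1 h0)
    obtain ⟨d, hd⟩ := order_factor ha le_rfl (half_pos he)
    have h2 := h1 _ (InId.term a (star d) d)
    rw [← norm_neg, neg_sub] at h2
    linarith
  · have h1 : ¬ Far a e x := fun h => hne ((hk x).2 ((hJ x).2 h))
    unfold Far at h1
    push Not at h1
    obtain ⟨y, hy, hay⟩ := h1
    exact inId_cut ha he hx hy hay

end

end Vale.Agent.P133.H832
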