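import Mathlib.Analysis.CStarAlgebra.ContinuousMap
import Mathlib.Analysis.CStarAlgebra.lpSpace

/-!
P133 (helper832): names for two C*-algebras of Mathlib.
-/

open scoped ZeroAtInfty ENNReal

namespace Vale.Agent.P133.H832

universe u v

/-- The C*-algebra `C₀(X, A)` of continuous functions `X → A` vanishing at infinity. -/
def FunAlg (X : Type v) (A : Type u) [TopologicalSpace X] [NonUnitalCStarAlgebra A] :
    Type (max u v) := C₀(X, A)

/-- Mathlib's C*-algebra structure on `C₀(X, A)`. -/
noncomputable instance FunAlg.inst (X : Type v) (A : Type u) [TopologicalSpace X]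
    [NonUnitalCStarAlgebra A] : NonUnitalCStarAlgebra (FunAlg X A) :=
  (inferInstance : NonUnitalCStarAlgebra C₀(X, A))

/-- The C*-algebra of bounded families `(b i)`, `b i ∈ B i`. -/
def BddProd {I : Type v} (B : I → Type u) [∀ i, NonUnitalCStarAlgebra (B i)] :
    Type (max u v) := lp B ∞

/-- Mathlib's C*-algebra structure on the bounded product. -/
noncomputable instance BddProd.inst {I : Type v} (B : I → Type u)
    [∀ i, NonUnitalCStarAlgebra (B i)] : NonUnitalCStarAlgebra (BddProd B) :=
  (inferInstance : NonUnitalCStarAlgebra (lp B ∞))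

end Vale.Agent.P133.H832
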