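import Vale.Agent.P133.H832.Coincide
import Vale.Agent.P133.H832.Types
import Vale.Agent.P133.H681.C0
import Vale.Agent.P133.H681.Wpi
import Vale.Agent.P133F.Conv

open scoped ZeroAtInfty ENNReal

namespace Vale.Agent.P133.H832

universe u v

open Vale.Agent.P133.Statement Vale.Agent.P133F Vale.Agent.P133.H681

theorem pi_iff_spi (A : Type u) [NonUnitalCStarAlgebra A] [PartialOrder A] [StarOrderedRing A] :
    PurelyInfinite A ↔ StronglyPurelyInfinite A :=
  ⟨fun h => spi_of_eltPI A (eltPI_of A h), fun h => pi_of_spi h⟩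

theorem coincide_of {A : Type u} [NonUnitalCStarAlgebra A] [PartialOrder A] [StarOrderedRing A]
    (h : WeaklyPurelyInfinite A → PurelyInfinite A) : Coincide A :=
  ⟨⟨h, wpi_of_pi⟩, pi_iff_spi A⟩

theorem funAlg_iff (A : Type u) [NonUnitalCStarAlgebra A] [PartialOrder A] [StarOrderedRing A]
    (X : Type v) [TopologicalSpace X] [LocallyCompactSpace X] [T2Space X] [Nonempty X]
    [oC : PartialOrder (FunAlg X A)] [sC : StarOrderedRing (FunAlg X A)] :
    (PurelyInfinite (FunAlg X A) ↔ PurelyInfinite A) ∧ (Coincide A → Coincide (FunAlg X A)) := by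
  let oC' : PartialOrder C₀(X, A) := oC
  let sC' : StarOrderedRing C₀(X, A) := sC
  exact ⟨c0_iff A X, fun h => coincide_of (A := C₀(X, A)) (b_c0 A X h.1.1)⟩

theorem bddProd_iff {I : Type v} (B : I → Type u) [∀ i, NonUnitalCStarAlgebra (B i)]
    [∀ i, PartialOrder (B i)] [∀ i, StarOrderedRing (B i)]
    [oC : PartialOrder (BddProd B)] [sC : StarOrderedRing (BddProd B)] :
    (PurelyInfinite (BddProd B) ↔ ∀ i, PurelyInfinite (B i)) ∧
      ((∀ i, Coincide (B i)) → Coincide (BddProd B)) := by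
  let oC' : PartialOrder (lp B ∞) := oC
  let sC' : StarOrderedRing (lp B ∞) := sC
  exact ⟨lp_iff B, fun h => coincide_of (A := lp B ∞) (b_lp B fun i => (h i).1.1)⟩

end Vale.Agent.P133.H832
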