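import Mathlib.Analysis.CStarAlgebra.Classes

/-!
P133 (helper832): exact sequences, and dense unions of ideals.
-/

namespace Vale.Agent.P133.H832

universe u v

/-- There is an exact sequence `0 → J → A → B → 0` of C*-algebras. -/
def IsExtension (J A B : Type u) [NonUnitalCStarAlgebra J] [NonUnitalCStarAlgebra A]
    [NonUnitalCStarAlgebra B] : Prop :=
  ∃ (ι : J →⋆ₙₐ[ℂ] A) (φ : A →⋆ₙₐ[ℂ] B), Function.Injective ι ∧ Function.Surjective φ ∧
    ∀ a, φ a = 0 ↔ ∃ x, ι x = a

/-- `A` has a dense union of closed two-sided ideals isomorphic to the `J i`. -/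
def IsDenseUnion {I : Type v} (J : I → Type u) (A : Type u) [∀ i, NonUnitalCStarAlgebra (J i)]
    [NonUnitalCStarAlgebra A] : Prop :=
  ∃ φ : ∀ i, J i →⋆ₙₐ[ℂ] A, (∀ i, Function.Injective (φ i)) ∧
    (∀ i (a : A) (x : J i), ∃ y, φ i y = a * φ i x) ∧ Dense (⋃ i, Set.range (φ i))

end Vale.Agent.P133.H832
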