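import Vale.Agent.P133.SDefs
import Vale.Agent.P133.H832.Types
import Vale.Agent.P133.H832.Seq
import Vale.Agent.P133.H681.NDDefs

/-!
P133: a class of C*-algebras (helper681, helper832).
-/

namespace Vale.Agent.P133.H832

universe u

/-- The smallest class of C*-algebras that contains all C*-algebras of finite nuclear dimension
and is closed under extensions, dense unions of closed two-sided ideals, bounded products of
arbitrary families, and `A ↦ C₀(X, A)`, `X` nonempty locally compact Hausdorff. -/
inductive Built : (A : Type u) → [NonUnitalCStarAlgebra A] → [PartialOrder A] →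
    [StarOrderedRing A] → Prop
  /-- finite nuclear dimension -/
  | fin (A : Type u) [NonUnitalCStarAlgebra A] [PartialOrder A] [StarOrderedRing A] (d : ℕ)
      (hd : ND.NuclearDimensionLE A d) : Built A
  /-- extensions: `0 → J → A → B → 0` exact -/
  | ext (J A B : Type u) [NonUnitalCStarAlgebra J] [PartialOrder J] [StarOrderedRing J]
      [NonUnitalCStarAlgebra A] [PartialOrder A] [StarOrderedRing A]
      [NonUnitalCStarAlgebra B] [PartialOrder B] [StarOrderedRing B]
      (h : IsExtension J A B) (hJ : Built J) (hB : Built B) : Built A
  /-- dense unions of closed two-sided ideals -/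
  | union (I : Type u) (J : I → Type u) (A : Type u) [∀ i, NonUnitalCStarAlgebra (J i)]
      [∀ i, PartialOrder (J i)] [∀ i, StarOrderedRing (J i)]
      [NonUnitalCStarAlgebra A] [PartialOrder A] [StarOrderedRing A]
      (h : IsDenseUnion J A) (hJ : ∀ i, Built (J i)) : Built A
  /-- bounded products -/
  | prod (I : Type u) (B : I → Type u) [∀ i, NonUnitalCStarAlgebra (B i)]
      [∀ i, PartialOrder (B i)] [∀ i, StarOrderedRing (B i)]
      [PartialOrder (BddProd B)] [StarOrderedRing (BddProd B)] (hB : ∀ i, Built (B i)) :
      Built (BddProd B)
  /-- continuous functions vanishing at infinity -/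
  | func (A : Type u) [NonUnitalCStarAlgebra A] [PartialOrder A] [StarOrderedRing A]
      (X : Type u) [TopologicalSpace X] [LocallyCompactSpace X] [T2Space X] [Nonempty X]
      [PartialOrder (FunAlg X A)] [StarOrderedRing (FunAlg X A)] (hA : Built A) :
      Built (FunAlg X A)

end Vale.Agent.P133.H832
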