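import Vale.Agent.P133.H832.Coincide
import Vale.Agent.P133.H832.Types
import Vale.Agent.P133.H832.Seq

/-!
P133 (helper832): the permanence statements.
-/

namespace Vale.Agent.P133.H832

open Vale.Agent.P133.Statement Vale.Agent.P133F

universe u v

/-- For nonempty locally compact Hausdorff `X`: `C₀(X, A)` is purely infinite if and only if `A`
is, and the three notions coincide for `C₀(X, A)` if they coincide for `A`. -/
def FunctionAlgebras : Prop :=
  ∀ (A : Type u) [NonUnitalCStarAlgebra A] [PartialOrder A] [StarOrderedRing A]
    (X : Type v) [TopologicalSpace X] [LocallyCompactSpace X] [T2Space X] [Nonempty X]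
    [PartialOrder (FunAlg X A)] [StarOrderedRing (FunAlg X A)],
    (PurelyInfinite (FunAlg X A) ↔ PurelyInfinite A) ∧ (Coincide A → Coincide (FunAlg X A))

/-- A bounded product is purely infinite if and only if all its factors are, and the three notions
coincide for the product if they coincide for all factors. -/
def BoundedProducts : Prop :=
  ∀ (I : Type v) (B : I → Type u) [∀ i, NonUnitalCStarAlgebra (B i)]
    [∀ i, PartialOrder (B i)] [∀ i, StarOrderedRing (B i)]
    [PartialOrder (BddProd B)] [StarOrderedRing (BddProd B)],
    (PurelyInfinite (BddProd B) ↔ ∀ i, PurelyInfinite (B i)) ∧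
      ((∀ i, Coincide (B i)) → Coincide (BddProd B))

/-- For an exact sequence `0 → J → A → B → 0`, `A` is purely infinite if and only if `J` and `B`
are, and the three notions coincide for `A` if they coincide for `J` and `B`. -/
def Extensions : Prop :=
  ∀ (J A B : Type u) [NonUnitalCStarAlgebra J] [PartialOrder J] [StarOrderedRing J]
    [NonUnitalCStarAlgebra A] [PartialOrder A] [StarOrderedRing A]
    [NonUnitalCStarAlgebra B] [PartialOrder B] [StarOrderedRing B], IsExtension J A B →
    (PurelyInfinite A ↔ PurelyInfinite J ∧ PurelyInfinite B) ∧
      (Coincide J → Coincide B → Coincide A)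

/-- If `A` has a dense union of ideals `J i` then `A` is purely infinite if and only if all `J i`
are, and the three notions coincide for `A` if they coincide for all `J i`. -/
def Unions : Prop :=
  ∀ (I : Type v) (J : I → Type u) (A : Type u) [∀ i, NonUnitalCStarAlgebra (J i)]
    [∀ i, PartialOrder (J i)] [∀ i, StarOrderedRing (J i)]
    [NonUnitalCStarAlgebra A] [PartialOrder A] [StarOrderedRing A], IsDenseUnion J A →
    (PurelyInfinite A ↔ ∀ i, PurelyInfinite (J i)) ∧ ((∀ i, Coincide (J i)) → Coincide A)

end Vale.Agent.P133.H832
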