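import Vale.Agent.P133.H832.Built
import Vale.Agent.P133.H832.Bridge
import Vale.Agent.P133.H832.Clauses
import Vale.Agent.P133.H681.Class

/-!
P133: the three notions coincide for the class `Built`; permanence clauses.
-/

open scoped ZeroAtInfty ENNReal

namespace Vale.Agent.P133.H832

open Vale.Agent.P133.Statement Vale.Agent.P133F Vale.Agent.P133.H681

universe u v

theorem wpi_funAlg (A : Type u) [NonUnitalCStarAlgebra A] [PartialOrder A] [StarOrderedRing A]
    (X : Type v) [TopologicalSpace X] [LocallyCompactSpace X] [T2Space X] [Nonempty X]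
    [oC : PartialOrder (FunAlg X A)] [sC : StarOrderedRing (FunAlg X A)]
    (hA : WeaklyPurelyInfinite A → PurelyInfinite A) (h : WeaklyPurelyInfinite (FunAlg X A)) :
    PurelyInfinite (FunAlg X A) := by
  let oC' : PartialOrder C₀(X, A) := oC
  let sC' : StarOrderedRing C₀(X, A) := sC
  exact b_c0 A X hA h

theorem wpi_bddProd {I : Type v} (B : I → Type u) [∀ i, NonUnitalCStarAlgebra (B i)]
    [∀ i, PartialOrder (B i)] [∀ i, StarOrderedRing (B i)]
    [oC : PartialOrder (BddProd B)] [sC : StarOrderedRing (BddProd B)]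
    (hB : ∀ i, WeaklyPurelyInfinite (B i) → PurelyInfinite (B i))
    (h : WeaklyPurelyInfinite (BddProd B)) : PurelyInfinite (BddProd B) := by
  let oC' : PartialOrder (lp B ∞) := oC
  let sC' : StarOrderedRing (lp B ∞) := sC
  exact b_lp B hB h

theorem wpi_ext {J A B : Type u} [NonUnitalCStarAlgebra J] [PartialOrder J] [StarOrderedRing J]
    [NonUnitalCStarAlgebra A] [PartialOrder A] [StarOrderedRing A]
    [NonUnitalCStarAlgebra B] [PartialOrder B] [StarOrderedRing B] (h : IsExtension J A B) :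
    (PurelyInfinite A ↔ PurelyInfinite J ∧ PurelyInfinite B) ∧
      (WeaklyPurelyInfinite A → WeaklyPurelyInfinite J ∧ WeaklyPurelyInfinite B) := by
  obtain ⟨ι, φ, hι, hφ, hex⟩ := h
  have hid : ∀ (a : A) (x : J), ∃ y, ι y = a * ι x := fun a x =>
    (hex (a * ι x)).1 (by rw [map_mul, (hex (ι x)).2 ⟨x, rfl⟩, mul_zero])
  exact ⟨⟨fun h => ⟨pi_of_eltPI (eltPI_of_ideal ι hι hid (eltPI_of A h)),
    pi_of_eltPI (eltPI_of_surj φ hφ (eltPI_of A h))⟩,
    fun h => pi_of_eltPI (eltPI_ext ι φ hφ hex (eltPI_of J h.1) (eltPI_of B h.2))⟩,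
    fun h => ⟨wpi_of_ideal ι hι hid h, wpi_of_surj φ hφ h⟩⟩

theorem built_wpi {A : Type u} [NonUnitalCStarAlgebra A] [PartialOrder A] [StarOrderedRing A]
    (hA : Built A) : WeaklyPurelyInfinite A → PurelyInfinite A := by
  induction hA with
  | fin A d hd => exact fun h => (Vale.Agent.P133F.main (ND.nd_of hd) h).1
  | ext J A B h _ _ hJ hB =>
    intro hA
    have h2 := (wpi_ext h).2 hA
    exact (wpi_ext h).1.2 ⟨hJ h2.1, hB h2.2⟩
  | union I J A h _ hJ =>
    obtain ⟨φ, hφ, hid, hd⟩ := h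
    exact b_union φ hφ hid hd hJ
  | prod I B _ hB => exact wpi_bddProd B hB
  | func A X _ hA => exact wpi_funAlg A X hA

theorem built_coincide {A : Type u} [NonUnitalCStarAlgebra A] [PartialOrder A]
    [StarOrderedRing A] (hA : Built A) : Coincide A :=
  coincide_of (built_wpi hA)

theorem functionAlgebras : FunctionAlgebras.{u, v} :=
  fun A _ _ _ X _ _ _ _ _ _ => funAlg_iff A X

theorem boundedProducts : BoundedProducts.{u, v} := fun _ B _ _ _ _ _ => bddProd_iff B

theorem extensions : Extensions.{u} := fun _ _ _ _ _ _ _ _ _ _ _ _ h =>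
  ⟨(wpi_ext h).1, fun hJ hB => coincide_of fun hA =>
    (wpi_ext h).1.2 ⟨hJ.1.1 ((wpi_ext h).2 hA).1, hB.1.1 ((wpi_ext h).2 hA).2⟩⟩

theorem unions : Unions.{u, v} := by
  intro I J A _ _ _ _ _ _ h
  obtain ⟨φ, hφ, hid, hd⟩ := h
  exact ⟨⟨fun hA i => pi_of_eltPI (eltPI_of_ideal (φ i) (hφ i) (hid i) (eltPI_of A hA)),
    fun hJ => pi_of_eltPI (eltPI_union φ hid hd fun i => eltPI_of _ (hJ i))⟩,
    fun hJ => coincide_of (b_union φ hφ hid hd fun i => (hJ i).1.1)⟩

end Vale.Agent.P133.H832
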