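import Mathlib.Analysis.CStarAlgebra.Classes
import Mathlib.Topology.ContinuousMap.Basic

/-!
P133 (helper832, helper681): algebras of sections of upper semicontinuous fields of C*-algebras.
-/

namespace Vale.Agent.P133.H832

universe u v

/-- There is a continuous injective map from `X` to some `ℝ^N`. Every second countable locally
compact Hausdorff space of finite covering dimension has this property. -/
def FinitelySeparated (X : Type v) [TopologicalSpace X] : Prop :=
  ∃ (N : ℕ) (p : X → Fin N → ℝ), Continuous p ∧ Function.Injective p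

/-- `A` is a `C₀(X)`-algebra with fibres `B t`: there are surjective *-homomorphisms
`π t : A → B t` such that `‖a‖` is at most the supremum of `‖π t a‖`, the set of all `t` with
`‖π t a‖ ≥ r` is compact for every `a` and `r > 0` (so `t ↦ ‖π t a‖` is upper semicontinuous and
vanishes at infinity, if `X` is Hausdorff), and for every continuous `f : X → [0, 1]` and `a` in
`A` the section `t ↦ f t • π t a` is in `A`. -/
def IsSectionAlgebra {X : Type v} [TopologicalSpace X] (B : X → Type u)
    [∀ t, NonUnitalCStarAlgebra (B t)] (A : Type u) [NonUnitalCStarAlgebra A] : Prop :=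
  ∃ π : ∀ t, A →⋆ₙₐ[ℂ] B t, (∀ t, Function.Surjective (π t)) ∧
    (∀ (a : A) (r : ℝ), 0 ≤ r → (∀ t, ‖π t a‖ ≤ r) → ‖a‖ ≤ r) ∧
    (∀ (a : A) (r : ℝ), 0 < r → IsCompact {t | r ≤ ‖π t a‖}) ∧
    ∀ f : C(X, ℝ), (∀ t, 0 ≤ f t ∧ f t ≤ 1) → ∀ a : A, ∃ b : A, ∀ t, π t b = (f t : ℂ) • π t a

end Vale.Agent.P133.H832
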