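import Vale.Agent.P133.H832.Coincide
import Vale.Agent.P133.H832.FieldDefs

/-!
P133 (helper832, helper681): the permanence statement for fields.
-/

namespace Vale.Agent.P133.H832

open Vale.Agent.P133.Statement Vale.Agent.P133F

universe u

/-- For the algebra `A` of sections of an upper semicontinuous field over a finitely separated
space: `A` is purely infinite if and only if all fibres are, and the three notions coincide for
`A` if they coincide for all fibres. -/
def Fields : Prop :=
  ∀ (X : Type u) [TopologicalSpace X] (B : X → Type u) (A : Type u)
    [∀ t, NonUnitalCStarAlgebra (B t)] [∀ t, PartialOrder (B t)] [∀ t, StarOrderedRing (B t)]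
    [NonUnitalCStarAlgebra A] [PartialOrder A] [StarOrderedRing A],
    FinitelySeparated X → IsSectionAlgebra B A →
    (PurelyInfinite A ↔ ∀ t, PurelyInfinite (B t)) ∧ ((∀ t, Coincide (B t)) → Coincide A)

end Vale.Agent.P133.H832
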