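import Vale.Agent.P133.H832.BuiltG
import Vale.Agent.P133.H832.BuiltB
import Vale.Agent.P133.H832.ClausesF
import Vale.Agent.P133.H681.Field3
import Vale.Agent.P133.H681.Full

/-!
P133: the three notions of pure infiniteness coincide for the class `BuiltG`; fields.
-/

namespace Vale.Agent.P133.H832

open Vale.Agent.P133.Statement Vale.Agent.P133F Vale.Agent.P133.H681

universe u

theorem wpi_field {X : Type u} [TopologicalSpace X] (hX : FinitelySeparated X) {B : X → Type u}
    [∀ t, NonUnitalCStarAlgebra (B t)] [∀ t, PartialOrder (B t)] [∀ t, StarOrderedRing (B t)]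
    {A : Type u} [NonUnitalCStarAlgebra A] [PartialOrder A] [StarOrderedRing A]
    (h : IsSectionAlgebra B A) :
    (PurelyInfinite A ↔ ∀ t, PurelyInfinite (B t)) ∧
      (WeaklyPurelyInfinite A → ∀ t, WeaklyPurelyInfinite (B t)) := by
  obtain ⟨N, p, hp, hinj⟩ := hX
  refine ⟨⟨fun hA t => ?_, fun hB => ?_⟩, fun hA t => ?_⟩
  · obtain ⟨π, hπ, -⟩ := h
    exact pi_of_eltPI (eltPI_of_surj (π t) (hπ t) (eltPI_of A hA))
  · obtain ⟨π, h1, h2, h3, h4⟩ := h
    exact pi_of_eltPI (eltPI_field (π := π) ⟨h1, h2, h3, h4⟩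
      (fun i => ⟨fun x => p x i, (continuous_apply i).comp hp⟩)
      (fun s t hst => hinj (funext hst)) fun t => eltPI_of _ (hB t))
  · obtain ⟨π, hπ, -⟩ := h
    exact wpi_of_surj (π t) (hπ t) hA

theorem builtG_wpi {A : Type u} [NonUnitalCStarAlgebra A] [PartialOrder A] [StarOrderedRing A]
    (hA : BuiltG A) : WeaklyPurelyInfinite A → PurelyInfinite A := by
  induction hA with
  | fin A d hd => exact fun h => (Vale.Agent.P133F.main (ND.nd_of hd) h).1
  | simple A hA => exact fun h => pi_of_eltPI (wpi_simple hA h)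
  | ext J A B h _ _ hJ hB =>
    intro hA
    have h2 := (wpi_ext h).2 hA
    exact (wpi_ext h).1.2 ⟨hJ h2.1, hB h2.2⟩
  | union I J A h _ hJ =>
    obtain ⟨φ, hφ, hid, hd⟩ := h
    exact b_union φ hφ hid hd hJ
  | prod I B _ hB => exact wpi_bddProd B hB
  | func A X _ hA => exact wpi_funAlg A X hA
  | field X hX B A h _ hB =>
    exact fun hA => (wpi_field hX h).1.2 fun t => hB t ((wpi_field hX h).2 hA t)

theorem builtG_coincide {A : Type u} [NonUnitalCStarAlgebra A] [PartialOrder A]
    [StarOrderedRing A] (hA : BuiltG A) : Coincide A :=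
  coincide_of (builtG_wpi hA)

theorem fields : Fields.{u} := fun _ _ _ _ _ _ _ _ _ _ hX h =>
  ⟨(wpi_field hX h).1, fun hB => coincide_of fun hA =>
    (wpi_field hX h).1.2 fun t => (hB t).1.1 ((wpi_field hX h).2 hA t)⟩

end Vale.Agent.P133.H832
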