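import Vale.Agent.P133.H832.ChainA
import Vale.Agent.P133.H681.Chain1

/-!
P133 (helper832, helper681): weakly purely infinite algebras with totally ordered ideals.
-/

open scoped ComplexOrder

namespace Vale.Agent.P133.H832

open Vale.Agent.P133 Vale.Agent.P133F Vale.Agent.P133.Statement Vale.Agent.P133.H681

universe u

theorem relCopies_of {A B : Type u} [NonUnitalCStarAlgebra A] [PartialOrder A] [StarOrderedRing A]
    [NonUnitalCStarAlgebra B] [PartialOrder B] [StarOrderedRing B] (hB : IsChainC B) {n : ℕ}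
    (hW : WPI B n) (φ : A →⋆ₙₐ[ℂ] B) (hφ : Function.Surjective φ) : RelCopies φ := by
  intro N k hk hne
  have hprime : ∀ c a : A, φ c ≠ 0 → φ a ≠ 0 → ∃ w, φ (c * w * a) ≠ 0 := by
    intro c a hc ha
    have h1 : star (φ a * star (φ a)) = φ a * star (φ a) := by rw [star_mul, star_star]
    have h2 : φ a * star (φ a) ≠ 0 := by
      intro h
      have h3 : ‖φ a * star (φ a)‖ = 0 := by rw [h, norm_zero]
      rw [CStarRing.norm_self_mul_star] at h3
      exact ha (norm_eq_zero.1 (mul_self_eq_zero.1 h3))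
    obtain ⟨w, hw⟩ := prime_of_chain hB hc h1 h2
    obtain ⟨w, rfl⟩ := hφ w
    refine ⟨w, fun h => hw ?_⟩
    rw [← mul_assoc, ← map_mul, ← map_mul, h, zero_mul]
  obtain ⟨a, ha0, ha, haa, hak⟩ := orth_rel hW hφ N hk hne
  obtain ⟨c, y, hc0, hc, hyy, hya⟩ := common_rel hprime hne N a ha0 ha
  refine ⟨c, y, hc0, hc, fun i => ?_, fun i j => ?_⟩
  · obtain ⟨y1, h1⟩ := hya i
    obtain ⟨a1, h2⟩ := hak i
    exact ⟨a1 * y1, by rw [h1, h2, mul_assoc]⟩
  · split_ifs with hij
    · rw [← hij]; exact hyy i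
    · obtain ⟨y1, h1⟩ := hya i
      obtain ⟨y2, h2⟩ := hya j
      rw [h1, h2, star_mul, (IsSelfAdjoint.of_nonneg (ha0 i)).star_eq]
      calc star y1 * a i * (a j * y2) = star y1 * (a i * a j) * y2 := by simp only [mul_assoc]
        _ = 0 := by rw [haa i j hij, mul_zero, zero_mul]

/-- (b) for algebras whose closed ideals are totally ordered -/
theorem wpi_chain {A : Type u} [NonUnitalCStarAlgebra A] [PartialOrder A] [StarOrderedRing A]
    (hA : IsChainC A) (hW : WeaklyPurelyInfinite A) : EltPI A := by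
  obtain ⟨n, hn⟩ := wpi_elementwise hW
  refine eltPI_chain_of hA hn ?_
  intro B _ _ _ φ hφ
  obtain ⟨m, hm⟩ := wpi_elementwise (wpi_of_surj φ hφ hW)
  exact relCopies_of (chain_of_surj hA φ hφ) hm φ hφ

theorem chain_of_simple {A : Type u} [NonUnitalCStarAlgebra A] (hA : IsSimpleC A) :
    IsChainC A := by
  intro a b
  by_cases ha : a = 0
  · subst ha
    exact Or.inr (InId.zero b)
  · exact Or.inl (hA a b ha)

end Vale.Agent.P133.H832
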