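import Vale.Agent.P133.H832.TameDef

/-!
P133 (helper832, helper681): inductive dimension of the lattice of closed ideals.
-/

namespace Vale.Agent.P133.H832

universe u

/-- `w ∈ J₁ + J₂` -/
def InSum {A : Type u} [NonUnitalCStarAlgebra A] (J₁ J₂ : Submodule ℂ A) (w : A) : Prop :=
  ∃ x ∈ J₁, ∃ y ∈ J₂, x + y = w

/-- Any two open subsets of the primitive ideal space of `A` (closed ideals `J₁`, `J₂`) can be
separated along a closed subset with property `P`: there are closed ideals `I₁`, `I₂` with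
`I₁ ∩ I₂ = 0` such that a given element of `J₁ + J₂` is approximated by elements of `J₁ + I₂` that
are also in `J₂ + I₁`, and the quotient `B` of `A` by the closure of `I₁ + I₂` has `P`. -/
def IsSep (P : (A : Type u) → [NonUnitalCStarAlgebra A] → [PartialOrder A] → Prop)
    (A : Type u) [NonUnitalCStarAlgebra A] : Prop :=
  ∀ J₁ J₂ : Submodule ℂ A, IsClosedIdeal J₁ → IsClosedIdeal J₂ → ∀ w, InSum J₁ J₂ w →
    ∀ ε : ℝ, 0 < ε → ∃ I₁ I₂ : Submodule ℂ A, IsClosedIdeal I₁ ∧ IsClosedIdeal I₂ ∧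
      (∀ z ∈ I₁, z ∈ I₂ → z = 0) ∧ (∃ w', ‖w' - w‖ < ε ∧ InSum J₁ I₂ w' ∧ InSum J₂ I₁ w') ∧
      ∃ (B : Type u) (_ : NonUnitalCStarAlgebra B) (_ : PartialOrder B) (_ : StarOrderedRing B)
        (φ : A →⋆ₙₐ[ℂ] B), Function.Surjective φ ∧
        (∀ z, φ z = 0 ↔ ∀ δ : ℝ, 0 < δ → ∃ y, InSum I₁ I₂ y ∧ ‖y - z‖ < δ) ∧ P B

/-- `A` has inductive dimension at most `n`, where dimension zero means that the lattice of closed
ideals is tame, and dimension at most `n + 1` means dimension at most `n`, or that any two open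
subsets of the primitive ideal space can be separated along a closed subset of dimension at
most `n`. -/
def TameDimLE (n : ℕ) : (A : Type u) → [NonUnitalCStarAlgebra A] → [PartialOrder A] → Prop :=
  Nat.rec (fun A _ _ => IsTameC A) (fun _ P A _ _ => P A ∨ IsSep P A) n

end Vale.Agent.P133.H832
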