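import Vale.Agent.P133.H832.Glu2
import Vale.Agent.P133.H832.SepDef
import Vale.Agent.P133.H681.Chain2
import Vale.Agent.P133.H681.Full

/-!
P133 (helper832): separation along purely infinite quotients.
-/

open scoped ComplexOrder

namespace Vale.Agent.P133.H832

open Vale.Agent.P133 Vale.Agent.P133F Vale.Agent.P133.Statement Vale.Agent.P133.H681

universe u

/-- If any two closed ideals can be separated along a quotient that is purely infinite, a weakly
purely infinite algebra is purely infinite. -/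
theorem eltPI_sep {A : Type u} [NonUnitalCStarAlgebra A] [PartialOrder A] [StarOrderedRing A]
    {n : ℕ} (hn : WPI A n)
    (hA : ∀ J₁ J₂ : Submodule ℂ A, IsClosedIdeal J₁ → IsClosedIdeal J₂ →
      ∀ w ∈ J₁ ⊔ J₂, ∀ ε : ℝ, 0 < ε → ∃ I₁ I₂ : Submodule ℂ A,
        IsClosedIdeal I₁ ∧ IsClosedIdeal I₂ ∧ (∀ z ∈ I₁, z ∈ I₂ → z = 0) ∧
        (∃ w' : A, ‖w' - w‖ < ε ∧ w' ∈ J₁ ⊔ I₂ ∧ w' ∈ J₂ ⊔ I₁) ∧
        ∃ (B : Type u) (_ : NonUnitalCStarAlgebra B)
          (φ : A →⋆ₙₐ[ℂ] B), Function.Surjective φ ∧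
          (∀ z, φ z = 0 ↔ z ∈ (I₁ ⊔ I₂).topologicalClosure) ∧ Diag B) : EltPI A := by
  intro a a0 ε hε
  have h0 : IsClosedIdeal (⊥ : Submodule ℂ A) := by
    refine ⟨?_, fun b x hx => ?_⟩
    · rw [Submodule.bot_coe]; exact isClosed_singleton
    · rw [Submodule.mem_bot] at hx
      rw [hx, mul_zero, zero_mul]
      exact ⟨Submodule.zero_mem _, Submodule.zero_mem _⟩
  have h00 : InfB a (0 : A) := ⟨le_rfl, fun m ε hε => ⟨fun _ => 0, fun i j => by simpa using hε⟩⟩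
  obtain ⟨J, -, hJ, hJa, hmax⟩ := exists_max (Q := fun P => ∀ x ∈ P, InfB a (star x * x)) h0
    (by
      intro x hx
      rw [Submodule.mem_bot] at hx
      rw [hx, mul_zero]
      exact h00) (by
    intro N hN x hx
    refine infB_closure (fun y hy => ?_) hx
    obtain ⟨P, -, hP, hyP⟩ := hN y hy
    exact hP y hyP)
  have haJ : a ∈ J := by
    by_contra haJ
    obtain ⟨B, i1, i2, i3, φ, hφ, hφJ, hφa, hprime⟩ := exists_prime_quotient hJ a0 haJ
    obtain ⟨c, hc0, hc, hac⟩ := exists_infB hn hφ hprime a0 hφa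
    obtain ⟨I, hI, hI'⟩ := isClosedIdeal_inId c
    have hN : ∀ b x : A, x ∈ J ⊔ I → b * x ∈ J ⊔ I ∧ x * b ∈ J ⊔ I := by
      intro b x hx
      obtain ⟨j, hj, z, hz, rfl⟩ := Submodule.mem_sup.1 hx
      rw [mul_add, add_mul]
      exact ⟨Submodule.add_mem_sup (hJ.2 _ _ hj).1 (hI.2 _ _ hz).1,
        Submodule.add_mem_sup (hJ.2 _ _ hj).2 (hI.2 _ _ hz).2⟩
    have h1 : ∀ w ∈ J ⊔ I, InfB a (star w * w) := by
      intro w hw
      refine infB_lim (star_mul_self_nonneg w) fun δ hδ => ?_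
      -- continuity of `w ↦ w* w`
      obtain ⟨κ, hκ, hκw⟩ : ∃ κ : ℝ, 0 < κ ∧ ∀ w' : A, ‖w' - w‖ < κ →
          ‖star w' * w' - star w * w‖ < δ := by
        have hc : Continuous fun x : A => star x * x := by fun_prop
        obtain ⟨κ, hκ, h⟩ := Metric.continuous_iff.1 hc w δ hδ
        exact ⟨κ, hκ, fun w' hw' => by
          rw [← dist_eq_norm]; exact h w' (by rw [dist_eq_norm]; exact hw')⟩
      obtain ⟨I₁, I₂, hI₁, hI₂, h12, ⟨w', hw'w, hw1, hw2⟩, C, j1, ψ, hψ, hk, hC⟩ :=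
        hA J I hJ hI w hw κ hκ
      obtain ⟨p, hp, q, hq, hpq⟩ := Submodule.mem_sup.1 hw1
      obtain ⟨p', hp', q', hq', hpq'⟩ := Submodule.mem_sup.1 hw2
      refine ⟨star w' * w', ?_, hκw w' hw'w⟩
      have hy : InfB a (star p' * p') := by
        refine hac.sub (subId_of_inId' hc0 (star_mul_self_nonneg p') ?_)
        exact ((hI' p').1 hp').mulL (star p')
      refine glue hn a0 (star_mul_self_nonneg w') hI₁ hI₂ h12 (hJa p hp) hy ?_ ?_ hψ hk hC
      · have e1 : star w' * w' - star p * p = star w' * q + star q * p := by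
          rw [← hpq, star_add]; noncomm_ring
        rw [e1]
        exact I₂.add_mem (hI₂.2 _ _ hq).1 (hI₂.2 _ _ (hI₂.star_mem hq)).2
      · have e1 : star w' * w' - star p' * p' = star w' * q' + star q' * p' := by
          rw [← hpq', star_add]; noncomm_ring
        rw [e1]
        exact I₁.add_mem (hI₁.2 _ _ hq').1 (hI₁.2 _ _ (hI₁.star_mem hq')).2
    have h2 := hmax _ (le_sup_left.trans (Submodule.le_topologicalClosure _))
      (isClosedIdeal_closure hN) fun x hx => infB_closure h1 hx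
    have hcJ : c ∈ J := by
      rw [← h2]
      exact Submodule.le_topologicalClosure _
        (le_sup_right (a := J) ((hI' c).2 (InId.refl c)))
    exact hc (hφJ c hcJ)
  have hqs : star (CFC.sqrt a) = CFC.sqrt a :=
    (IsSelfAdjoint.of_nonneg (CFC.sqrt_nonneg a)).star_eq
  have hq : CFC.sqrt a ∈ J := by
    refine hJ.of_star_mul_self ?_
    rw [hqs, CFC.sqrt_mul_sqrt_self a a0]
    exact haJ
  have hI : InfB a a := by
    have h1 := hJa _ hq
    rwa [hqs, CFC.sqrt_mul_sqrt_self a a0] at h1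
  obtain ⟨r, hr⟩ := hI.2 2 ε hε
  refine ⟨r 0, r 1, ?_, ?_, ?_⟩
  · simpa using hr 0 0
  · simpa using hr 1 1
  · simpa using hr 0 1

theorem inSum_iff {A : Type u} [NonUnitalCStarAlgebra A] {J₁ J₂ : Submodule ℂ A} {w : A} :
    InSum J₁ J₂ w ↔ w ∈ J₁ ⊔ J₂ := Submodule.mem_sup.symm

theorem inSum_closure {A : Type u} [NonUnitalCStarAlgebra A] {J₁ J₂ : Submodule ℂ A} {z : A} :
    (∀ δ : ℝ, 0 < δ → ∃ y, InSum J₁ J₂ y ∧ ‖y - z‖ < δ) ↔ z ∈ (J₁ ⊔ J₂).topologicalClosure := by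
  constructor
  · intro h
    refine Metric.mem_closure_iff.2 fun ε hε => ?_
    obtain ⟨y, hy, h1⟩ := h ε hε
    exact ⟨y, inSum_iff.1 hy, by rw [dist_comm, dist_eq_norm]; exact h1⟩
  · intro h δ hδ
    obtain ⟨y, hy, h1⟩ := Metric.mem_closure_iff.1 h δ hδ
    exact ⟨y, inSum_iff.2 hy, by rw [dist_comm, dist_eq_norm] at h1; exact h1⟩

/-- Question (b) for C*-algebras of finite inductive dimension, from the tame case. -/
theorem eltPI_dim_of (htame : ∀ (A : Type u) [NonUnitalCStarAlgebra A] [PartialOrder A]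
      [StarOrderedRing A], IsTameC A → WeaklyPurelyInfinite A → EltPI A) :
    ∀ (n : ℕ) (A : Type u) [NonUnitalCStarAlgebra A] [PartialOrder A] [StarOrderedRing A],
      TameDimLE n A → WeaklyPurelyInfinite A → EltPI A := by
  intro n
  induction n with
  | zero => intro A _ _ _ hA hW; exact htame A hA hW
  | succ n ih =>
    intro A _ _ _ hA hW
    have hA' : TameDimLE n A ∨ IsSep (TameDimLE n) A := hA
    rcases hA' with hA | hA
    · exact ih A hA hW
    obtain ⟨m, hm⟩ := wpi_elementwise hW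
    refine eltPI_sep hm fun J₁ J₂ h1 h2 w hw ε hε => ?_
    obtain ⟨I₁, I₂, hI₁, hI₂, h12, ⟨w', hw1, hw2, hw3⟩, B, i1, i2, i3, φ, hφ, hk, hB⟩ :=
      hA J₁ J₂ h1 h2 w (inSum_iff.2 hw) ε hε
    exact ⟨I₁, I₂, hI₁, hI₂, h12, ⟨w', hw1, inSum_iff.1 hw2, inSum_iff.1 hw3⟩, B, i1, φ, hφ,
      fun z => (hk z).trans inSum_closure,
      diag_of_eltPI B (ih B hB (wpi_of_surj φ hφ hW))⟩

end Vale.Agent.P133.H832
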