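import Vale.Agent.P133.H832.ChainE
import Vale.Agent.P133.H832.ChainF
import Vale.Agent.P133.H681.Full

/-!
P133 (helper832): weakly purely infinite algebras with totally ordered ideals are purely infinite.
-/

open scoped ComplexOrder

namespace Vale.Agent.P133.H832

open Vale.Agent.P133 Vale.Agent.P133F Vale.Agent.P133.Statement Vale.Agent.P133.H681

universe u

section

/-- copies in an algebra that survive in a quotient -/
def RelCopies {A B : Type u} [NonUnitalCStarAlgebra A] [PartialOrder A] [StarOrderedRing A]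
    [NonUnitalCStarAlgebra B] [PartialOrder B] [StarOrderedRing B] (φ : A →⋆ₙₐ[ℂ] B) : Prop :=
  ∀ (N : ℕ) (k : A), 0 ≤ k → φ k ≠ 0 → ∃ (c : A) (y : Fin N → A), 0 ≤ c ∧ φ c ≠ 0 ∧
    (∀ i, ∃ Y, y i = k * Y) ∧ ∀ i j, star (y i) * y j = if i = j then c else 0

/-- primeness from totally ordered ideals -/
theorem prime_of_chain {B : Type u} [NonUnitalCStarAlgebra B] (hB : IsChainC B) {c a : B}
    (hc : c ≠ 0) (ha : star a = a) (hane : a ≠ 0) : ∃ w : B, c * w * a ≠ 0 := by
  by_contra hcon
  push Not at hcon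
  rcases hB c a with h | h
  · -- `a` is in the ideal of `c`
    have h1 : ∀ ε : ℝ, 0 < ε → ‖a * a‖ ≤ ε * ‖a‖ := by
      intro ε hε
      obtain ⟨m, r, s, hrs⟩ := h ε hε
      have h2 : (∑ k, r k * c * s k) * a = 0 := by
        rw [Finset.sum_mul]
        refine Finset.sum_eq_zero fun k _ => ?_
        rw [mul_assoc (r k), mul_assoc (r k), hcon (s k), mul_zero]
      have h3 : a * a = -((∑ k, r k * c * s k - a) * a) := by
        rw [sub_mul, h2]; abel
      rw [h3, norm_neg]
      exact norm_mul_le_of_le hrs.le le_rfl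
    have h4 : ‖a * a‖ ≤ 0 := by
      refine le_of_forall_pos_le_add fun ε hε => ?_
      have h5 := h1 (ε / (‖a‖ + 1)) (by positivity)
      refine h5.trans ?_
      rw [zero_add, div_mul_eq_mul_div, div_le_iff₀ (by positivity)]
      nlinarith [norm_nonneg a]
    exact mul_self_ne_zero' ha hane (norm_eq_zero.1 (le_antisymm h4 (norm_nonneg _)))
  · -- `c` is in the ideal of `a`
    have h0 : c * star c * c = 0 := by
      have h1 : ∀ ε : ℝ, 0 < ε → ‖c * star c * c‖ ≤ ε * ‖c * star c‖ := by
        intro ε hε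
        obtain ⟨m, r, s, hrs⟩ := h ε hε
        have h2 : c * star c * (∑ k, r k * a * s k) = 0 := by
          rw [Finset.mul_sum]
          refine Finset.sum_eq_zero fun k _ => ?_
          have h3 : c * star c * (r k * a * s k) = (c * (star c * r k) * a) * s k := by
            simp only [mul_assoc]
          rw [h3, hcon, zero_mul]
        have h3 : c * star c * c = -(c * star c * (∑ k, r k * a * s k - c)) := by
          rw [mul_sub, h2]; abel
        rw [h3, norm_neg, mul_comm]
        exact norm_mul_le_of_le le_rfl hrs.le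
      have h4 : ‖c * star c * c‖ ≤ 0 := by
        refine le_of_forall_pos_le_add fun ε hε => ?_
        have h5 := h1 (ε / (‖c * star c‖ + 1)) (by positivity)
        refine h5.trans ?_
        rw [zero_add, div_mul_eq_mul_div, div_le_iff₀ (by positivity)]
        nlinarith [norm_nonneg (c * star c)]
      exact norm_eq_zero.1 (le_antisymm h4 (norm_nonneg _))
    have h1 : star (star c * c) * (star c * c) = 0 := by
      rw [star_mul, star_star]
      calc star c * c * (star c * c) = star c * (c * star c * c) := by simp only [mul_assoc]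
        _ = 0 := by rw [h0, mul_zero]
    have h2 : star c * c = 0 := by
      have h3 : ‖star (star c * c) * (star c * c)‖ = 0 := by rw [h1, norm_zero]
      rw [CStarRing.norm_star_mul_self] at h3
      exact norm_eq_zero.1 (mul_self_eq_zero.1 h3)
    have h3 : ‖star c * c‖ = 0 := by rw [h2, norm_zero]
    rw [CStarRing.norm_star_mul_self] at h3
    exact hc (norm_eq_zero.1 (mul_self_eq_zero.1 h3))

theorem chain_of_surj {A B : Type u} [NonUnitalCStarAlgebra A] [NonUnitalCStarAlgebra B]
    (hA : IsChainC A) (φ : A →⋆ₙₐ[ℂ] B) (hφ : Function.Surjective φ) : IsChainC B := by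
  have key : ∀ a b : A, InId a b → InId (φ a) (φ b) := by
    intro a b h ε hε
    obtain ⟨m, r, s, h1⟩ := h ε hε
    refine ⟨m, fun k => φ (r k), fun k => φ (s k), ?_⟩
    have h2 : ∑ k, φ (r k) * φ a * φ (s k) - φ b = φ (∑ k, r k * a * s k - b) := by
      rw [map_sub, map_sum]
      simp only [map_mul]
    rw [h2]
    exact (NonUnitalStarAlgHom.norm_apply_le φ _).trans_lt h1
  intro a b
  obtain ⟨a, rfl⟩ := hφ a
  obtain ⟨b, rfl⟩ := hφ b
  exact (hA a b).imp (key a b) (key b a)

variable {A : Type u} [NonUnitalCStarAlgebra A] [PartialOrder A] [StarOrderedRing A]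

theorem eltPI_chain_of (hA : IsChainC A) {n : ℕ} (hn : WPI A n)
    (hR : ∀ (B : Type u) [NonUnitalCStarAlgebra B] [PartialOrder B] [StarOrderedRing B]
      (φ : A →⋆ₙₐ[ℂ] B), Function.Surjective φ → RelCopies φ) : EltPI A := by
  intro a ha ε hε
  by_cases ha0 : a = 0
  · subst ha0
    exact ⟨0, 0, by simpa using hε, by simpa using hε, by simpa using hε⟩
  set e : ℝ := min ‖a‖ (ε / 4) with he
  have he0 : 0 < e := lt_min (norm_pos_iff.2 ha0) (by linarith)
  have he1 : e ≤ ε / 4 := min_le_right _ _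
  obtain ⟨B, i1, i2, i3, φ, hφ, hφa, hid⟩ := exists_chain_quotient hA ha he0 (min_le_left _ _)
  set k : A := CFC.sqrt a with hk
  have hkk : k * k = a := CFC.sqrt_mul_sqrt_self a ha
  have hk0 : 0 ≤ k := CFC.sqrt_nonneg a
  have hks : star k = k := (IsSelfAdjoint.of_nonneg hk0).star_eq
  have hkne : φ k ≠ 0 := fun h0 => hφa (by rw [← hkk, map_mul, h0, mul_zero])
  obtain ⟨c, y, hc0, hc, hy, hyy⟩ := hR B φ hφ n k hk0 hkne
  choose Y hY using hy
  have h1 : InfB a c := by
    refine infB_of_wpi hn hc0 fun δ hδ => ⟨Y, fun i j => ?_⟩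
    have h2 : star (Y i) * a * Y j = star (y i) * y j := by
      rw [hY i, hY j, star_mul, hks, ← hkk]; simp only [mul_assoc]
    rw [h2, hyy, sub_self, norm_zero]
    exact hδ.le
  set h : A := cfcₙ (fun t : ℝ => max (t - e) 0) a with hh
  obtain ⟨hh0, -, hha⟩ := cutdown_le ha he0
  have hhh : 0 ≤ h * h := by
    have := star_mul_self_nonneg h
    rwa [(IsSelfAdjoint.of_nonneg hh0).star_eq] at this
  have hq0 : 0 ≤ CFC.sqrt c := CFC.sqrt_nonneg c
  have hqne : φ (CFC.sqrt c) ≠ 0 := fun h0 => hc (by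
    rw [← CFC.sqrt_mul_sqrt_self c hc0, map_mul, h0, mul_zero])
  have h2 : InId (CFC.sqrt c) (CFC.sqrt (h * h)) := by
    rw [CFC.sqrt_mul_self h hh0]
    exact hid _ (IsSelfAdjoint.of_nonneg hq0).star_eq hqne
  have h3 : InfB a (h * h) := h1.sub (subId_of_inId hc0 hhh h2)
  obtain ⟨g0, g1, g2⟩ := cutdown_le hh0 (show 0 < ε / 4 by linarith)
  set g : A := cfcₙ (fun t : ℝ => max (t - ε / 4) 0) h with hg
  have h4 : InfB a g := h3.sub (SubId.of_le g0 (by positivity) g1)
  obtain ⟨r, hr⟩ := h4.2 2 (ε / 2) (half_pos hε)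
  have hga : ‖g - a‖ ≤ ε / 2 := by
    calc ‖g - a‖ = ‖(g - h) + (h - a)‖ := by rw [sub_add_sub_cancel]
      _ ≤ ‖g - h‖ + ‖h - a‖ := norm_add_le _ _
      _ ≤ ε / 2 := by linarith
  have h5 : ∀ i, ‖star (r i) * a * r i - a‖ < ε := by
    intro i
    have h6 := hr i i
    rw [if_pos rfl] at h6
    calc _ = ‖(star (r i) * a * r i - g) + (g - a)‖ := by rw [sub_add_sub_cancel]
      _ ≤ ‖star (r i) * a * r i - g‖ + ‖g - a‖ := norm_add_le _ _
      _ < ε := by linarith
  have h6 := hr 0 1
  rw [if_neg (by decide), sub_zero] at h6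
  exact ⟨r 0, r 1, h5 0, h5 1, h6.trans (by linarith)⟩

end

end Vale.Agent.P133.H832
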