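import Vale.Agent.P133F.Defs

/-!
P133: the three notions of pure infiniteness coincide for `A`.
-/

namespace Vale.Agent.P133.H832

open Vale.Agent.P133.Statement Vale.Agent.P133F

universe u

/-- The three notions of Q1 coincide for the C*-algebra `A`: weakly purely infinite, purely
infinite and strongly purely infinite. -/
def Coincide (A : Type u) [NonUnitalCStarAlgebra A] [PartialOrder A] [StarOrderedRing A] : Prop :=
  (WeaklyPurelyInfinite A ↔ PurelyInfinite A) ∧ (PurelyInfinite A ↔ StronglyPurelyInfinite A)

end Vale.Agent.P133.H832
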