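import Vale.Agent.P133.H832.SliceNorm

/-!
P133 (helper832): diagonalization of finite families of arbitrary elements by contractions.
-/

open scoped ComplexOrder

namespace Vale.Agent.P133.H832

open Vale.Agent.P133

universe u

variable {M : Type u} [CStarAlgebra M]

theorem sum_cross {p : ℕ} (w v : Fin p → M) {η : ℝ} (h : ∀ i j, ‖star (w i) * v j‖ ≤ η) :
    ‖star (∑ j, w j) * ∑ j, v j‖ ≤ p * p * η := by
  rw [star_sum, Finset.sum_mul_sum]
  calc _ ≤ ∑ i : Fin p, ∑ j : Fin p, η :=
        (norm_sum_le _ _).trans (Finset.sum_le_sum fun i _ =>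
          (norm_sum_le _ _).trans (Finset.sum_le_sum fun j _ => h i j))
    _ = p * p * η := by simp [mul_assoc]

theorem sum_diag {p : ℕ} (w : Fin p → M) {η : ℝ} (hη : 0 ≤ η)
    (h : ∀ i j, i ≠ j → ‖star (w i) * w j‖ ≤ η) :
    ‖star (∑ j, w j) * ∑ j, w j - ∑ j, star (w j) * w j‖ ≤ p * p * η := by
  classical
  have h1 : star (∑ j, w j) * ∑ j, w j - ∑ j, star (w j) * w j =
      ∑ i, ∑ j, (if i = j then (0 : M) else star (w i) * w j) := by
    rw [star_sum, Finset.sum_mul_sum, ← Finset.sum_sub_distrib]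
    refine Finset.sum_congr rfl fun i _ => ?_
    have h2 : ∀ j, star (w i) * w j = (if i = j then star (w i) * w i else 0) +
        (if i = j then (0 : M) else star (w i) * w j) := by
      intro j
      by_cases hij : i = j
      · subst hij; simp
      · simp [hij]
    rw [Finset.sum_congr rfl fun j _ => h2 j, Finset.sum_add_distrib]
    simp
  rw [h1]
  calc _ ≤ ∑ i : Fin p, ∑ j : Fin p, η := by
        refine (norm_sum_le _ _).trans (Finset.sum_le_sum fun i _ =>
          (norm_sum_le _ _).trans (Finset.sum_le_sum fun j _ => ?_))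
        split_ifs with hij
        · rw [norm_zero]; exact hη
        · exact h i j hij
    _ = p * p * η := by simp [mul_assoc]

variable [PartialOrder M] [StarOrderedRing M]

theorem fam_contr (A : CIdeal M) (hA : PIrel A) {n : ℕ} (a : Fin n → M) (ha : ∀ i, a i ∈ A)
    (ha1 : ∀ i, ‖a i‖ ≤ 1) {ε : ℝ} (hε : 0 < ε) :
    ∃ d : Fin n → M, (∀ i, d i ∈ A) ∧ (∀ i, ‖d i‖ ≤ 1) ∧
      (∀ i, ‖star (a i * d i) * (a i * d i) - star (a i) * a i‖ ≤ ε) ∧
      ∀ i j, i ≠ j → ‖star (a i * d i) * (a j * d j)‖ ≤ ε := by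
  classical
  set κ : ℝ := min 1 (ε / 96) with hκdef
  have hκ : 0 < κ := lt_min one_pos (by positivity)
  have hκ1 : κ ≤ 1 := min_le_left _ _
  have hκε : κ ≤ ε / 96 := min_le_right _ _
  have hθ : 0 < ε / 8 := by positivity
  obtain ⟨p, e, t, he, ht, hsupp, hsum, hsep, hcov⟩ := exists_slices hκ hθ
  -- accuracies
  set T1 : ℝ := ∑ j, (t j)⁻¹ with hT1
  have hT1n : 0 ≤ T1 := Finset.sum_nonneg fun j _ => inv_nonneg.2 (ht j).le
  set T2 : ℝ := ∑ i, ∑ j, (Real.sqrt (t i))⁻¹ * (Real.sqrt (t j))⁻¹ with hT2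
  have hT2n : 0 ≤ T2 := Finset.sum_nonneg fun i _ => Finset.sum_nonneg fun j _ => by positivity
  set δ : ℝ := min (κ / (T1 + 1)) (ε / (8 * (p + 1))) with hδdef
  have hδ : 0 < δ := lt_min (by positivity) (by positivity)
  have hδ1 : T1 * δ ≤ κ := by
    calc T1 * δ ≤ T1 * (κ / (T1 + 1)) := by gcongr; exact min_le_left _ _
      _ = κ * (T1 / (T1 + 1)) := by ring
      _ ≤ κ * 1 := by
          gcongr
          exact div_le_one_of_le₀ (by linarith) (by linarith)
      _ = κ := mul_one _
  have hδ2 : p * δ ≤ ε / 8 := by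
    calc (p : ℝ) * δ ≤ p * (ε / (8 * (p + 1))) := by gcongr; exact min_le_right _ _
      _ = ε / 8 * (p / (p + 1)) := by field_simp
      _ ≤ ε / 8 * 1 := by
          gcongr
          exact div_le_one_of_le₀ (by linarith) (by positivity)
      _ = ε / 8 := mul_one _
  set η : ℝ := min (κ / (T2 + 1)) (ε / (8 * (p * p + 1))) with hηdef
  have hη : 0 < η := lt_min (by positivity) (by positivity)
  have hη1 : T2 * η ≤ κ := by
    calc T2 * η ≤ T2 * (κ / (T2 + 1)) := by gcongr; exact min_le_left _ _
      _ = κ * (T2 / (T2 + 1)) := by ring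
      _ ≤ κ * 1 := by
          gcongr
          exact div_le_one_of_le₀ (by linarith) (by linarith)
      _ = κ := mul_one _
  have hη2 : p * p * η ≤ ε / 8 := by
    calc (p : ℝ) * p * η ≤ p * p * (ε / (8 * (p * p + 1))) := by gcongr; exact min_le_right _ _
      _ = ε / 8 * ((p * p) / (p * p + 1)) := by field_simp
      _ ≤ ε / 8 * 1 := by
          gcongr
          exact div_le_one_of_le₀ (by linarith) (by positivity)
      _ = ε / 8 := mul_one _
  -- the slices
  have hQ0 : ∀ i, 0 ≤ star (a i) * a i := fun i => star_mul_self_nonneg _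
  have hQ1 : ∀ i, ‖star (a i) * a i‖ ≤ 1 := fun i => by
    rw [CStarRing.norm_star_mul_self]; exact mul_le_one₀ (ha1 i) (norm_nonneg _) (ha1 i)
  have hen : ∀ i j, ‖cfc (e j) (star (a i) * a i)‖ ≤ 1 := by
    intro i j
    refine norm_cfc_le' (hQ0 i) zero_le_one (fun u hu _ => ?_)
    have h1 : e j u ^ 2 ≤ 1 :=
      (Finset.single_le_sum (fun k _ => sq_nonneg (e k u)) (Finset.mem_univ j)).trans (hsum u hu)
    rw [← sq_abs] at h1
    nlinarith [abs_nonneg (e j u)]
  obtain ⟨s, hsA, hsd, hsc⟩ := fam_gen A hA (ι := Fin n × Fin p)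
    (fun x => a x.1 * cfc (e x.2) (star (a x.1) * a x.1)) (fun x => A.right_mem (ha _) _)
    (fun x => (norm_mul_le _ _).trans (mul_le_one₀ (ha1 _) (norm_nonneg _) (hen _ _))) hδ hη
  set D : Fin n → M := fun i => ∑ j, cfc (e j) (star (a i) * a i) * s (i, j) with hD
  have hDn : ∀ i, ‖D i‖ ≤ 1 + 6 * κ := fun i =>
    slice_norm e t hκ hκ1 he ht hsupp hsum hsep (fun j => s (i, j)) (fun j => hsd (i, j))
      (fun j k hjk => hsc (i, j) (i, k) (fun h => hjk (Prod.ext_iff.1 h).2)) hη.le
      (by rw [← Finset.sum_mul]; exact hδ1)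
      (by simp only [← Finset.sum_mul]; exact hη1)
  have haD : ∀ i, a i * D i = ∑ j, a i * cfc (e j) (star (a i) * a i) * s (i, j) := by
    intro i
    rw [hD]
    simp only [Finset.mul_sum, mul_assoc]
  have hcross : ∀ i k, i ≠ k → ‖star (a i * D i) * (a k * D k)‖ ≤ ε / 8 := by
    intro i k hik
    rw [haD, haD]
    exact (sum_cross _ _ fun j l => hsc (i, j) (k, l) (fun h => hik (Prod.ext_iff.1 h).1)).trans hη2
  have hdiag : ∀ i, ‖star (a i * D i) * (a i * D i) - star (a i) * a i‖ ≤ 3 * (ε / 8) := by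
    intro i
    have h1 : ‖star (a i * D i) * (a i * D i) -
        ∑ j, star (a i * cfc (e j) (star (a i) * a i) * s (i, j)) *
          (a i * cfc (e j) (star (a i) * a i) * s (i, j))‖ ≤ ε / 8 := by
      rw [haD]
      exact (sum_diag _ hη.le fun j l hjl =>
        hsc (i, j) (i, l) (fun h => hjl (Prod.ext_iff.1 h).2)).trans hη2
    have h2 : ‖∑ j, star (a i * cfc (e j) (star (a i) * a i) * s (i, j)) *
          (a i * cfc (e j) (star (a i) * a i) * s (i, j)) -
        ∑ j, star (a i * cfc (e j) (star (a i) * a i)) *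
          (a i * cfc (e j) (star (a i) * a i))‖ ≤ ε / 8 := by
      rw [← Finset.sum_sub_distrib]
      calc _ ≤ ∑ j : Fin p, δ := (norm_sum_le _ _).trans (Finset.sum_le_sum fun j _ => hsd (i, j))
        _ = p * δ := by simp
        _ ≤ ε / 8 := hδ2
    have h3 : ‖∑ j, star (a i * cfc (e j) (star (a i) * a i)) *
          (a i * cfc (e j) (star (a i) * a i)) - star (a i) * a i‖ ≤ ε / 8 := by
      have hc1 : ∀ j, Continuous (fun u => u * e j u) := fun j => continuous_id.mul (he j)
      have hc2 : ∀ j, Continuous (fun u => e j u * (u * e j u)) := fun j => (he j).mul (hc1 j)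
      have hstar : ∀ j, star (a i * cfc (e j) (star (a i) * a i)) *
          (a i * cfc (e j) (star (a i) * a i)) =
          cfc (fun u => e j u * (u * e j u)) (star (a i) * a i) := by
        intro j
        rw [star_mul, star_cfc]
        calc cfc (e j) (star (a i) * a i) * star (a i) * (a i * cfc (e j) (star (a i) * a i)) =
            cfc (e j) (star (a i) * a i) * ((star (a i) * a i) *
              cfc (e j) (star (a i) * a i)) := by simp only [mul_assoc]
          _ = _ := by rw [mul_cfc (he j) (hQ0 i), cfc_mul' (he j) (hc1 j)]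
      have h4 : ∑ j, star (a i * cfc (e j) (star (a i) * a i)) *
          (a i * cfc (e j) (star (a i) * a i)) =
          cfc (fun u => ∑ j, e j u * (u * e j u)) (star (a i) * a i) := by
        have h5 := cfc_sum_univ (fun j : Fin p => fun u : ℝ => e j u * (u * e j u))
          (star (a i) * a i) (fun j => (hc2 j).continuousOn)
        have h6 : (∑ j : Fin p, fun u : ℝ => e j u * (u * e j u)) =
            fun u => ∑ j, e j u * (u * e j u) := by
          ext u; simp only [Finset.sum_apply]
        rw [← h6, h5]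
        exact Finset.sum_congr rfl fun j _ => hstar j
      have hc3 : Continuous (fun u => ∑ j, e j u * (u * e j u)) :=
        continuous_finsetSum _ fun j _ => hc2 j
      rw [h4]
      have h7 : cfc (fun u => ∑ j, e j u * (u * e j u)) (star (a i) * a i) - star (a i) * a i =
          cfc (fun u => (∑ j, e j u * (u * e j u)) - u) (star (a i) * a i) := by
        rw [cfc_sub _ (fun u : ℝ => u) (star (a i) * a i) hc3.continuousOn
          (by fun_prop : Continuous fun u : ℝ => u).continuousOn,
          cfc_id' ℝ (star (a i) * a i) (IsSelfAdjoint.of_nonneg (hQ0 i))]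
      rw [h7]
      refine norm_cfc_le' (hQ0 i) hθ.le (fun u hu hu1 => ?_)
      have h8 : (∑ j, e j u * (u * e j u)) - u = -(u * (1 - ∑ j, e j u ^ 2)) := by
        have h9 : ∑ j, e j u * (u * e j u) = u * ∑ j, e j u ^ 2 := by
          rw [Finset.mul_sum]
          exact Finset.sum_congr rfl fun j _ => by ring
        rw [h9]; ring
      rw [h8, abs_neg, abs_of_nonneg (mul_nonneg hu (by linarith [hsum u hu]))]
      exact hcov u hu (hu1.trans (hQ1 i))
    calc _ = ‖(star (a i * D i) * (a i * D i) -
          ∑ j, star (a i * cfc (e j) (star (a i) * a i) * s (i, j)) *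
            (a i * cfc (e j) (star (a i) * a i) * s (i, j))) +
          (∑ j, star (a i * cfc (e j) (star (a i) * a i) * s (i, j)) *
            (a i * cfc (e j) (star (a i) * a i) * s (i, j)) -
          ∑ j, star (a i * cfc (e j) (star (a i) * a i)) *
            (a i * cfc (e j) (star (a i) * a i))) +
          (∑ j, star (a i * cfc (e j) (star (a i) * a i)) *
            (a i * cfc (e j) (star (a i) * a i)) - star (a i) * a i)‖ := by
            congr 1; abel
      _ ≤ _ := norm_add₃_le
      _ ≤ 3 * (ε / 8) := by linarith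
  -- normalization
  set c : ℝ := (1 + 6 * κ)⁻¹ with hc
  have hc0 : 0 < c := by positivity
  have hc1 : c * (1 + 6 * κ) = 1 := inv_mul_cancel₀ (by positivity)
  have hcle : c ≤ 1 := inv_le_one_of_one_le₀ (by linarith)
  have hscale : ∀ i k, star (a i * (c • D i)) * (a k * (c • D k)) =
      (c * c) • (star (a i * D i) * (a k * D k)) := by
    intro i k
    rw [mul_smul_comm, mul_smul_comm, star_smul, star_trivial, smul_mul_smul_comm]
  have hcc : c * c ≤ 1 := by nlinarith
  refine ⟨fun i => c • D i, fun i => A.smul_mem _ ?_, fun i => ?_, fun i => ?_, fun i k hik => ?_⟩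
  · have : ∀ q : Finset (Fin p), ∑ j ∈ q, cfc (e j) (star (a i) * a i) * s (i, j) ∈ A := by
      intro q
      induction q using Finset.induction_on with
      | empty => simpa using A.zero_mem
      | insert j q hj ih =>
        rw [Finset.sum_insert hj]
        exact A.add_mem (A.left_mem _ (hsA _)) ih
    exact this _
  · rw [norm_smul, Real.norm_of_nonneg hc0.le]
    calc c * ‖D i‖ ≤ c * (1 + 6 * κ) := mul_le_mul_of_nonneg_left (hDn i) hc0.le
      _ = 1 := hc1
  · simp only [hscale]
    have hXn : ‖star (a i * D i) * (a i * D i)‖ ≤ (1 + 6 * κ) * (1 + 6 * κ) := by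
      rw [CStarRing.norm_star_mul_self]
      have h1 : ‖a i * D i‖ ≤ 1 + 6 * κ := by
        calc ‖a i * D i‖ ≤ ‖a i‖ * ‖D i‖ := norm_mul_le _ _
          _ ≤ 1 * (1 + 6 * κ) := mul_le_mul (ha1 i) (hDn i) (norm_nonneg _) zero_le_one
          _ = 1 + 6 * κ := one_mul _
      exact mul_le_mul h1 h1 (norm_nonneg _) (by positivity)
    have h2 : (c * c) • (star (a i * D i) * (a i * D i)) - star (a i) * a i =
        (star (a i * D i) * (a i * D i) - star (a i) * a i) -
          (1 - c * c) • (star (a i * D i) * (a i * D i)) := by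
      rw [sub_smul, one_smul]; abel
    rw [h2]
    calc _ ≤ ‖star (a i * D i) * (a i * D i) - star (a i) * a i‖ +
          ‖(1 - c * c) • (star (a i * D i) * (a i * D i))‖ := norm_sub_le _ _
      _ ≤ 3 * (ε / 8) + (1 - c * c) * ((1 + 6 * κ) * (1 + 6 * κ)) := by
          rw [norm_smul, Real.norm_of_nonneg (by linarith)]
          exact add_le_add (hdiag i) (mul_le_mul_of_nonneg_left hXn (by linarith))
      _ = 3 * (ε / 8) + ((1 + 6 * κ) * (1 + 6 * κ) - (c * (1 + 6 * κ)) * (c * (1 + 6 * κ))) := by
          ring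
      _ ≤ ε := by rw [hc1]; nlinarith
  · simp only [hscale]
    rw [norm_smul, Real.norm_of_nonneg (by positivity)]
    calc c * c * ‖star (a i * D i) * (a k * D k)‖ ≤ 1 * (ε / 8) :=
          mul_le_mul hcc (hcross i k hik) (norm_nonneg _) zero_le_one
      _ ≤ ε := by linarith

end Vale.Agent.P133.H832
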