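import Vale.Agent.P133.H832.Contr

/-!
P133 (helper832): extensions of purely infinite C*-algebras, relative form.
-/

open scoped ComplexOrder

namespace Vale.Agent.P133.H832

open Vale.Agent.P133

universe u

variable {M : Type u} [CStarAlgebra M] [PartialOrder M] [StarOrderedRing M]

/-- `fam_contr` for elements of arbitrary norm -/
theorem fam_contr' (A : CIdeal M) (hA : PIrel A) {n : ℕ} (a : Fin n → M) (ha : ∀ i, a i ∈ A)
    {ε : ℝ} (hε : 0 < ε) :
    ∃ d : Fin n → M, (∀ i, d i ∈ A) ∧ (∀ i, ‖d i‖ ≤ 1) ∧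
      (∀ i, ‖star (a i * d i) * (a i * d i) - star (a i) * a i‖ ≤ ε) ∧
      ∀ i j, i ≠ j → ‖star (a i * d i) * (a j * d j)‖ ≤ ε := by
  set N : ℝ := ∑ i, ‖a i‖ + 1 with hN
  have hN0 : 0 < N := add_pos_of_nonneg_of_pos (Finset.sum_nonneg fun i _ => norm_nonneg _) one_pos
  have haN : ∀ i, ‖a i‖ ≤ N := fun i =>
    (Finset.single_le_sum (fun k _ => norm_nonneg (a k)) (Finset.mem_univ i)).trans (by linarith)
  have hNN : (0 : ℝ) < N ^ 2 := by positivity
  obtain ⟨d, hdA, hd1, hdd, hdc⟩ := fam_contr A hA (fun i => N⁻¹ • a i)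
    (fun i => A.smul_mem _ (ha i)) (fun i => by
      rw [norm_smul, Real.norm_of_nonneg (by positivity), inv_mul_le_iff₀ hN0, mul_one]
      exact haN i) (ε := ε / N ^ 2) (by positivity)
  have key : ∀ i j, star ((N⁻¹ • a i) * d i) * ((N⁻¹ • a j) * d j) =
      (N ^ 2)⁻¹ • (star (a i * d i) * (a j * d j)) := by
    intro i j
    rw [smul_mul_assoc, smul_mul_assoc, star_smul, star_trivial, smul_mul_smul_comm]
    congr 1
    rw [sq, mul_inv]
  have key2 : ∀ i, star (N⁻¹ • a i) * (N⁻¹ • a i) = (N ^ 2)⁻¹ • (star (a i) * a i) := by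
    intro i
    rw [star_smul, star_trivial, smul_mul_smul_comm]
    congr 1
    rw [sq, mul_inv]
  have hcan : N ^ 2 * (ε / N ^ 2) = ε := by field_simp
  refine ⟨d, hdA, hd1, fun i => ?_, fun i j hij => ?_⟩
  · have h1 := hdd i
    rw [key, key2, ← smul_sub, norm_smul, Real.norm_of_nonneg (by positivity),
      inv_mul_le_iff₀ hNN, hcan] at h1
    exact h1
  · have h1 := hdc i j hij
    rw [key, norm_smul, Real.norm_of_nonneg (by positivity), inv_mul_le_iff₀ hNN, hcan] at h1
    exact h1

omit [PartialOrder M] [StarOrderedRing M] in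
theorem norm3 {x y z : M} {a b c : ℝ} (hx : ‖x‖ ≤ a) (hy : ‖y‖ ≤ b) (hz : ‖z‖ ≤ c) :
    ‖x * y * z‖ ≤ a * b * c :=
  norm_mul_le_of_le (norm_mul_le_of_le hx hy) hz

/-- Extensions: if the ideal `I` of `A` is purely infinite and `A` is purely infinite modulo `I`
then `A` is purely infinite. -/
theorem ext_rel (I A : CIdeal M) (hIA : ∀ x ∈ I, x ∈ A) (hI : PIrel I)
    (hB : ∀ h ∈ A, 0 ≤ h → ∀ ε : ℝ, 0 < ε → ∃ (s : Fin 4 → M) (i : Fin 4 → Fin 4 → M),
      (∀ j, s j ∈ A) ∧ (∀ j k, i j k ∈ I) ∧
      ∀ j k, ‖star (s j) * h * s k - (if j = k then h else 0) - i j k‖ ≤ ε) : PIrel A := by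
  intro h hhA h0 ε hε
  set η : ℝ := ε / 100 with hηdef
  have hη : 0 < η := by positivity
  obtain ⟨s, i, hsA, hiI, hsi⟩ := hB h hhA h0 η hη
  -- the first approximate unit
  obtain ⟨e', he', hei'⟩ := exists_approx_unit I (c := fun x : Fin 4 × Fin 4 => i x.1 x.2)
    (fun x => hiI _ _) hη
  -- the second one
  obtain ⟨e, he, hee⟩ := exists_approx_unit I
    (c := fun x : (Fin 4 × Fin 4) ⊕ Fin 4 => Sum.elim (fun y => i y.1 y.2)
      (fun j => star (s j) * h * e') x)
    (fun x => by
      rcases x with y | j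
      · exact hiI _ _
      · exact I.left_mem _ he'.mem) hη
  have hp1i : ∀ j k, ‖(1 - e) * i j k‖ ≤ η := fun j k => (hee (Sum.inl (j, k))).2.le
  have hp1s : ∀ j, ‖(1 - e) * (star (s j) * h * e')‖ ≤ η := fun j => (hee (Sum.inr j)).2.le
  have hp3i : ∀ j k, ‖(1 - e') * i j k‖ ≤ η := fun j k => (hei' (j, k)).2.le
  have hp1n : ‖(1 : M) - e‖ ≤ 1 := norm_one_sub_le he.nonneg he.le_one
  have hp3n : ‖e'‖ ≤ 1 := he'.norm_le
  set p₂ : M := e - e' with hp₂
  have hp2n : ‖p₂‖ ≤ 2 := by
    calc ‖p₂‖ ≤ ‖e‖ + ‖e'‖ := norm_sub_le _ _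
      _ ≤ 2 := by linarith [he.norm_le]
  have hp2I : p₂ ∈ I := I.sub_mem he.mem he'.mem
  have hes : star e = e := he.star_eq
  have hes' : star e' = e' := he'.star_eq
  have hp2s : star p₂ = p₂ := by rw [hp₂, star_sub, hes, hes']
  have hp1star : star (1 - e) = 1 - e := by rw [star_sub, star_one, hes]
  have hp2i : ∀ j k, ‖p₂ * i j k‖ ≤ 2 * η := by
    intro j k
    have h1 : p₂ * i j k = (1 - e') * i j k - (1 - e) * i j k := by rw [hp₂]; noncomm_ring
    rw [h1]
    exact (norm_sub_le _ _).trans (by linarith [hp3i j k, hp1i j k])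
  -- the square root of `h`
  set r : M := cfc Real.sqrt h with hr
  have hrs : star r = r := t1_sqrt_sa h
  have hrr : r * r = h := t1_sqrt_mul_sqrt h0
  -- the family in `I`
  obtain ⟨d, hdI, hd1, hdd, hdc⟩ := fam_contr' I hI ![r * s 2 * p₂, r * s 3 * p₂, r * e', r * e']
    (fun j => by
      fin_cases j
      · exact I.left_mem _ hp2I
      · exact I.left_mem _ hp2I
      · exact I.left_mem _ he'.mem
      · exact I.left_mem _ he'.mem) hη
  -- the elements
  set k : M := (1 - e) * h * (1 - e) + p₂ * h * p₂ + e' * h * e' with hk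
  have hα : ∀ j l : Fin 4, ‖star (r * s j * (1 - e)) * (r * s l * (1 - e)) -
      (if j = l then (1 - e) * h * (1 - e) else 0)‖ ≤ 2 * η := by
    intro j l
    have h1 : star (r * s j * (1 - e)) * (r * s l * (1 - e)) -
        (if j = l then (1 - e) * h * (1 - e) else 0) =
        (1 - e) * (star (s j) * h * s l - (if j = l then h else 0) - i j l) * (1 - e) +
          (1 - e) * i j l * (1 - e) := by
      rw [star_mul, star_mul, hp1star, hrs, ← hrr]
      split_ifs <;> noncomm_ring
    rw [h1]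
    calc _ ≤ 1 * η * 1 + η * 1 := by
          refine (norm_add_le _ _).trans (add_le_add (norm3 hp1n (hsi j l) hp1n)
            (norm_mul_le_of_le (hp1i j l) hp1n))
      _ = 2 * η := by ring
  have hαβ : ∀ (j l : Fin 4), j ≠ l → ∀ x : M, ‖x‖ ≤ 1 →
      ‖star (r * s j * (1 - e)) * (r * s l * p₂ * x)‖ ≤ 4 * η := by
    intro j l hjl x hx
    have h1 : star (r * s j * (1 - e)) * (r * s l * p₂ * x) =
        (1 - e) * (star (s j) * h * s l - (if j = l then h else 0) - i j l) * (p₂ * x) +
          (1 - e) * i j l * (p₂ * x) := by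
      rw [star_mul, star_mul, hp1star, hrs, ← hrr, if_neg hjl]
      noncomm_ring
    have h2 : ‖p₂ * x‖ ≤ 2 * 1 := norm_mul_le_of_le hp2n hx
    rw [h1]
    calc _ ≤ 1 * η * (2 * 1) + η * (2 * 1) := by
          refine (norm_add_le _ _).trans (add_le_add (norm3 hp1n (hsi j l) h2)
            (norm_mul_le_of_le (hp1i j l) h2))
      _ = 4 * η := by ring
  have hαγ : ∀ (j : Fin 4), ∀ x : M, ‖x‖ ≤ 1 →
      ‖star (r * s j * (1 - e)) * (r * e' * x)‖ ≤ η := by
    intro j x hx
    have h1 : star (r * s j * (1 - e)) * (r * e' * x) =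
        (1 - e) * (star (s j) * h * e') * x := by
      rw [star_mul, star_mul, hp1star, hrs, ← hrr]
      noncomm_ring
    rw [h1]
    calc _ ≤ η * 1 := norm_mul_le_of_le (hp1s j) hx
      _ = η := mul_one _
  have hβdiag : ∀ j : Fin 4, ‖star (r * s j * p₂) * (r * s j * p₂) - p₂ * h * p₂‖ ≤ 8 * η := by
    intro j
    have h1 : star (r * s j * p₂) * (r * s j * p₂) - p₂ * h * p₂ =
        p₂ * (star (s j) * h * s j - (if j = j then h else 0) - i j j) * p₂ +
          p₂ * i j j * p₂ := by
      rw [star_mul, star_mul, hp2s, hrs, ← hrr, if_pos rfl]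
      noncomm_ring
    rw [h1]
    calc _ ≤ 2 * η * 2 + 2 * η * 2 := by
          refine (norm_add_le _ _).trans (add_le_add (norm3 hp2n (hsi j j) hp2n)
            (norm_mul_le_of_le (hp2i j j) hp2n))
      _ = 8 * η := by ring
  -- one pair of indices; `v` and `w` are the parts in `I`
  have hpair : ∀ (j l : Fin 2), ‖star (r * s (Fin.castAdd 2 j) * (1 - e) +
        r * s (Fin.natAdd 2 j) * p₂ * d (Fin.castAdd 2 j) + r * e' * d (Fin.natAdd 2 j)) *
      (r * s (Fin.castAdd 2 l) * (1 - e) +
        r * s (Fin.natAdd 2 l) * p₂ * d (Fin.castAdd 2 l) + r * e' * d (Fin.natAdd 2 l)) -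
      (if j = l then k else 0)‖ ≤ 26 * η := by
    intro j l
    have hfam : ∀ j : Fin 2, ![r * s 2 * p₂, r * s 3 * p₂, r * e', r * e'] (Fin.castAdd 2 j) =
        r * s (Fin.natAdd 2 j) * p₂ := by
      intro j; fin_cases j <;> rfl
    have hfam' : ∀ j : Fin 2, ![r * s 2 * p₂, r * s 3 * p₂, r * e', r * e'] (Fin.natAdd 2 j) =
        r * e' := by
      intro j; fin_cases j <;> rfl
    have hne1 : ∀ j l : Fin 2, (Fin.castAdd 2 j : Fin 4) ≠ Fin.natAdd 2 l := by decide
    have hinj1 : ∀ j l : Fin 2, ((Fin.castAdd 2 j : Fin 4) = Fin.castAdd 2 l) ↔ j = l := by decide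
    have hinj2 : ∀ j l : Fin 2, ((Fin.natAdd 2 j : Fin 4) = Fin.natAdd 2 l) ↔ j = l := by decide
    set α : Fin 2 → M := fun j => r * s (Fin.castAdd 2 j) * (1 - e) with hαdef
    set β : Fin 2 → M := fun j => r * s (Fin.natAdd 2 j) * p₂ * d (Fin.castAdd 2 j) with hβdef
    set γ : Fin 2 → M := fun j => r * e' * d (Fin.natAdd 2 j) with hγdef
    have t1 : ‖star (α j) * α l - (if j = l then (1 - e) * h * (1 - e) else 0)‖ ≤ 2 * η := by
      have := hα (Fin.castAdd 2 j) (Fin.castAdd 2 l)
      simp only [hinj1] at this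
      exact this
    have t2 : ∀ j l, ‖star (α j) * β l‖ ≤ 4 * η := fun j l =>
      hαβ _ _ (hne1 j l) _ (hd1 _)
    have t3 : ∀ j l, ‖star (α j) * γ l‖ ≤ η := fun j l => hαγ _ _ (hd1 _)
    have t2' : ‖star (β j) * α l‖ ≤ 4 * η := by
      have := t2 l j
      rwa [← norm_star, star_mul, star_star] at this
    have t3' : ‖star (γ j) * α l‖ ≤ η := by
      have := t3 l j
      rwa [← norm_star, star_mul, star_star] at this
    have t4 : ‖star (β j) * β l - (if j = l then p₂ * h * p₂ else 0)‖ ≤ 9 * η := by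
      by_cases hjl : j = l
      · subst hjl
        have h1 := hdd (Fin.castAdd 2 j)
        rw [hfam] at h1
        simp only [if_true]
        calc _ = ‖(star (β j) * β j - star (r * s (Fin.natAdd 2 j) * p₂) *
              (r * s (Fin.natAdd 2 j) * p₂)) + (star (r * s (Fin.natAdd 2 j) * p₂) *
              (r * s (Fin.natAdd 2 j) * p₂) - p₂ * h * p₂)‖ := by congr 1; abel
          _ ≤ η + 8 * η := (norm_add_le _ _).trans (add_le_add h1 (hβdiag _))
          _ = 9 * η := by ring
      · have h1 := hdc (Fin.castAdd 2 j) (Fin.castAdd 2 l) (fun h => hjl ((hinj1 j l).1 h))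
        rw [hfam, hfam] at h1
        simp only [if_neg hjl, sub_zero]
        exact h1.trans (by linarith)
    have t5 : ‖star (β j) * γ l‖ ≤ η := by
      have h1 := hdc (Fin.castAdd 2 j) (Fin.natAdd 2 l) (hne1 j l)
      rw [hfam, hfam'] at h1
      exact h1
    have t5' : ‖star (γ j) * β l‖ ≤ η := by
      have h1 := hdc (Fin.natAdd 2 j) (Fin.castAdd 2 l) (hne1 l j).symm
      rw [hfam, hfam'] at h1
      exact h1
    have t6 : ‖star (γ j) * γ l - (if j = l then e' * h * e' else 0)‖ ≤ η := by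
      have hee' : star (r * e') * (r * e') = e' * h * e' := by
        rw [star_mul, hrs, hes', ← hrr]; noncomm_ring
      by_cases hjl : j = l
      · subst hjl
        have h1 := hdd (Fin.natAdd 2 j)
        rw [hfam', hee'] at h1
        simp only [if_true]
        exact h1
      · have h1 := hdc (Fin.natAdd 2 j) (Fin.natAdd 2 l) (fun h => hjl ((hinj2 j l).1 h))
        rw [hfam', hfam'] at h1
        simp only [if_neg hjl, sub_zero]
        exact h1
    have hexp : star (α j + β j + γ j) * (α l + β l + γ l) - (if j = l then k else 0) =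
        (star (α j) * α l - (if j = l then (1 - e) * h * (1 - e) else 0)) +
        (star (β j) * β l - (if j = l then p₂ * h * p₂ else 0)) +
        (star (γ j) * γ l - (if j = l then e' * h * e' else 0)) +
        (star (α j) * β l + star (α j) * γ l + star (β j) * α l + star (β j) * γ l +
          star (γ j) * α l + star (γ j) * β l) := by
      rw [hk, star_add, star_add]
      split_ifs <;> noncomm_ring
    change ‖star (α j + β j + γ j) * (α l + β l + γ l) - (if j = l then k else 0)‖ ≤ 26 * η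
    rw [hexp]
    refine (norm_add_le _ _).trans ?_
    have g1 : ‖star (α j) * β l + star (α j) * γ l + star (β j) * α l + star (β j) * γ l +
          star (γ j) * α l + star (γ j) * β l‖ ≤ 4 * η + η + 4 * η + η + η + η := by
      refine (norm_add_le _ _).trans (add_le_add ?_ t5')
      refine (norm_add_le _ _).trans (add_le_add ?_ t3')
      refine (norm_add_le _ _).trans (add_le_add ?_ t5)
      refine (norm_add_le _ _).trans (add_le_add ?_ t2')
      exact (norm_add_le _ _).trans (add_le_add (t2 j l) (t3 j l))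
    have g2 : ‖(star (α j) * α l - (if j = l then (1 - e) * h * (1 - e) else 0)) +
        (star (β j) * β l - (if j = l then p₂ * h * p₂ else 0)) +
        (star (γ j) * γ l - (if j = l then e' * h * e' else 0))‖ ≤ 2 * η + 9 * η + η :=
      (norm_add_le _ _).trans (add_le_add ((norm_add_le _ _).trans (add_le_add t1 t4)) t6)
    linarith
  -- `h ≤ 3 k`
  have hle : h ≤ (3 : ℝ) • k := by
    have h1 : (3 : ℝ) • k - h = star (r * (1 - e) - r * p₂) * (r * (1 - e) - r * p₂) +
        star (r * (1 - e) - r * e') * (r * (1 - e) - r * e') +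
        star (r * p₂ - r * e') * (r * p₂ - r * e') := by
      have h2 : h = star (r * (1 - e) + r * p₂ + r * e') * (r * (1 - e) + r * p₂ + r * e') := by
        have h3 : r * (1 - e) + r * p₂ + r * e' = r := by rw [hp₂]; noncomm_ring
        rw [h3, hrs, hrr]
      have h4 : (3 : ℝ) • k = k + k + k := by
        rw [show (3 : ℝ) = 1 + 1 + 1 by norm_num, add_smul, add_smul, one_smul]
      have h5 : k = star (r * (1 - e)) * (r * (1 - e)) + star (r * p₂) * (r * p₂) +
          star (r * e') * (r * e') := by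
        rw [hk, star_mul, star_mul, star_mul, hrs, hp1star, hp2s, hes', ← hrr]
        noncomm_ring
      conv_lhs => rw [h4, h5, h2]
      simp only [star_add, star_sub]
      noncomm_ring
    rw [← sub_nonneg, h1]
    exact add_nonneg (add_nonneg (star_mul_self_nonneg _) (star_mul_self_nonneg _))
      (star_mul_self_nonneg _)
  obtain ⟨v, hv1, hv⟩ := t1_hered h0 hle (μ := ε / 10) (by positivity)
  -- the final elements
  set U : Fin 2 → M := fun j => s (Fin.castAdd 2 j) * (1 - e) +
    s (Fin.natAdd 2 j) * p₂ * d (Fin.castAdd 2 j) + e' * d (Fin.natAdd 2 j) with hU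
  have hUA : ∀ j, U j ∈ A := fun j =>
    A.add_mem (A.add_mem (A.right_mem (hsA _) _) (A.right_mem (A.right_mem (hsA _) _) _))
      (hIA _ (I.right_mem he'.mem _))
  have hrU : ∀ j, r * U j = r * s (Fin.castAdd 2 j) * (1 - e) +
        r * s (Fin.natAdd 2 j) * p₂ * d (Fin.castAdd 2 j) + r * e' * d (Fin.natAdd 2 j) := by
    intro j; rw [hU]; noncomm_ring
  have hUh : ∀ j l, star (U j) * h * U l = star (r * U j) * (r * U l) := by
    intro j l
    rw [star_mul, hrs, ← hrr]; noncomm_ring
  have hmain : ∀ j l, ‖star (U j) * h * U l - (if j = l then k else 0)‖ ≤ 26 * η := by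
    intro j l
    rw [hUh, hrU, hrU]
    exact hpair j l
  set q : ℝ := Real.sqrt 3 with hq
  have hqq : q * q = 3 := Real.mul_self_sqrt (by norm_num)
  have hconj : ∀ j l, star (U j * (q • v)) * h * (U l * (q • v)) =
      (3 : ℝ) • (star v * (star (U j) * h * U l) * v) := by
    intro j l
    rw [mul_smul_comm, mul_smul_comm, star_smul, star_trivial, star_mul, smul_mul_assoc,
      smul_mul_smul_comm, hqq]
    congr 1
    simp only [mul_assoc]
  have hvs : ‖star v‖ ≤ 1 := by rw [norm_star]; exact hv1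
  have hdiagf : ∀ j, ‖star (U j * (q • v)) * h * (U j * (q • v)) - h‖ < ε := by
    intro j
    have h1 : star (U j * (q • v)) * h * (U j * (q • v)) - h =
        (3 : ℝ) • (star v * (star (U j) * h * U j - (if j = j then k else 0)) * v) +
          (star v * ((3 : ℝ) • k) * v - h) := by
      rw [hconj, if_pos rfl, mul_sub, sub_mul, smul_sub, mul_smul_comm, smul_mul_assoc]
      abel
    rw [h1]
    calc _ ≤ 3 * (1 * (26 * η) * 1) + ε / 10 := by
          refine (norm_add_le _ _).trans (add_le_add ?_ hv)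
          rw [norm_smul, Real.norm_of_nonneg (by norm_num)]
          exact mul_le_mul_of_nonneg_left (norm3 hvs (hmain j j) hv1) (by norm_num)
      _ < ε := by rw [hηdef]; linarith
  refine ⟨U 0 * (q • v), A.right_mem (hUA 0) _, U 1 * (q • v), A.right_mem (hUA 1) _,
    hdiagf 0, hdiagf 1, ?_⟩
  rw [hconj]
  have h1 := hmain 0 1
  rw [if_neg (by decide), sub_zero] at h1
  calc _ ≤ 3 * (1 * (26 * η) * 1) := by
        rw [norm_smul, Real.norm_of_nonneg (by norm_num)]
        exact mul_le_mul_of_nonneg_left (norm3 hvs h1 hv1) (by norm_num)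
    _ < ε := by rw [hηdef]; linarith

end Vale.Agent.P133.H832
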