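import Vale.Agent.P133.H832.PairU
import Vale.Agent.P133.H681.Fam2

/-!
P133 (helper832): finite families of arbitrary elements.
-/

open scoped ComplexOrder

namespace Vale.Agent.P133.H832

open Vale.Agent.P133

universe u

variable {M : Type u} [CStarAlgebra M] [PartialOrder M] [StarOrderedRing M]

/-- one side of the construction -/
theorem side' (A : CIdeal M) {a : M} (ha : a ∈ A) (ha1 : ‖a‖ ≤ 1) {δ : ℝ} (hδ : 0 < δ)
    {s₁ : M} {η : ℝ}
    (h2 : ‖star (cfc (K.ramp δ (2 * δ)) (a * star a) * s₁) *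
        (cfc (K.ramp δ (2 * δ)) (a * star a) * s₁) -
        cfc (K.ramp δ (2 * δ)) (a * star a) * cfc (K.ramp δ (2 * δ)) (a * star a)‖ ≤ η) :
    ∃ s ∈ A, a * s = cfc (K.ramp δ (2 * δ)) (a * star a) * s₁ * a ∧
      ‖star (a * s) * (a * s) - star a * a‖ ≤ 2 * δ + η := by
  have hP : 0 ≤ a * star a := mul_star_self_nonneg a
  set x : M := cfc (K.ramp δ (2 * δ)) (a * star a) with hx
  set g : M := cfc (K.rampv δ (2 * δ)) (a * star a) with hg
  have hc3 : Continuous (fun s => K.ramp δ (2 * δ) s * K.ramp δ (2 * δ) s) :=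
    (K.ramp_cont _ _).mul (K.ramp_cont _ _)
  have hc5 : Continuous (fun s => 1 - K.ramp δ (2 * δ) s * K.ramp δ (2 * δ) s) :=
    continuous_const.sub hc3
  have hxg : a * star a * g = x := by
    rw [hg, hx, cfc_factor (K.rampv_cont hδ) hP (fun s _ => K.ramp_factor hδ (by linarith))]
  have has : a * (star a * g * s₁ * a) = x * s₁ * a := by
    rw [← hxg]; noncomm_ring
  refine ⟨star a * g * s₁ * a, A.left_mem _ ha, has, ?_⟩
  rw [has]
  have e1 : star (x * s₁ * a) * (x * s₁ * a) - star a * a =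
      star a * (star (x * s₁) * (x * s₁) - x * x) * a -
        star a * (1 - x * x) * a := by
    simp only [star_mul]; noncomm_ring
  have e2 : (1 : M) - x * x =
      cfc (fun u => 1 - K.ramp δ (2 * δ) u * K.ramp δ (2 * δ) u) (a * star a) := by
    rw [hx, cfc_mul' (K.ramp_cont _ _) (K.ramp_cont _ _),
      cfc_sub (fun _ => (1 : ℝ)) (fun u => K.ramp δ (2 * δ) u * K.ramp δ (2 * δ) u)
        (a * star a) continuousOn_const hc3.continuousOn,
      cfc_const_one ℝ (a * star a)]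
  have h3 : ‖star a * (1 - x * x) * a‖ ≤ 2 * δ := by
    have h4 := norm_conj_cfc_le (g := fun u => 1 - K.ramp δ (2 * δ) u * K.ramp δ (2 * δ) u)
      hc5 (fun s _ => by nlinarith only [K.ramp_nonneg δ (2 * δ) s, K.ramp_le_one δ (2 * δ) s])
      (δ := 2 * δ) (by positivity) (fun s hs => by
        rcases le_total s (2 * δ) with h | h
        · nlinarith only [K.ramp_nonneg δ (2 * δ) s, K.ramp_le_one δ (2 * δ) s, h, hs,
            mul_nonneg hs (mul_self_nonneg (K.ramp δ (2 * δ) s))]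
        · rw [K.ramp_eq_one (by linarith) h]; simp only [mul_one, sub_self, mul_zero]; positivity)
      (star a)
    rw [star_star, ← e2] at h4
    exact h4
  rw [e1]
  calc ‖star a * (star (x * s₁) * (x * s₁) - x * x) * a - star a * (1 - x * x) * a‖
      ≤ ‖star a * (star (x * s₁) * (x * s₁) - x * x) * a‖ + ‖star a * (1 - x * x) * a‖ :=
        norm_sub_le _ _
    _ ≤ η + 2 * δ := by
        refine add_le_add ?_ h3
        have h5 : ‖star a‖ ≤ 1 := by rw [norm_star]; exact ha1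
        calc ‖star a * (star (x * s₁) * (x * s₁) - x * x) * a‖
            ≤ ‖star a‖ * ‖star (x * s₁) * (x * s₁) - x * x‖ * ‖a‖ :=
              (norm_mul_le _ _).trans (by gcongr; exact norm_mul_le _ _)
          _ ≤ 1 * η * 1 := by
              have hη0 : 0 ≤ η := (norm_nonneg _).trans h2
              gcongr
          _ = η := by ring
    _ = 2 * δ + η := by ring

/-- Finite families of arbitrary elements: with independent accuracies for the diagonal and for
the off-diagonal entries. -/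
theorem fam_gen (A : CIdeal M) (hA : PIrel A) {ι : Type} [Fintype ι] [DecidableEq ι] (a : ι → M)
    (ha : ∀ i, a i ∈ A) (ha1 : ∀ i, ‖a i‖ ≤ 1) {δ : ℝ} (hδ : 0 < δ) {η : ℝ} (hη : 0 < η) :
    ∃ s : ι → M, (∀ i, s i ∈ A) ∧
      (∀ i, ‖star (a i * s i) * (a i * s i) - star (a i) * a i‖ ≤ δ) ∧
      ∀ i j, i ≠ j → ‖star (a i * s i) * (a j * s j)‖ ≤ η := by
  set δ₀ : ℝ := min (1 / 2) (δ / 5) with hδ₀
  have h0 : 0 < δ₀ := lt_min (by norm_num) (by positivity)
  have h1 : δ₀ ≤ 1 / 2 := min_le_left _ _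
  have h2 : δ₀ ≤ δ / 5 := min_le_right _ _
  set η₀ : ℝ := min δ₀ η with hη₀
  have g0 : 0 < η₀ := lt_min h0 hη
  have g1 : η₀ ≤ δ₀ := min_le_left _ _
  have g2 : η₀ ≤ η := min_le_right _ _
  have hpx : ∀ i, PC A (cfc (K.ramp δ₀ (2 * δ₀)) (a i * star (a i))) := fun i =>
    K.PC.ramp A (mul_star_self_nonneg _) (A.right_mem (ha i) _) h0.le (by linarith)
  obtain ⟨s₁, -, -, -, hcross, hdiag⟩ := H681.fam_elts A hA
    (fun i => cfc (K.ramp δ₀ (2 * δ₀)) (a i * star (a i))) hpx h0 (by linarith) g0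
  have hS : ∀ i, ∃ s ∈ A, a i * s = cfc (K.ramp δ₀ (2 * δ₀)) (a i * star (a i)) * s₁ i * a i ∧
      ‖star (a i * s) * (a i * s) - star (a i) * a i‖ ≤ 2 * δ₀ + (2 * δ₀ + η₀) := fun i =>
    side' A (ha i) (ha1 i) h0 (by have := hdiag i; rwa [sq] at this)
  choose s hs has hsd using hS
  refine ⟨s, hs, fun i => (hsd i).trans (by linarith), fun i j hij => ?_⟩
  rw [has, has]
  have e1 : star (cfc (K.ramp δ₀ (2 * δ₀)) (a i * star (a i)) * s₁ i * a i) *
      (cfc (K.ramp δ₀ (2 * δ₀)) (a j * star (a j)) * s₁ j * a j) =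
      star (a i) * (star (cfc (K.ramp δ₀ (2 * δ₀)) (a i * star (a i)) * s₁ i) *
      (cfc (K.ramp δ₀ (2 * δ₀)) (a j * star (a j)) * s₁ j)) * a j := by
    rw [star_mul]; noncomm_ring
  rw [e1]
  have h5 : ‖star (a i)‖ ≤ 1 := by rw [norm_star]; exact ha1 i
  calc _ ≤ 1 * η₀ * 1 := by
        refine norm_mul_le_of_le (norm_mul_le_of_le h5 (hcross i j hij)) (ha1 j)
    _ ≤ η := by linarith

end Vale.Agent.P133.H832
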