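import Mathlib.Analysis.CStarAlgebra.ContinuousFunctionalCalculus.Order
import Mathlib.Analysis.SpecialFunctions.ContinuousFunctionalCalculus.Rpow.Basic
import Vale.Agent.P133.Bdl.B1
import Vale.Agent.P133.H832.SimpleDef

/-!
P133 (helper832): in a simple C*-algebra every positive element is a sum of conjugates of a
nonzero positive element.
-/

open scoped ComplexOrder

namespace Vale.Agent.P133.H832

open Vale.Agent.P133

universe u

variable {A : Type u} [NonUnitalCStarAlgebra A] [PartialOrder A] [StarOrderedRing A]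

theorem order_factor {x g : A} (hx : 0 ≤ x) (hxg : x ≤ g) {δ : ℝ} (hδ : 0 < δ) :
    ∃ d : A, ‖star d * g * d - x‖ ≤ δ := by
  have hg : 0 ≤ g := hx.trans hxg
  set G : Unitization ℂ A := (g : Unitization ℂ A) with hG
  have hG0 : 0 ≤ G := by rw [hG, Unitization.inr_nonneg_iff]; exact hg
  set y : A := CFC.sqrt x with hy
  have hy0 : 0 ≤ y := CFC.sqrt_nonneg x
  have hys : star y = y := (IsSelfAdjoint.of_nonneg hy0).star_eq
  have hyy : y * y = x := CFC.sqrt_mul_sqrt_self x hx
  set Y : Unitization ℂ A := (y : Unitization ℂ A) with hY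
  have hYs : star Y = Y := by rw [hY, ← Unitization.inr_star, hys]
  have hYY : Y * Y = (x : Unitization ℂ A) := by rw [hY, ← Unitization.inr_mul, hyy]
  have hXG : (x : Unitization ℂ A) ≤ G := by
    rw [← sub_nonneg, hG, ← Unitization.inr_sub, Unitization.inr_nonneg_iff]
    exact sub_nonneg.2 hxg
  let f : ℝ → ℝ := fun t => (√(max t 0 + δ))⁻¹
  have hpos : ∀ t : ℝ, 0 < max t 0 + δ := fun t => by
    have := le_max_right t 0; linarith
  have hf : Continuous f :=
    Continuous.inv₀ (by fun_prop) fun t => (Real.sqrt_pos.2 (hpos t)).ne'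
  have hff : ∀ t, f t * f t = (max t 0 + δ)⁻¹ := fun t => by
    simp only [f]
    rw [← mul_inv, Real.mul_self_sqrt (hpos t).le]
  set u : Unitization ℂ A := cfc f G with hu
  have hus : star u = u := star_cfc f G
  have h1 : (1 : Unitization ℂ A) - u * G * u = δ • (u * u) := by
    have e1 : u * u = cfc (fun t => f t * f t) G := by rw [hu, ← cfc_mul' hf hf]
    have e2 : u * G * u = cfc (fun t => t * (f t * f t)) G := by
      rw [hu, ← cfc_mul' (g := fun t => t) (h := fun t => f t * f t) continuous_id (hf.mul hf),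
        ← cfc_mul' hf hf, cfc_id' ℝ G, ← mul_assoc]
      congr 1
      have := cfc_mul' (g := f) (h := fun t => t) hf continuous_id G
      have h2 := cfc_mul' (g := fun t => t) (h := f) continuous_id hf G
      rw [cfc_id' ℝ G] at this h2
      rw [this, h2]
      exact cfc_congr fun t _ => mul_comm _ _
    have e3 : (1 : Unitization ℂ A) = cfc (fun _ : ℝ => (1 : ℝ)) G := by
      rw [cfc_const_one ℝ G]
    rw [e2, e1, e3, ← cfc_sub (fun _ : ℝ => (1 : ℝ)) (fun t => t * (f t * f t)) G
      continuousOn_const (continuous_id.mul (hf.mul hf)).continuousOn,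
      ← cfc_smul δ (fun t => f t * f t) G (hf.mul hf).continuousOn]
    refine cfc_congr' hG0 fun t ht => ?_
    simp only [hff, smul_eq_mul]
    rw [max_eq_left ht]
    have : t + δ ≠ 0 := by linarith
    field_simp
    ring
  have h2 : ‖u * Y‖ ≤ 1 := by
    have e1 : ‖u * Y‖ ^ 2 = ‖u * (x : Unitization ℂ A) * u‖ := by
      rw [sq, ← CStarRing.norm_self_mul_star, star_mul, hus, hYs, ← hYY]
      simp only [mul_assoc]
    have e2 : u * (x : Unitization ℂ A) * u ≤ 1 := by
      have e3 : u * (x : Unitization ℂ A) * u ≤ u * G * u := by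
        have := star_left_conjugate_le_conjugate hXG u
        rwa [hus] at this
      refine e3.trans ?_
      rw [← sub_nonneg, h1]
      have : 0 ≤ u * u := by
        have := star_mul_self_nonneg u
        rwa [hus] at this
      exact smul_nonneg hδ.le this
    have e4 : 0 ≤ u * (x : Unitization ℂ A) * u := by
      have hx' : 0 ≤ (x : Unitization ℂ A) := by rw [Unitization.inr_nonneg_iff]; exact hx
      have := star_left_conjugate_nonneg hx' u
      rwa [hus] at this
    have e5 : ‖u * Y‖ ^ 2 ≤ 1 := by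
      rw [e1]; exact (CStarAlgebra.norm_le_one_iff_of_nonneg _ e4).2 e2
    nlinarith [norm_nonneg (u * Y)]
  obtain ⟨d, hd⟩ : ∃ d : A, (d : Unitization ℂ A) = u * Y := by
    obtain ⟨r, hr⟩ := final_mem_iff.1 ((final_ideal A).left_mem u (final_mem_iff.2 ⟨y, rfl⟩))
    exact ⟨r, hr.symm⟩
  refine ⟨d, ?_⟩
  have h3 : ((star d * g * d - x : A) : Unitization ℂ A) = -(δ • (star (u * Y) * (u * Y))) := by
    rw [Unitization.inr_sub, Unitization.inr_mul, Unitization.inr_mul, Unitization.inr_star, hd,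
      ← hYY, star_mul, hus, hYs]
    have : Y * (δ • (u * u)) * Y = δ • (Y * u * (u * Y)) := by
      rw [mul_smul_comm, smul_mul_assoc]
      simp only [mul_assoc]
    rw [← this, ← h1]
    simp only [mul_sub, sub_mul, mul_one, mul_assoc, neg_sub]
    rfl
  rw [← final_norm, h3, norm_neg, norm_smul, CStarRing.norm_star_mul_self,
    Real.norm_of_nonneg hδ.le]
  exact mul_le_of_le_one_right hδ.le (mul_le_one₀ h2 (norm_nonneg _) h2)

theorem sum_sq_le {m : ℕ} (w : Fin m → A) :
    star (∑ l, w l) * (∑ l, w l) ≤ (m : ℝ) • ∑ l, star (w l) * w l := by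
  have h1 : 0 ≤ ∑ l, ∑ l', star (w l - w l') * (w l - w l') :=
    Finset.sum_nonneg fun l _ => Finset.sum_nonneg fun l' _ => star_mul_self_nonneg _
  have h2 : ∑ l, ∑ l', star (w l - w l') * (w l - w l') =
      (2 : ℝ) • ((m : ℝ) • (∑ l, star (w l) * w l) - star (∑ l, w l) * (∑ l, w l)) := by
    have e1 : star (∑ l, w l) * (∑ l, w l) = ∑ l, ∑ l', star (w l) * w l' := by
      rw [star_sum, Finset.sum_mul_sum]
    have e2 : ∑ l, ∑ l', star (w l - w l') * (w l - w l') =
        (∑ l, ∑ _l' : Fin m, star (w l) * w l) - (∑ l, ∑ l', star (w l) * w l') -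
          (∑ l, ∑ l', star (w l') * w l) + ∑ _l : Fin m, ∑ l', star (w l') * w l' := by
      simp only [← Finset.sum_sub_distrib, ← Finset.sum_add_distrib]
      refine Finset.sum_congr rfl fun l _ => Finset.sum_congr rfl fun l' _ => ?_
      rw [star_sub, sub_mul, mul_sub, mul_sub]
      abel
    have e3 : (∑ l, ∑ l', star (w l') * w l) = ∑ l, ∑ l', star (w l) * w l' := Finset.sum_comm
    have e4 : (∑ l, ∑ _l' : Fin m, star (w l) * w l) = (m : ℝ) • ∑ l, star (w l) * w l := by
      simp only [Finset.sum_const, Finset.card_univ, Fintype.card_fin, Finset.smul_sum,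
        Nat.cast_smul_eq_nsmul]
    have e5 : (∑ _l : Fin m, ∑ l', star (w l') * w l') = (m : ℝ) • ∑ l, star (w l) * w l := by
      simp only [Finset.sum_const, Finset.card_univ, Fintype.card_fin,
        Nat.cast_smul_eq_nsmul]
    rw [e2, e3, e4, e5, e1, two_smul]
    abel
  rw [h2] at h1
  have h3 := smul_nonneg (show (0 : ℝ) ≤ 1 / 2 by norm_num) h1
  rw [smul_smul, show (1 / 2 : ℝ) * 2 = 1 by norm_num, one_smul] at h3
  exact sub_nonneg.1 h3

theorem mul_self_le_norm_smul {a : A} (ha : 0 ≤ a) : a * a ≤ ‖a‖ • a := by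
  have hy : 0 ≤ CFC.sqrt a := CFC.sqrt_nonneg a
  have hys : star (CFC.sqrt a) = CFC.sqrt a := (IsSelfAdjoint.of_nonneg hy).star_eq
  have hyy : CFC.sqrt a * CFC.sqrt a = a := CFC.sqrt_mul_sqrt_self a ha
  have h := CStarAlgebra.star_left_conjugate_le_norm_smul (a := CFC.sqrt a) (b := a)
    (IsSelfAdjoint.of_nonneg ha)
  rw [hys, hyy] at h
  refine le_trans (le_of_eq ?_) h
  have h2 : CFC.sqrt a * a * CFC.sqrt a =
      CFC.sqrt a * (CFC.sqrt a * CFC.sqrt a) * CFC.sqrt a := by rw [hyy]
  rw [h2, mul_assoc, mul_assoc, hyy, ← mul_assoc, hyy]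

theorem term_le {a : A} (ha : 0 ≤ a) (r s : A) :
    star (r * a * s) * (r * a * s) ≤ (‖r‖ ^ 2 * ‖a‖) • (star s * a * s) := by
  have has : star a = a := (IsSelfAdjoint.of_nonneg ha).star_eq
  have h1 : a * (star r * r) * a ≤ ‖r‖ ^ 2 • (a * a) := by
    have := CStarAlgebra.star_left_conjugate_le_norm_smul (a := a) (b := star r * r)
      (IsSelfAdjoint.star_mul_self r)
    rwa [has, CStarRing.norm_star_mul_self, ← sq] at this
  have h2 : a * (star r * r) * a ≤ (‖r‖ ^ 2 * ‖a‖) • a := by
    refine h1.trans ?_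
    rw [mul_smul]
    exact smul_le_smul_of_nonneg_left (mul_self_le_norm_smul ha) (by positivity)
  have h3 := star_left_conjugate_le_conjugate h2 s
  have e1 : star s * (a * (star r * r) * a) * s = star (r * a * s) * (r * a * s) := by
    rw [star_mul, star_mul, has]; simp only [mul_assoc]
  rw [e1, mul_smul_comm, smul_mul_assoc] at h3
  exact h3

theorem full_pos (hA : IsSimpleC A) {a h : A} (ha : 0 ≤ a) (hane : a ≠ 0) (h0 : 0 ≤ h) {ε : ℝ}
    (hε : 0 < ε) : ∃ (m : ℕ) (t : Fin m → A), ‖∑ k, star (t k) * a * t k - h‖ < ε := by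
  set y : A := CFC.sqrt h with hy
  have hy0 : 0 ≤ y := CFC.sqrt_nonneg h
  have hys : star y = y := (IsSelfAdjoint.of_nonneg hy0).star_eq
  have hyy : y * y = h := CFC.sqrt_mul_sqrt_self h h0
  set η : ℝ := min 1 (ε / (4 * (‖y‖ + 1))) with hη
  have hyn : 0 ≤ ‖y‖ := norm_nonneg y
  have hη0 : 0 < η := by rw [hη]; positivity
  have hη1 : η ≤ 1 := min_le_left _ _
  have hη2 : η * (4 * (‖y‖ + 1)) ≤ ε := by
    rw [← le_div_iff₀ (by positivity)]; exact min_le_right _ _
  obtain ⟨m, r, s, hrs⟩ := hA a y hane η hη0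
  set w : A := ∑ l, r l * a * s l with hw
  have h1 : ‖star w * w - h‖ < ε / 2 := by
    have e1 : star w * w - h = star (w - y) * w + y * (w - y) := by
      rw [← hyy, star_sub, hys, sub_mul, mul_sub]; abel
    have e2 : ‖w‖ ≤ ‖y‖ + 1 := by
      calc ‖w‖ = ‖(w - y) + y‖ := by rw [sub_add_cancel]
        _ ≤ ‖w - y‖ + ‖y‖ := norm_add_le _ _
        _ ≤ ‖y‖ + 1 := by linarith
    calc ‖star w * w - h‖ ≤ ‖star (w - y) * w‖ + ‖y * (w - y)‖ := by
          rw [e1]; exact norm_add_le _ _
      _ ≤ ‖w - y‖ * ‖w‖ + ‖y‖ * ‖w - y‖ := by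
          gcongr
          · exact (norm_mul_le _ _).trans (by rw [norm_star])
          · exact norm_mul_le _ _
      _ ≤ ‖w - y‖ * (‖y‖ + 1) + (‖y‖ + 1) * ‖w - y‖ := by
          gcongr
          linarith
      _ < ε / 2 := by
          have : ‖w - y‖ * (‖y‖ + 1) < η * (‖y‖ + 1) := by gcongr
          nlinarith
  set c : Fin m → ℝ := fun l => √((m : ℝ) * (‖r l‖ ^ 2 * ‖a‖)) with hc
  have hcc : ∀ l, c l * c l = (m : ℝ) * (‖r l‖ ^ 2 * ‖a‖) := fun l =>
    Real.mul_self_sqrt (by positivity)
  set g : A := ∑ l, (c l * c l) • (star (s l) * a * s l) with hg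
  have h2 : star w * w ≤ g := by
    refine (sum_sq_le _).trans ?_
    rw [hg, Finset.smul_sum]
    refine Finset.sum_le_sum fun l _ => ?_
    rw [hcc, mul_smul]
    exact smul_le_smul_of_nonneg_left (term_le ha _ _) (by positivity)
  obtain ⟨d, hd⟩ := order_factor (star_mul_self_nonneg w) h2 (half_pos hε)
  refine ⟨m, fun l => c l • (s l * d), ?_⟩
  have h3 : ∑ l, star (c l • (s l * d)) * a * (c l • (s l * d)) = star d * g * d := by
    rw [hg, Finset.mul_sum, Finset.sum_mul]
    refine Finset.sum_congr rfl fun l _ => ?_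
    rw [star_smul, star_trivial, star_mul, smul_mul_assoc, smul_mul_smul_comm, mul_smul_comm,
      smul_mul_assoc]
    simp only [mul_assoc]
  rw [h3]
  calc ‖star d * g * d - h‖ = ‖(star d * g * d - star w * w) + (star w * w - h)‖ := by
        rw [sub_add_sub_cancel]
    _ ≤ ‖star d * g * d - star w * w‖ + ‖star w * w - h‖ := norm_add_le _ _
    _ < ε := by linarith

end Vale.Agent.P133.H832
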