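import Vale.Agent.P133.H832.Full

/-!
P133 (helper832): order factorization with a contraction.
-/

open scoped ComplexOrder

namespace Vale.Agent.P133.H832

open Vale.Agent.P133

universe u

variable {A : Type u} [NonUnitalCStarAlgebra A] [PartialOrder A] [StarOrderedRing A]

/-- `order_factor` with a contraction -/
theorem order_factor_c {x g : A} (hx : 0 ≤ x) (hxg : x ≤ g) {δ : ℝ} (hδ : 0 < δ) :
    ∃ d : A, ‖d‖ ≤ 1 ∧ ‖star d * g * d - x‖ ≤ δ := by
  have hg : 0 ≤ g := hx.trans hxg
  set G : Unitization ℂ A := (g : Unitization ℂ A) with hG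
  have hG0 : 0 ≤ G := by rw [hG, Unitization.inr_nonneg_iff]; exact hg
  set y : A := CFC.sqrt x with hy
  have hy0 : 0 ≤ y := CFC.sqrt_nonneg x
  have hys : star y = y := (IsSelfAdjoint.of_nonneg hy0).star_eq
  have hyy : y * y = x := CFC.sqrt_mul_sqrt_self x hx
  set Y : Unitization ℂ A := (y : Unitization ℂ A) with hY
  have hYs : star Y = Y := by rw [hY, ← Unitization.inr_star, hys]
  have hYY : Y * Y = (x : Unitization ℂ A) := by rw [hY, ← Unitization.inr_mul, hyy]
  have hXG : (x : Unitization ℂ A) ≤ G := by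
    rw [← sub_nonneg, hG, ← Unitization.inr_sub, Unitization.inr_nonneg_iff]
    exact sub_nonneg.2 hxg
  let f : ℝ → ℝ := fun t => (√(max t 0 + δ))⁻¹
  have hpos : ∀ t : ℝ, 0 < max t 0 + δ := fun t => by
    have := le_max_right t 0; linarith
  have hf : Continuous f :=
    Continuous.inv₀ (by fun_prop) fun t => (Real.sqrt_pos.2 (hpos t)).ne'
  have hff : ∀ t, f t * f t = (max t 0 + δ)⁻¹ := fun t => by
    simp only [f]
    rw [← mul_inv, Real.mul_self_sqrt (hpos t).le]
  set u : Unitization ℂ A := cfc f G with hu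
  have hus : star u = u := star_cfc f G
  have h1 : (1 : Unitization ℂ A) - u * G * u = δ • (u * u) := by
    have e1 : u * u = cfc (fun t => f t * f t) G := by rw [hu, ← cfc_mul' hf hf]
    have e2 : u * G * u = cfc (fun t => t * (f t * f t)) G := by
      rw [hu, ← cfc_mul' (g := fun t => t) (h := fun t => f t * f t) continuous_id (hf.mul hf),
        ← cfc_mul' hf hf, cfc_id' ℝ G, ← mul_assoc]
      congr 1
      have := cfc_mul' (g := f) (h := fun t => t) hf continuous_id G
      have h2 := cfc_mul' (g := fun t => t) (h := f) continuous_id hf G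
      rw [cfc_id' ℝ G] at this h2
      rw [this, h2]
      exact cfc_congr fun t _ => mul_comm _ _
    have e3 : (1 : Unitization ℂ A) = cfc (fun _ : ℝ => (1 : ℝ)) G := by
      rw [cfc_const_one ℝ G]
    rw [e2, e1, e3, ← cfc_sub (fun _ : ℝ => (1 : ℝ)) (fun t => t * (f t * f t)) G
      continuousOn_const (continuous_id.mul (hf.mul hf)).continuousOn,
      ← cfc_smul δ (fun t => f t * f t) G (hf.mul hf).continuousOn]
    refine cfc_congr' hG0 fun t ht => ?_
    simp only [hff, smul_eq_mul]
    rw [max_eq_left ht]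
    have : t + δ ≠ 0 := by linarith
    field_simp
    ring
  have h2 : ‖u * Y‖ ≤ 1 := by
    have e1 : ‖u * Y‖ ^ 2 = ‖u * (x : Unitization ℂ A) * u‖ := by
      rw [sq, ← CStarRing.norm_self_mul_star, star_mul, hus, hYs, ← hYY]
      simp only [mul_assoc]
    have e2 : u * (x : Unitization ℂ A) * u ≤ 1 := by
      have e3 : u * (x : Unitization ℂ A) * u ≤ u * G * u := by
        have := star_left_conjugate_le_conjugate hXG u
        rwa [hus] at this
      refine e3.trans ?_
      rw [← sub_nonneg, h1]
      have : 0 ≤ u * u := by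
        have := star_mul_self_nonneg u
        rwa [hus] at this
      exact smul_nonneg hδ.le this
    have e4 : 0 ≤ u * (x : Unitization ℂ A) * u := by
      have hx' : 0 ≤ (x : Unitization ℂ A) := by rw [Unitization.inr_nonneg_iff]; exact hx
      have := star_left_conjugate_nonneg hx' u
      rwa [hus] at this
    have e5 : ‖u * Y‖ ^ 2 ≤ 1 := by
      rw [e1]; exact (CStarAlgebra.norm_le_one_iff_of_nonneg _ e4).2 e2
    nlinarith [norm_nonneg (u * Y)]
  obtain ⟨d, hd⟩ : ∃ d : A, (d : Unitization ℂ A) = u * Y := by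
    obtain ⟨r, hr⟩ := final_mem_iff.1 ((final_ideal A).left_mem u (final_mem_iff.2 ⟨y, rfl⟩))
    exact ⟨r, hr.symm⟩
  refine ⟨d, by rw [← final_norm, hd]; exact h2, ?_⟩
  have h3 : ((star d * g * d - x : A) : Unitization ℂ A) = -(δ • (star (u * Y) * (u * Y))) := by
    rw [Unitization.inr_sub, Unitization.inr_mul, Unitization.inr_mul, Unitization.inr_star, hd,
      ← hYY, star_mul, hus, hYs]
    have : Y * (δ • (u * u)) * Y = δ • (Y * u * (u * Y)) := by
      rw [mul_smul_comm, smul_mul_assoc]
      simp only [mul_assoc]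
    rw [← this, ← h1]
    simp only [mul_sub, sub_mul, mul_one, mul_assoc, neg_sub]
    rfl
  rw [← final_norm, h3, norm_neg, norm_smul, CStarRing.norm_star_mul_self,
    Real.norm_of_nonneg hδ.le]
  exact mul_le_of_le_one_right hδ.le (mul_le_one₀ h2 (norm_nonneg _) h2)

end Vale.Agent.P133.H832
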