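import Vale.Agent.P133.H832.Tame2
import Vale.Agent.P133.H832.OrderC

/-!
P133 (helper832): gluing along a closed subset of the primitive ideal space, the algebraic part.
-/

open scoped ComplexOrder

namespace Vale.Agent.P133.H832

open Vale.Agent.P133

universe u

section

variable {M : Type u} [CStarAlgebra M] [PartialOrder M] [StarOrderedRing M]

/-- first stage: `L = t g + t' (1 - g)` -/
theorem glue_stage1 {n : ℕ} (I₁ I₂ : CIdeal M) (h0 : ∀ z, z ∈ I₁ → z ∈ I₂ → z = 0)
    {a b x : M} (ha : star a = a) (hbx : b - x ∈ I₂) (t t' : Fin n → M)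
    (z1 z2 : Fin n → Fin n → M) (hz1 : ∀ i j, z1 i j ∈ I₁) (hz2 : ∀ i j, z2 i j ∈ I₂) {η : ℝ}
    (hη : 0 < η) (h1 : ∀ i j, ‖star (t i) * a * t j - (if i = j then x else 0)‖ ≤ η)
    (h2 : ∀ i j, ‖star (t i) * a * t' j‖ ≤ η)
    (h3 : ∀ i j, ‖star (t' i) * a * t' j - (if i = j then b else 0) - (z1 i j + z2 i j)‖ ≤ η) :
    ∃ g ∈ I₁, star g = g ∧ ‖g‖ ≤ 1 ∧ ∃ ζ : Fin n → Fin n → M, (∀ i j, ζ i j ∈ I₂) ∧ ∀ i j,
      ‖star (t i * g + t' i * (1 - g)) * a * (t j * g + t' j * (1 - g)) -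
        (if i = j then g * b * g + (1 - g) * b * (1 - g) else 0) - ζ i j‖ ≤ 11 * η := by
  obtain ⟨g, hg, hgz⟩ := exists_approx_unit (ι := Fin n × Fin n) I₁
    (c := fun k => z1 k.1 k.2) (fun k => hz1 k.1 k.2) hη
  have hgs : star g = g := PC.star_eq hg
  have hgn : ‖g‖ ≤ 1 := PC.norm_le hg
  have h1s : star (1 - g) = 1 - g := by rw [star_sub, star_one, hgs]
  have h1n : ‖1 - g‖ ≤ 2 := by
    rcases subsingleton_or_nontrivial M with h | h
    · rw [Subsingleton.elim (1 - g) 0, norm_zero]; norm_num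
    · exact (norm_sub_le _ _).trans (by rw [CStarRing.norm_one]; linarith)
  refine ⟨g, hg.mem, hgs, hgn, fun i j => (1 - g) * z2 i j * (1 - g),
    fun i j => I₂.right_mem (I₂.left_mem _ (hz2 i j)) _, fun i j => ?_⟩
  have hgb : g * (b - x) = 0 := h0 _ (I₁.right_mem hg.mem _) (I₂.left_mem _ hbx)
  have key : star (t i * g + t' i * (1 - g)) * a * (t j * g + t' j * (1 - g)) -
      (if i = j then g * b * g + (1 - g) * b * (1 - g) else 0) - (1 - g) * z2 i j * (1 - g) =
      g * (star (t i) * a * t j - (if i = j then x else 0)) * g +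
      g * (star (t i) * a * t' j) * (1 - g) + (1 - g) * star (star (t j) * a * t' i) * g +
      (1 - g) * (star (t' i) * a * t' j - (if i = j then b else 0) - (z1 i j + z2 i j)) *
        (1 - g) + (1 - g) * (z1 i j * (1 - g)) := by
    have e1 : star (t i * g + t' i * (1 - g)) = g * star (t i) + (1 - g) * star (t' i) := by
      rw [star_add, star_mul, star_mul, hgs, h1s]
    have e2 : star (star (t j) * a * t' i) = star (t' i) * a * t j := by
      rw [star_mul, star_mul, star_star, ha]; simp only [mul_assoc]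
    have e3 : g * b * g = g * x * g := by
      rw [mul_sub, sub_eq_zero] at hgb
      rw [hgb]
    rw [e1, e2]
    split_ifs with hij
    · rw [e3]; noncomm_ring
    · noncomm_ring
  rw [key]
  have hm : ∀ (u v w : M) {p q r : ℝ}, ‖u‖ ≤ p → ‖v‖ ≤ q → ‖w‖ ≤ r → 0 ≤ p → 0 ≤ q →
      ‖u * v * w‖ ≤ p * q * r := by
    intro u v w p q r hu hv hw hp hq
    calc ‖u * v * w‖ ≤ ‖u‖ * ‖v‖ * ‖w‖ := (norm_mul_le _ _).trans (by gcongr; exact norm_mul_le _ _)
      _ ≤ p * q * r := by gcongr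
  have b1 := hm g _ g hgn (h1 i j) hgn zero_le_one hη.le
  have b2 := hm g _ (1 - g) hgn (h2 i j) h1n zero_le_one hη.le
  have b3 := hm (1 - g) (star (star (t j) * a * t' i)) g h1n (by rw [norm_star]; exact h2 j i) hgn
    (by norm_num) hη.le
  have b4 := hm (1 - g) _ (1 - g) h1n (h3 i j) h1n (by norm_num) hη.le
  have b5 : ‖(1 - g) * (z1 i j * (1 - g))‖ ≤ 2 * η :=
    (norm_mul_le _ _).trans (mul_le_mul h1n (hgz (i, j)).1.le (norm_nonneg _) (by norm_num))
  calc _ ≤ _ := norm_add_le _ _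
    _ ≤ _ := add_le_add_left (norm_add_le _ _) _
    _ ≤ _ := add_le_add_left (add_le_add_left (norm_add_le _ _) _) _
    _ ≤ _ := add_le_add_left (add_le_add_left (add_le_add_left (norm_add_le _ _) _) _) _
    _ ≤ 11 * η := by linarith

/-- second stage: `T = L u + R v`, `u = 1 + h₁ - h₂`, `v = 1 - h₁ + h₂` -/
theorem glue_stage2 {n : ℕ} (I₁ I₂ : CIdeal M) (h0 : ∀ z, z ∈ I₁ → z ∈ I₂ → z = 0)
    {a QL QR : M} (ha : star a = a) (L R : Fin n → M)
    (ζL ζR ζ1 ζ2 : Fin n → Fin n → M) (hζL : ∀ i j, ζL i j ∈ I₂) (hζR : ∀ i j, ζR i j ∈ I₁)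
    (hζ1 : ∀ i j, ζ1 i j ∈ I₁) (hζ2 : ∀ i j, ζ2 i j ∈ I₂) {η : ℝ}
    (hη : 0 < η)
    (h1 : ∀ i j, ‖star (L i) * a * L j - (if i = j then QL else 0) - ζL i j‖ ≤ η)
    (h2 : ∀ i j, ‖star (R i) * a * R j - (if i = j then QR else 0) - ζR i j‖ ≤ η)
    (h3 : ∀ i j, ‖star (L i) * a * R j - (ζ1 i j + ζ2 i j)‖ ≤ η) :
    ∃ u v : M, star u = u ∧ star v = v ∧ u + v = 1 + 1 ∧ ∀ i j,
      ‖star (L i * u + R i * v) * a * (L j * u + R j * v) -
        (if i = j then u * QL * u + v * QR * v else 0)‖ ≤ 54 * η := by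
  obtain ⟨g, hg, hgz⟩ := exists_approx_unit (ι := (Fin n × Fin n) ⊕ (Fin n × Fin n)) I₁
    (c := Sum.elim (fun k => ζ1 k.1 k.2) fun k => ζR k.1 k.2)
    (by rintro (k | k); exacts [hζ1 _ _, hζR _ _]) hη
  obtain ⟨h, hh, hhz⟩ := exists_approx_unit (ι := (Fin n × Fin n) ⊕ (Fin n × Fin n)) I₂
    (c := Sum.elim (fun k => ζ2 k.1 k.2) fun k => ζL k.1 k.2)
    (by rintro (k | k); exacts [hζ2 _ _, hζL _ _]) hη
  have hgs : star g = g := PC.star_eq hg
  have hgn : ‖g‖ ≤ 1 := PC.norm_le hg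
  have hhs : star h = h := PC.star_eq hh
  have hhn : ‖h‖ ≤ 1 := PC.norm_le hh
  have h1n : ‖(1 : M)‖ ≤ 1 := by
    rcases subsingleton_or_nontrivial M with h | h
    · rw [Subsingleton.elim (1 : M) 0, norm_zero]; norm_num
    · rw [CStarRing.norm_one]
  set u : M := 1 + g - h with hu
  set v : M := 1 - g + h with hv
  have hus : star u = u := by rw [hu, star_sub, star_add, star_one, hgs, hhs]
  have hvs : star v = v := by rw [hv, star_add, star_sub, star_one, hgs, hhs]
  have hun : ‖u‖ ≤ 3 := (norm_sub_le _ _).trans (by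
    have := norm_add_le (1 : M) g; linarith)
  have hvn : ‖v‖ ≤ 3 := (norm_add_le _ _).trans (by
    have := norm_sub_le (1 : M) g; linarith)
  -- elements of `I₁` are small against `v`
  have e1 : ∀ z, z ∈ I₁ → z * v = z * (1 - g) := by
    intro z hz
    have h5 : z * h = 0 := h0 _ (I₁.right_mem hz _) (I₂.left_mem _ hh.mem)
    rw [hv, mul_add, h5, add_zero]
  have e2 : ∀ z, z ∈ I₂ → z * u = z * (1 - h) := by
    intro z hz
    have h5 : z * g = 0 := h0 _ (I₁.left_mem _ hg.mem) (I₂.right_mem hz _)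
    rw [hu, add_sub_right_comm, mul_add, h5, add_zero]
  have e3 : ∀ z, z ∈ I₂ → u * z = (1 - h) * z := by
    intro z hz
    have h5 : g * z = 0 := h0 _ (I₁.right_mem hg.mem _) (I₂.left_mem _ hz)
    rw [hu, add_sub_right_comm, add_mul, h5, add_zero]
  refine ⟨u, v, hus, hvs, by rw [hu, hv]; abel, fun i j => ?_⟩
  have hLR : ∀ i j, ‖u * (star (L i) * a * R j) * v‖ ≤ 15 * η := by
    intro i j
    have k1 : u * (star (L i) * a * R j) * v =
        u * (star (L i) * a * R j - (ζ1 i j + ζ2 i j)) * v + u * (ζ1 i j * (1 - g)) +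
          (1 - h) * ζ2 i j * v := by
      rw [← e1 _ (hζ1 i j), ← e3 _ (hζ2 i j)]; noncomm_ring
    rw [k1]
    have b1 : ‖u * (star (L i) * a * R j - (ζ1 i j + ζ2 i j)) * v‖ ≤ 3 * η * 3 :=
      (norm_mul_le _ _).trans (mul_le_mul ((norm_mul_le _ _).trans
        (mul_le_mul hun (h3 i j) (norm_nonneg _) (by norm_num))) hvn (norm_nonneg _)
        (by positivity))
    have b2 : ‖u * (ζ1 i j * (1 - g))‖ ≤ 3 * η :=
      (norm_mul_le _ _).trans (mul_le_mul hun (hgz (Sum.inl (i, j))).1.le (norm_nonneg _)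
        (by norm_num))
    have b3 : ‖(1 - h) * ζ2 i j * v‖ ≤ η * 3 :=
      (norm_mul_le _ _).trans (mul_le_mul (hhz (Sum.inl (i, j))).2.le hvn (norm_nonneg _) hη.le)
    calc _ ≤ _ := norm_add_le _ _
      _ ≤ _ := add_le_add_left (norm_add_le _ _) _
      _ ≤ 15 * η := by linarith
  have key : star (L i * u + R i * v) * a * (L j * u + R j * v) -
      (if i = j then u * QL * u + v * QR * v else 0) =
      (u * (star (L i) * a * L j - (if i = j then QL else 0) - ζL i j) * u +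
        u * (ζL i j * (1 - h))) +
      (v * (star (R i) * a * R j - (if i = j then QR else 0) - ζR i j) * v +
        v * (ζR i j * (1 - g))) + u * (star (L i) * a * R j) * v +
      star (u * (star (L j) * a * R i) * v) := by
    have k1 : star (L i * u + R i * v) = u * star (L i) + v * star (R i) := by
      rw [star_add, star_mul, star_mul, hus, hvs]
    have k2 : star (u * (star (L j) * a * R i) * v) = v * (star (R i) * a * L j) * u := by
      rw [star_mul, star_mul, star_mul, star_mul, star_star, ha, hus, hvs]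
      simp only [mul_assoc]
    rw [k1, k2, ← e1 _ (hζR i j), ← e2 _ (hζL i j)]
    split_ifs with hij
    · noncomm_ring
    · noncomm_ring
  rw [key]
  have b1 : ‖u * (star (L i) * a * L j - (if i = j then QL else 0) - ζL i j) * u‖ ≤ 3 * η * 3 :=
    (norm_mul_le _ _).trans (mul_le_mul ((norm_mul_le _ _).trans
      (mul_le_mul hun (h1 i j) (norm_nonneg _) (by norm_num))) hun (norm_nonneg _)
      (by positivity))
  have b2 : ‖u * (ζL i j * (1 - h))‖ ≤ 3 * η :=
    (norm_mul_le _ _).trans (mul_le_mul hun (hhz (Sum.inr (i, j))).1.le (norm_nonneg _)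
      (by norm_num))
  have b3 : ‖v * (star (R i) * a * R j - (if i = j then QR else 0) - ζR i j) * v‖ ≤ 3 * η * 3 :=
    (norm_mul_le _ _).trans (mul_le_mul ((norm_mul_le _ _).trans
      (mul_le_mul hvn (h2 i j) (norm_nonneg _) (by norm_num))) hvn (norm_nonneg _)
      (by positivity))
  have b4 : ‖v * (ζR i j * (1 - g))‖ ≤ 3 * η :=
    (norm_mul_le _ _).trans (mul_le_mul hvn (hgz (Sum.inr (i, j))).1.le (norm_nonneg _)
      (by norm_num))
  have b5 := hLR i j
  have b6 : ‖star (u * (star (L j) * a * R i) * v)‖ ≤ 15 * η := by rw [norm_star]; exact hLR j i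
  calc _ ≤ _ := norm_add_le _ _
    _ ≤ _ := add_le_add_left (norm_add_le _ _) _
    _ ≤ _ := add_le_add_left (add_le_add_left (norm_add_le _ _) _) _
    _ ≤ _ := add_le_add_left (add_le_add_left (add_le_add (norm_add_le _ _) (norm_add_le _ _)) _) _
    _ ≤ 54 * η := by linarith

end

end Vale.Agent.P133.H832
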