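import Vale.Agent.P133.H832.Glu1
import Vale.Agent.P133.H832.Diag

/-!
P133 (helper832): gluing along a closed subset of the primitive ideal space.
-/

open scoped ComplexOrder

namespace Vale.Agent.P133.H832

open Vale.Agent.P133 Vale.Agent.P133F Vale.Agent.P133.Statement

universe u

section lifts

variable {A B : Type u} [NonUnitalCStarAlgebra A] [NonUnitalCStarAlgebra B]

theorem lift_contr' (φ : A →⋆ₙₐ[ℂ] B) (hφ : Function.Surjective φ) {t : B} (ht : ‖t‖ ≤ 1) :
    ∃ y : A, ‖y‖ ≤ 1 ∧ φ y = t := by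
  obtain ⟨s, rfl⟩ := hφ t
  obtain ⟨y, hy, hy1, hy2⟩ := lift_contr (final_ideal A) (Unitization.starMap φ)
    (t := ((φ s : B) : Unitization ℂ B))
    ⟨(s : Unitization ℂ A), final_mem_iff.2 ⟨s, rfl⟩, Unitization.starMap_inr φ s⟩
    (by rw [final_norm]; exact ht)
  obtain ⟨y, rfl⟩ := final_mem_iff.1 hy
  rw [final_norm] at hy1
  rw [Unitization.starMap_inr] at hy2
  exact ⟨y, hy1, Unitization.inr_injective hy2⟩

theorem lift_small' (φ : A →⋆ₙₐ[ℂ] B) {x : A} {σ : ℝ} (hσ : 0 < σ) (hx : ‖φ x‖ ≤ σ) :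
    ∃ v : A, φ v = 0 ∧ ‖x - v‖ ≤ σ := by
  obtain ⟨v, m, hv, hqv, hm, hxv⟩ := T5.lift_small (final_ideal A) (Unitization.starMap φ)
    (x := (x : Unitization ℂ A)) (final_mem_iff.2 ⟨x, rfl⟩) hσ
    (by rw [Unitization.starMap_inr, final_norm]; exact hx)
  obtain ⟨v, rfl⟩ := final_mem_iff.1 hv
  rw [Unitization.starMap_inr] at hqv
  refine ⟨v, Unitization.inr_injective (hqv.trans (Unitization.inr_zero ℂ).symm), ?_⟩
  rw [← final_norm, Unitization.inr_sub, hxv, add_sub_cancel_left]
  exact hm

end lifts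

section

variable {A : Type u} [NonUnitalCStarAlgebra A] [PartialOrder A] [StarOrderedRing A]

/-- a closed ideal as a closed ideal of the unitization -/
noncomputable def IsClosedIdeal.toC {J : Submodule ℂ A} (hJ : IsClosedIdeal J) :
    CIdeal (Unitization ℂ A) :=
  idealU J hJ.1 (fun a x h => (hJ.2 a x h).1) (fun a x h => (hJ.2 a x h).2)
    fun _ h => hJ.star_mem h

theorem IsClosedIdeal.mem_toC {J : Submodule ℂ A} (hJ : IsClosedIdeal J) {x : A} :
    (x : Unitization ℂ A) ∈ hJ.toC ↔ x ∈ J := mem_idealU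

theorem IsClosedIdeal.exists_of_mem {J : Submodule ℂ A} (hJ : IsClosedIdeal J)
    {x : Unitization ℂ A} (hx : x ∈ hJ.toC) : ∃ y ∈ J, x = (y : Unitization ℂ A) := by
  have h1 : x.fst = 0 ∧ x.snd ∈ J := hx
  exact ⟨x.snd, h1.2, by rw [← Unitization.inl_fst_add_inr_snd_eq x, h1.1]; simp⟩

/-- elements small in `A / (I₁ + I₂)` are close to sums -/
theorem near_sum {B : Type u} [NonUnitalCStarAlgebra B] {I₁ I₂ : Submodule ℂ A}
    {φ : A →⋆ₙₐ[ℂ] B} (hk : ∀ z, φ z = 0 ↔ z ∈ (I₁ ⊔ I₂).topologicalClosure) {x : A} {σ : ℝ}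
    (hσ : 0 < σ) (hx : ‖φ x‖ ≤ σ) : ∃ z1 ∈ I₁, ∃ z2 ∈ I₂, ‖x - (z1 + z2)‖ ≤ 2 * σ := by
  obtain ⟨v, hv, hxv⟩ := lift_small' φ hσ hx
  obtain ⟨w, hw, hvw⟩ := Metric.mem_closure_iff.1 ((hk v).1 hv) σ hσ
  obtain ⟨z1, h1, z2, h2, rfl⟩ := Submodule.mem_sup.1 hw
  refine ⟨z1, h1, z2, h2, ?_⟩
  rw [dist_eq_norm] at hvw
  calc ‖x - (z1 + z2)‖ = ‖(x - v) + (v - (z1 + z2))‖ := by rw [sub_add_sub_cancel]
    _ ≤ ‖x - v‖ + ‖v - (z1 + z2)‖ := norm_add_le _ _
    _ ≤ 2 * σ := by linarith

/-- Gluing: `I₁ ∩ I₂ = 0`, `A / (I₁ + I₂)` purely infinite, all multiples of `x` and of `y` below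
`a`, where `x` agrees with `b` modulo `I₂` and `y` agrees with `b` modulo `I₁`; then all multiples
of `b` are below `a`. -/
theorem glue {n : ℕ} (hn : WPI A n) {a b x y : A} (ha : 0 ≤ a) (hb : 0 ≤ b)
    {I₁ I₂ : Submodule ℂ A} (hI₁ : IsClosedIdeal I₁) (hI₂ : IsClosedIdeal I₂)
    (h0 : ∀ z ∈ I₁, z ∈ I₂ → z = 0) (hx : InfB a x) (hy : InfB a y) (hbx : b - x ∈ I₂)
    (hby : b - y ∈ I₁) {B : Type u} [NonUnitalCStarAlgebra B] {φ : A →⋆ₙₐ[ℂ] B}
    (hφ : Function.Surjective φ) (hk : ∀ z, φ z = 0 ↔ z ∈ (I₁ ⊔ I₂).topologicalClosure)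
    (hB : Diag B) : InfB a b := by
  refine infB_of_wpi hn hb fun δ hδ => ?_
  set η : ℝ := δ / 5000 with hη
  have hη0 : 0 < η := by positivity
  obtain ⟨r, hr⟩ := hx.2 (n + n) η hη0
  obtain ⟨s, hs⟩ := hy.2 (n + n) η hη0
  set α : A := CFC.sqrt a with hα
  have hαα : α * α = a := CFC.sqrt_mul_sqrt_self a ha
  have hαs : star α = α := (IsSelfAdjoint.of_nonneg (CFC.sqrt_nonneg a)).star_eq
  obtain ⟨D, hD1, hD⟩ := hB (n + n) (Fin.append (fun i => φ (α * r (Fin.natAdd n i)))
    (fun i => φ (α * s (Fin.natAdd n i)))) η hη0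
  have hdl : ∀ k, ∃ d : A, ‖d‖ ≤ 1 ∧ φ d = D k := fun k => lift_contr' φ hφ (hD1 k)
  choose d hd1 hd using hdl
  have hφ0 : ∀ z ∈ I₁, φ z = 0 := fun z hz => (hk z).2
    (Submodule.le_topologicalClosure _ (Submodule.mem_sup_left hz))
  have hφ0' : ∀ z ∈ I₂, φ z = 0 := fun z hz => (hk z).2
    (Submodule.le_topologicalClosure _ (Submodule.mem_sup_right hz))
  have hφx : φ b = φ x := by rw [← sub_eq_zero, ← map_sub]; exact hφ0' _ hbx
  have hφy : φ b = φ y := by rw [← sub_eq_zero, ← map_sub]; exact hφ0 _ hby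
  -- the new families
  set t' : Fin n → A := fun i => r (Fin.natAdd n i) * d (Fin.castAdd n i) with ht'
  set s' : Fin n → A := fun i => s (Fin.natAdd n i) * d (Fin.natAdd n i) with hs'
  have hφt : ∀ i j, φ (star (t' i) * a * t' j) =
      star (φ (α * r (Fin.natAdd n i)) * D (Fin.castAdd n i)) *
        (φ (α * r (Fin.natAdd n j)) * D (Fin.castAdd n j)) := by
    intro i j
    rw [← hd, ← hd, ← map_mul, ← map_mul, ← map_star, ← map_mul]
    congr 1
    simp only [ht', star_mul, hαs, ← hαα, mul_assoc]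
  have hφs : ∀ i j, φ (star (s' i) * a * s' j) =
      star (φ (α * s (Fin.natAdd n i)) * D (Fin.natAdd n i)) *
        (φ (α * s (Fin.natAdd n j)) * D (Fin.natAdd n j)) := by
    intro i j
    rw [← hd, ← hd, ← map_mul, ← map_mul, ← map_star, ← map_mul]
    congr 1
    simp only [hs', star_mul, hαs, ← hαα, mul_assoc]
  have hφts : ∀ i j, φ (star (t' i) * a * s' j) =
      star (φ (α * r (Fin.natAdd n i)) * D (Fin.castAdd n i)) *
        (φ (α * s (Fin.natAdd n j)) * D (Fin.natAdd n j)) := by
    intro i j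
    rw [← hd, ← hd, ← map_mul, ← map_mul, ← map_star, ← map_mul]
    congr 1
    simp only [ht', hs', star_mul, hαs, ← hαα, mul_assoc]
  have hdr : ∀ (w : A), star (φ (α * w)) * φ (α * w) = φ (star w * a * w) := by
    intro w
    rw [← map_star, ← map_mul]
    congr 1
    simp only [star_mul, hαs, ← hαα, mul_assoc]
  have T1 : ∀ i j, ‖φ (star (t' i) * a * t' j - (if i = j then b else 0))‖ ≤ 2 * η := by
    intro i j
    have h1 := hD (Fin.castAdd n i) (Fin.castAdd n j)
    simp only [Fin.append_left, (Fin.castAdd_injective n n).eq_iff] at h1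
    rw [← hφt, hdr] at h1
    split_ifs at h1 ⊢ with hij
    · have h2 := hr (Fin.natAdd n i) (Fin.natAdd n i)
      rw [if_pos rfl] at h2
      have h3 : ‖φ (star (r (Fin.natAdd n i)) * a * r (Fin.natAdd n i) - x)‖ ≤ η :=
        (NonUnitalStarAlgHom.norm_apply_le φ _).trans h2.le
      have h4 : φ (star (t' i) * a * t' j - b) =
          (φ (star (t' i) * a * t' j) - φ (star (r (Fin.natAdd n i)) * a * r (Fin.natAdd n i))) +
            φ (star (r (Fin.natAdd n i)) * a * r (Fin.natAdd n i) - x) := by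
        rw [map_sub, map_sub, hφx, sub_add_sub_cancel]
      rw [h4]
      exact (norm_add_le _ _).trans (by linarith)
    · rw [sub_zero] at h1 ⊢
      linarith
  have T2 : ∀ i j, ‖φ (star (s' i) * a * s' j - (if i = j then b else 0))‖ ≤ 2 * η := by
    intro i j
    have h1 := hD (Fin.natAdd n i) (Fin.natAdd n j)
    simp only [Fin.append_right, (Fin.natAdd_injective n n).eq_iff] at h1
    rw [← hφs, hdr] at h1
    split_ifs at h1 ⊢ with hij
    · have h2 := hs (Fin.natAdd n i) (Fin.natAdd n i)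
      rw [if_pos rfl] at h2
      have h3 : ‖φ (star (s (Fin.natAdd n i)) * a * s (Fin.natAdd n i) - y)‖ ≤ η :=
        (NonUnitalStarAlgHom.norm_apply_le φ _).trans h2.le
      have h4 : φ (star (s' i) * a * s' j - b) =
          (φ (star (s' i) * a * s' j) - φ (star (s (Fin.natAdd n i)) * a * s (Fin.natAdd n i))) +
            φ (star (s (Fin.natAdd n i)) * a * s (Fin.natAdd n i) - y) := by
        rw [map_sub, map_sub, hφy, sub_add_sub_cancel]
      rw [h4]
      exact (norm_add_le _ _).trans (by linarith)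
    · rw [sub_zero] at h1 ⊢
      linarith
  have hne : ∀ i j : Fin n, Fin.castAdd n i ≠ Fin.natAdd n j := by
    intro i j h
    have := congrArg Fin.val h
    simp only [Fin.val_castAdd, Fin.val_natAdd] at this
    omega
  have T3 : ∀ i j, ‖φ (star (t' i) * a * s' j)‖ ≤ 2 * η := by
    intro i j
    have h1 := hD (Fin.castAdd n i) (Fin.natAdd n j)
    simp only [Fin.append_left, Fin.append_right, if_neg (hne i j), sub_zero] at h1
    rw [← hφts] at h1
    linarith
  choose zt1 hzt1 zt2 hzt2 hzt using fun i j => near_sum hk (by positivity : 0 < 2 * η) (T1 i j)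
  choose zs1 hzs1 zs2 hzs2 hzs using fun i j => near_sum hk (by positivity : 0 < 2 * η) (T2 i j)
  choose zc1 hzc1 zc2 hzc2 hzc using fun i j => near_sum hk (by positivity : 0 < 2 * η) (T3 i j)
  -- pass to the unitization
  have h0c : ∀ z, z ∈ hI₁.toC → z ∈ hI₂.toC → z = 0 := by
    intro z hz1 hz2
    obtain ⟨w, hw, rfl⟩ := hI₁.exists_of_mem hz1
    rw [h0 w hw (hI₂.mem_toC.1 hz2), Unitization.inr_zero]
  have hac : star (a : Unitization ℂ A) = (a : Unitization ℂ A) := by
    rw [← Unitization.inr_star, (IsSelfAdjoint.of_nonneg ha).star_eq]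
  have hcast : ∀ (c : A) (i j : Fin n), ((if i = j then c else 0 : A) : Unitization ℂ A) =
      if i = j then (c : Unitization ℂ A) else 0 := by
    intro c i j
    split_ifs
    · rfl
    · exact Unitization.inr_zero ℂ
  have hcn : ∀ (p q c w : A) (i j : Fin n), ‖star (p : Unitization ℂ A) * (a : Unitization ℂ A) *
      (q : Unitization ℂ A) - (if i = j then (c : Unitization ℂ A) else 0) -
        (w : Unitization ℂ A)‖ = ‖star p * a * q - (if i = j then c else 0) - w‖ := by
    intro p q c w i j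
    rw [← hcast, ← Unitization.inr_star, ← Unitization.inr_mul, ← Unitization.inr_mul,
      ← Unitization.inr_sub, ← Unitization.inr_sub, final_norm]
  obtain ⟨g, hg, hgs, hgn, ζL, hζL, hL⟩ := glue_stage1 (n := n) hI₁.toC hI₂.toC h0c
    (a := (a : Unitization ℂ A)) (b := (b : Unitization ℂ A)) (x := (x : Unitization ℂ A)) hac
    (by rw [← Unitization.inr_sub]; exact hI₂.mem_toC.2 hbx)
    (fun i => (r (Fin.castAdd n i) : Unitization ℂ A)) (fun i => (t' i : Unitization ℂ A))
    (fun i j => (zt1 i j : Unitization ℂ A)) (fun i j => (zt2 i j : Unitization ℂ A))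
    (fun i j => hI₁.mem_toC.2 (hzt1 i j)) (fun i j => hI₂.mem_toC.2 (hzt2 i j))
    (by positivity : 0 < 4 * η)
    (by
      intro i j
      have h1 := hr (Fin.castAdd n i) (Fin.castAdd n j)
      simp only [(Fin.castAdd_injective n n).eq_iff] at h1
      have h2 := hcn (r (Fin.castAdd n i)) (r (Fin.castAdd n j)) x 0 i j
      rw [Unitization.inr_zero, sub_zero, sub_zero] at h2
      rw [h2]; linarith)
    (by
      intro i j
      have h1 := hr (Fin.castAdd n i) (Fin.natAdd n j)
      rw [if_neg (hne i j), sub_zero] at h1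
      have h2 : star (r (Fin.castAdd n i)) * a * t' j =
          star (r (Fin.castAdd n i)) * a * r (Fin.natAdd n j) * d (Fin.castAdd n j) := by
        simp only [ht', mul_assoc]
      rw [← Unitization.inr_star, ← Unitization.inr_mul, ← Unitization.inr_mul, final_norm, h2]
      calc _ ≤ ‖star (r (Fin.castAdd n i)) * a * r (Fin.natAdd n j)‖ * ‖d (Fin.castAdd n j)‖ :=
            norm_mul_le _ _
        _ ≤ η * 1 := mul_le_mul h1.le (hd1 _) (norm_nonneg _) hη0.le
        _ ≤ 4 * η := by linarith)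
    (by
      intro i j
      have h2 := hcn (t' i) (t' j) b (zt1 i j + zt2 i j) i j
      rw [Unitization.inr_add] at h2
      rw [h2]
      have := hzt i j
      linarith)
  obtain ⟨g', hg', hgs', hgn', ζR, hζR, hR⟩ := glue_stage1 (n := n) hI₂.toC hI₁.toC
    (fun z h1 h2 => h0c z h2 h1)
    (a := (a : Unitization ℂ A)) (b := (b : Unitization ℂ A)) (x := (y : Unitization ℂ A)) hac
    (by rw [← Unitization.inr_sub]; exact hI₁.mem_toC.2 hby)
    (fun i => (s (Fin.castAdd n i) : Unitization ℂ A)) (fun i => (s' i : Unitization ℂ A))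
    (fun i j => (zs2 i j : Unitization ℂ A)) (fun i j => (zs1 i j : Unitization ℂ A))
    (fun i j => hI₂.mem_toC.2 (hzs2 i j)) (fun i j => hI₁.mem_toC.2 (hzs1 i j))
    (by positivity : 0 < 4 * η)
    (by
      intro i j
      have h1 := hs (Fin.castAdd n i) (Fin.castAdd n j)
      simp only [(Fin.castAdd_injective n n).eq_iff] at h1
      have h2 := hcn (s (Fin.castAdd n i)) (s (Fin.castAdd n j)) y 0 i j
      rw [Unitization.inr_zero, sub_zero, sub_zero] at h2
      rw [h2]; linarith)
    (by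
      intro i j
      have h1 := hs (Fin.castAdd n i) (Fin.natAdd n j)
      rw [if_neg (hne i j), sub_zero] at h1
      have h2 : star (s (Fin.castAdd n i)) * a * s' j =
          star (s (Fin.castAdd n i)) * a * s (Fin.natAdd n j) * d (Fin.natAdd n j) := by
        simp only [hs', mul_assoc]
      rw [← Unitization.inr_star, ← Unitization.inr_mul, ← Unitization.inr_mul, final_norm, h2]
      calc _ ≤ ‖star (s (Fin.castAdd n i)) * a * s (Fin.natAdd n j)‖ * ‖d (Fin.natAdd n j)‖ :=
            norm_mul_le _ _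
        _ ≤ η * 1 := mul_le_mul h1.le (hd1 _) (norm_nonneg _) hη0.le
        _ ≤ 4 * η := by linarith)
    (by
      intro i j
      have h2 := hcn (s' i) (s' j) b (zs1 i j + zs2 i j) i j
      rw [Unitization.inr_add] at h2
      rw [add_comm (zs2 i j : Unitization ℂ A), h2]
      have := hzs i j
      linarith)
  have h1n : ∀ e : Unitization ℂ A, ‖e‖ ≤ 1 → ‖1 - e‖ ≤ 2 := by
    intro e he
    rcases subsingleton_or_nontrivial (Unitization ℂ A) with h | h
    · rw [Subsingleton.elim (1 - e) 0, norm_zero]; norm_num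
    · exact (norm_sub_le _ _).trans (by rw [CStarRing.norm_one]; linarith)
  have h1s : ∀ e : Unitization ℂ A, star e = e → star (1 - e) = 1 - e := by
    intro e he
    rw [star_sub, star_one, he]
  set L : Fin n → Unitization ℂ A := fun i => (r (Fin.castAdd n i) : Unitization ℂ A) * g +
    (t' i : Unitization ℂ A) * (1 - g) with hLdef
  set R : Fin n → Unitization ℂ A := fun i => (s (Fin.castAdd n i) : Unitization ℂ A) * g' +
    (s' i : Unitization ℂ A) * (1 - g') with hRdef
  set b' : Unitization ℂ A := (b : Unitization ℂ A) with hb'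
  set a' : Unitization ℂ A := (a : Unitization ℂ A) with ha'
  obtain ⟨u, v, hus, hvs, huv, hT⟩ := glue_stage2 (n := n) hI₁.toC hI₂.toC h0c
    (a := a') (QL := g * b' * g + (1 - g) * b' * (1 - g))
    (QR := g' * b' * g' + (1 - g') * b' * (1 - g')) hac L R ζL ζR
    (fun i j => g * (star (r (Fin.castAdd n i) : Unitization ℂ A) * a' * R j) +
      (1 - g) * (zc1 i j : Unitization ℂ A) * (1 - g'))
    (fun i j => (1 - g) * (star (t' i : Unitization ℂ A) * a' *
      (s (Fin.castAdd n j) : Unitization ℂ A)) * g' +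
      (1 - g) * (zc2 i j : Unitization ℂ A) * (1 - g'))
    hζL hζR
    (fun i j => hI₁.toC.add_mem (hI₁.toC.right_mem hg _)
      (hI₁.toC.right_mem (hI₁.toC.left_mem _ (hI₁.mem_toC.2 (hzc1 i j))) _))
    (fun i j => hI₂.toC.add_mem (hI₂.toC.left_mem _ hg')
      (hI₂.toC.right_mem (hI₂.toC.left_mem _ (hI₂.mem_toC.2 (hzc2 i j))) _))
    (by positivity : 0 < 44 * η)
    (fun i j => (hL i j).trans (by linarith)) (fun i j => (hR i j).trans (by linarith))
    (by
      intro i j
      have k1 : star (L i) * a' * R j - (g * (star (r (Fin.castAdd n i) : Unitization ℂ A) * a' *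
          R j) + (1 - g) * (zc1 i j : Unitization ℂ A) * (1 - g') + ((1 - g) *
          (star (t' i : Unitization ℂ A) * a' * (s (Fin.castAdd n j) : Unitization ℂ A)) * g' +
          (1 - g) * (zc2 i j : Unitization ℂ A) * (1 - g'))) =
          (1 - g) * (star (t' i : Unitization ℂ A) * a' * (s' j : Unitization ℂ A) -
            ((zc1 i j : Unitization ℂ A) + (zc2 i j : Unitization ℂ A))) * (1 - g') := by
        have k2 : star (L i) = g * star (r (Fin.castAdd n i) : Unitization ℂ A) +
            (1 - g) * star (t' i : Unitization ℂ A) := by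
          rw [hLdef, star_add, star_mul, star_mul, hgs, h1s g hgs]
        rw [k2]
        simp only [hRdef]
        noncomm_ring
      rw [k1]
      have k3 : ‖star (t' i : Unitization ℂ A) * a' * (s' j : Unitization ℂ A) -
            ((zc1 i j : Unitization ℂ A) + (zc2 i j : Unitization ℂ A))‖ ≤ 4 * η := by
        rw [ha', ← Unitization.inr_star, ← Unitization.inr_mul, ← Unitization.inr_mul,
          ← Unitization.inr_add, ← Unitization.inr_sub, final_norm]
        have := hzc i j
        linarith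
      calc _ ≤ ‖1 - g‖ * ‖star (t' i : Unitization ℂ A) * a' * (s' j : Unitization ℂ A) -
            ((zc1 i j : Unitization ℂ A) + (zc2 i j : Unitization ℂ A))‖ * ‖1 - g'‖ :=
            (norm_mul_le _ _).trans (by gcongr; exact norm_mul_le _ _)
        _ ≤ 2 * (4 * η) * 2 := by
            gcongr
            · exact h1n g hgn
            · exact h1n g' hgn'
        _ ≤ 44 * η := by linarith)
  -- back to `A`
  have hmA : ∀ z : A, (z : Unitization ℂ A) ∈ final_ideal A := fun z => final_mem_iff.2 ⟨z, rfl⟩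
  have hTA : ∀ i, ∃ T : A, L i * u + R i * v = (T : Unitization ℂ A) := by
    intro i
    refine final_mem_iff.1 ?_
    exact (final_ideal A).add_mem
      ((final_ideal A).right_mem ((final_ideal A).add_mem
        ((final_ideal A).right_mem (hmA _) _) ((final_ideal A).right_mem (hmA _) _)) _)
      ((final_ideal A).right_mem ((final_ideal A).add_mem
        ((final_ideal A).right_mem (hmA _) _) ((final_ideal A).right_mem (hmA _) _)) _)
  choose T hTT using hTA
  set QL : Unitization ℂ A := g * b' * g + (1 - g) * b' * (1 - g) with hQL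
  set QR : Unitization ℂ A := g' * b' * g' + (1 - g') * b' * (1 - g') with hQR
  obtain ⟨Q, hQ⟩ : ∃ Q : A, u * QL * u + v * QR * v = (Q : Unitization ℂ A) := by
    refine final_mem_iff.1 ?_
    have hm : ∀ p q : Unitization ℂ A, p * b' * q ∈ final_ideal A := fun p q =>
      (final_ideal A).right_mem ((final_ideal A).left_mem _ (hmA b)) _
    exact (final_ideal A).add_mem
      ((final_ideal A).right_mem ((final_ideal A).left_mem _
        ((final_ideal A).add_mem (hm _ _) (hm _ _))) _)
      ((final_ideal A).right_mem ((final_ideal A).left_mem _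
        ((final_ideal A).add_mem (hm _ _) (hm _ _))) _)
  have hb0 : 0 ≤ b' := by rw [hb', Unitization.inr_nonneg_iff]; exact hb
  have hconj : ∀ (p z : Unitization ℂ A), star p = p → 0 ≤ z → 0 ≤ p * z * p := by
    intro p z hp hz
    have := star_left_conjugate_nonneg hz p
    rwa [hp] at this
  have hpin : ∀ p : Unitization ℂ A, star p = p →
      0 ≤ (p * b' * p + (1 - p) * b' * (1 - p)) + (p * b' * p + (1 - p) * b' * (1 - p)) - b' := by
    intro p hp
    have h1 := hconj (p - (1 - p)) b' (by rw [star_sub, hp, h1s p hp]) hb0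
    have h2 : (p - (1 - p)) * b' * (p - (1 - p)) =
        (p * b' * p + (1 - p) * b' * (1 - p)) + (p * b' * p + (1 - p) * b' * (1 - p)) - b' := by
      noncomm_ring
    rwa [h2] at h1
  have hbQ : b ≤ Q := by
    rw [← sub_nonneg, ← Unitization.inr_nonneg_iff, Unitization.inr_sub, ← hQ, ← hb']
    have h1 := hconj u _ hus (hpin g hgs)
    have h2 := hconj v _ hvs (hpin g' hgs')
    have h3 := hconj (u - v) b' (by rw [star_sub, hus, hvs]) hb0
    rw [← hQL] at h1
    rw [← hQR] at h2
    have h4 : (u + v) * b' * (u + v) = b' + b' + b' + b' := by rw [huv]; noncomm_ring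
    have h5 := add_nonneg (add_nonneg (add_nonneg h1 h1) (add_nonneg h2 h2)) h3
    set W : Unitization ℂ A := u * QL * u + v * QR * v - b' with hW
    have h6 : u * (QL + QL - b') * u + u * (QL + QL - b') * u +
        (v * (QR + QR - b') * v + v * (QR + QR - b') * v) + (u - v) * b' * (u - v) =
        W + W + W + W := by
      have h7 : W + W + W + W = (u * QL * u + v * QR * v) + (u * QL * u + v * QR * v) +
          (u * QL * u + v * QR * v) + (u * QL * u + v * QR * v) - (u + v) * b' * (u + v) := by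
        rw [h4, hW]; abel
      rw [h7]
      noncomm_ring
    rw [h6] at h5
    have h8 : W = (1 / 4 : ℝ) • (W + W + W + W) := by module
    rw [h8]
    exact smul_nonneg (by norm_num) h5
  obtain ⟨d0, hd01, hd0⟩ := order_factor_c hb hbQ (half_pos hδ)
  refine ⟨fun i => T i * d0, fun i j => ?_⟩
  have hTn : ‖star (T i) * a * T j - (if i = j then Q else 0)‖ ≤ 54 * (44 * η) := by
    have h1 := hT i j
    rw [hTT i, hTT j, hQ] at h1
    have h2 : ((star (T i) * a * T j - (if i = j then Q else 0) : A) : Unitization ℂ A) =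
        star (T i : Unitization ℂ A) * a' * (T j : Unitization ℂ A) -
          (if i = j then (Q : Unitization ℂ A) else 0) := by
      rw [Unitization.inr_sub, hcast, Unitization.inr_mul, Unitization.inr_mul,
        Unitization.inr_star]
    rw [← final_norm, h2]
    exact h1
  have key : star (T i * d0) * a * (T j * d0) - (if i = j then b else 0) =
      star d0 * (star (T i) * a * T j - (if i = j then Q else 0)) * d0 +
        (if i = j then star d0 * Q * d0 - b else 0) := by
    rw [star_mul]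
    split_ifs with hij
    · noncomm_ring
    · noncomm_ring
  have hlast : ‖(if i = j then star d0 * Q * d0 - b else 0 : A)‖ ≤ δ / 2 := by
    split_ifs
    · exact hd0
    · rw [norm_zero]; exact (half_pos hδ).le
  have hds : ‖star d0‖ ≤ 1 := by rw [norm_star]; exact hd01
  rw [key]
  calc _ ≤ ‖star d0 * (star (T i) * a * T j - (if i = j then Q else 0)) * d0‖ +
        ‖(if i = j then star d0 * Q * d0 - b else 0 : A)‖ := norm_add_le _ _
    _ ≤ ‖star d0‖ * ‖star (T i) * a * T j - (if i = j then Q else 0)‖ * ‖d0‖ + δ / 2 := by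
        gcongr
        exact (norm_mul_le _ _).trans (by gcongr; exact norm_mul_le _ _)
    _ ≤ 1 * (54 * (44 * η)) * 1 + δ / 2 := by gcongr
    _ ≤ δ := by rw [hη]; linarith

end

end Vale.Agent.P133.H832
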