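import Vale.Agent.P133.H832.PairU

/-!
P133 (helper832): `PairU` in the relative form, for elements of norm at most `2`.
-/

open scoped ComplexOrder

namespace Vale.Agent.P133.H832

open Vale.Agent.P133

universe u

variable {M : Type u} [CStarAlgebra M] [PartialOrder M] [StarOrderedRing M]

theorem pairB (A : CIdeal M) (hA : PIrel A) : ∀ δ : ℝ, 0 < δ → ∃ Λ : ℝ, 1 ≤ Λ ∧
    ∀ a ∈ A, ∀ b ∈ A, ‖a‖ ≤ 2 → ‖b‖ ≤ 2 → ∀ η : ℝ, 0 < η → ∃ s t : M, ‖s‖ ≤ Λ ∧ ‖t‖ ≤ Λ ∧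
      ‖star (a * s) * (a * s) - star a * a‖ ≤ δ ∧ ‖star (b * t) * (b * t) - star b * b‖ ≤ δ ∧
      ‖star (a * s) * (b * t)‖ ≤ η := by
  intro δ hδ
  set δ₀ : ℝ := min 1 (δ / 12) with hδ₀
  have h0 : 0 < δ₀ := lt_min one_pos (by positivity)
  have h1 : δ₀ ≤ 1 := min_le_left _ _
  have h2 : δ₀ ≤ δ / 12 := min_le_right _ _
  have hinv : 1 ≤ δ₀⁻¹ := (one_le_inv₀ h0).2 h1
  refine ⟨δ₀⁻¹, hinv, fun a ha b hb ha2 hb2 η hη => ?_⟩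
  have hs : ∀ {w : M}, ‖w‖ ≤ 2 → ‖(2 : ℝ)⁻¹ • w‖ ≤ 1 := by
    intro w hw
    rw [norm_smul, Real.norm_of_nonneg (by positivity), inv_mul_le_iff₀ two_pos, mul_one]
    exact hw
  set η₀ : ℝ := min δ₀ (η / 4) with hη₀
  have g0 : 0 < η₀ := lt_min h0 (by positivity)
  have g1 : η₀ ≤ δ₀ := min_le_left _ _
  have g2 : η₀ ≤ η / 4 := min_le_right _ _
  obtain ⟨s, -, t, -, k1, k2, -, -, k3, k4, k5⟩ := pairU_rel A hA h0 (A.smul_mem (2 : ℝ)⁻¹ ha)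
    (A.smul_mem (2 : ℝ)⁻¹ hb) (hs ha2) (hs hb2) g0
  have key : ∀ w r : M, ‖star (((2 : ℝ)⁻¹ • w) * r) * (((2 : ℝ)⁻¹ • w) * r) -
      star ((2 : ℝ)⁻¹ • w) * ((2 : ℝ)⁻¹ • w)‖ = 4⁻¹ * ‖star (w * r) * (w * r) - star w * w‖ := by
    intro w r
    have e : star (((2 : ℝ)⁻¹ • w) * r) * (((2 : ℝ)⁻¹ • w) * r) -
        star ((2 : ℝ)⁻¹ • w) * ((2 : ℝ)⁻¹ • w) =
        (4 : ℝ)⁻¹ • (star (w * r) * (w * r) - star w * w) := by
      rw [smul_mul_assoc, star_smul, star_smul, star_trivial, smul_mul_smul_comm,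
        smul_mul_smul_comm, ← smul_sub]
      norm_num
    rw [e, norm_smul, Real.norm_of_nonneg (by positivity)]
  have key2 : star (((2 : ℝ)⁻¹ • a) * s) * (((2 : ℝ)⁻¹ • b) * t) =
      (4 : ℝ)⁻¹ • (star (a * s) * (b * t)) := by
    rw [smul_mul_assoc, smul_mul_assoc, star_smul, star_trivial, smul_mul_smul_comm]
    norm_num
  rw [key] at k3 k4
  rw [key2, norm_smul, Real.norm_of_nonneg (by positivity)] at k5
  have hn : ∀ {r : M}, ‖r‖ ^ 2 ≤ δ₀⁻¹ → ‖r‖ ≤ δ₀⁻¹ := by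
    intro r hr
    nlinarith only [hr, hinv, norm_nonneg r]
  exact ⟨s, t, hn k1, hn k2, by linarith, by linarith, by linarith⟩

end Vale.Agent.P133.H832
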