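import Vale.Agent.P133.SDefs

/-!
P133: the diagonalization property by contractions, for pairs of arbitrary elements.
-/

namespace Vale.Agent.P133.H832

universe u

/-- for all `a, b` there are contractions `s, t` with `(as)*(as) ≈ a*a`, `(bt)*(bt) ≈ b*b` and
`(as)*(bt) ≈ 0`. -/
def PairC (A : Type u) [NonUnitalCStarAlgebra A] : Prop :=
  ∀ a b : A, ∀ ε : ℝ, 0 < ε → ∃ s t : A, ‖s‖ ≤ 1 ∧ ‖t‖ ≤ 1 ∧
    ‖star (a * s) * (a * s) - star a * a‖ < ε ∧ ‖star (b * t) * (b * t) - star b * b‖ < ε ∧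
    ‖star (a * s) * (b * t)‖ < ε

end Vale.Agent.P133.H832
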