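import Vale.Agent.P133.H832.Fam

/-!
P133 (helper832): slices, to replace multipliers by contractions.
-/

open scoped ComplexOrder

namespace Vale.Agent.P133.H832

open Vale.Agent.P133

universe u

/-! ### the slicing functions -/

/-- the ramp from `k / m` to `(k + 1) / m` -/
noncomputable def R (m : ℕ) (k : ℕ) (u : ℝ) : ℝ := max 0 (min 1 (m * u - k))

theorem R_cont (m k : ℕ) : Continuous (R m k) := by unfold R; fun_prop

theorem R_nonneg (m k : ℕ) (u : ℝ) : 0 ≤ R m k u := le_max_left _ _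

theorem R_le_one (m k : ℕ) (u : ℝ) : R m k u ≤ 1 := max_le zero_le_one (min_le_left _ _)

theorem R_succ_le (m k : ℕ) (u : ℝ) : R m (k + 1) u ≤ R m k u := by
  unfold R
  push_cast
  exact max_le_max le_rfl (min_le_min le_rfl (by linarith))

theorem R_eq_zero {m k : ℕ} {u : ℝ} (h : m * u ≤ k) : R m k u = 0 := by
  unfold R
  rw [min_eq_right (by linarith), max_eq_left (by linarith)]

theorem R_eq_one {m k : ℕ} {u : ℝ} (h : (k : ℝ) + 1 ≤ m * u) : R m k u = 1 := by
  unfold R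
  rw [min_eq_left (by linarith), max_eq_right zero_le_one]

/-- the square root of the hat function on `[k / m, (k + 2) / m]` -/
noncomputable def hat (m k : ℕ) (u : ℝ) : ℝ := Real.sqrt (R m k u - R m (k + 1) u)

theorem hat_cont (m k : ℕ) : Continuous (hat m k) :=
  Real.continuous_sqrt.comp ((R_cont m k).sub (R_cont m (k + 1)))

theorem hat_sq (m k : ℕ) (u : ℝ) : hat m k u ^ 2 = R m k u - R m (k + 1) u :=
  Real.sq_sqrt (sub_nonneg.2 (R_succ_le m k u))

theorem hat_supp {m k : ℕ} {u : ℝ} (h : hat m k u ≠ 0) : (k : ℝ) < m * u ∧ m * u < k + 2 := by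
  constructor
  · by_contra hcon
    push Not at hcon
    apply h
    unfold hat
    rw [R_eq_zero hcon, R_eq_zero (by push_cast; linarith)]
    simp
  · by_contra hcon
    push Not at hcon
    apply h
    unfold hat
    rw [R_eq_one (by linarith), R_eq_one (by push_cast; linarith)]
    simp

theorem hat_sum (m k : ℕ) (p : ℕ) (u : ℝ) :
    ∑ j : Fin p, hat m (k + j) u ^ 2 = R m k u - R m (k + p) u := by
  have h : ∑ j ∈ Finset.range p, (R m (k + j) u - R m (k + (j + 1)) u) =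
      R m (k + 0) u - R m (k + p) u := Finset.sum_range_sub' (fun j => R m (k + j) u) p
  rw [← Fin.sum_univ_eq_sum_range (fun j => R m (k + j) u - R m (k + (j + 1)) u)] at h
  simp only [hat_sq]
  exact h

theorem exists_slices {κ θ : ℝ} (hκ : 0 < κ) (hθ : 0 < θ) :
    ∃ (p : ℕ) (e : Fin p → ℝ → ℝ) (t : Fin p → ℝ), (∀ j, Continuous (e j)) ∧ (∀ j, 0 < t j) ∧
      (∀ j u, 0 ≤ u → e j u ≠ 0 → t j ≤ u ∧ u ≤ (1 + κ) * t j) ∧
      (∀ u, 0 ≤ u → ∑ j, e j u ^ 2 ≤ 1) ∧
      (∀ i j : Fin p, (i : ℕ) + 2 ≤ j → ∀ u, 0 ≤ u → e i u * e j u = 0) ∧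
      ∀ u, 0 ≤ u → u ≤ 1 → u * (1 - ∑ j, e j u ^ 2) ≤ θ := by
  obtain ⟨k, hk⟩ := exists_nat_gt (max 1 (2 / κ))
  have hk1 : (1 : ℝ) < k := lt_of_le_of_lt (le_max_left _ _) hk
  have hk2 : 2 < k * κ := by
    have := lt_of_le_of_lt (le_max_right _ _) hk
    rwa [div_lt_iff₀ hκ] at this
  obtain ⟨m, hm⟩ := exists_nat_gt (max 1 ((k + 1) / θ))
  have hm1 : (1 : ℝ) < m := lt_of_le_of_lt (le_max_left _ _) hm
  have hm0 : (0 : ℝ) < m := by linarith
  have hm2 : (k : ℝ) + 1 < m * θ := by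
    have := lt_of_le_of_lt (le_max_right _ _) hm
    rwa [div_lt_iff₀ hθ] at this
  refine ⟨m, fun j => hat m (k + j), fun j => ((k + j : ℕ) : ℝ) / m, fun j => hat_cont _ _,
    fun j => ?_, fun j u _ h => ?_, fun u _ => ?_, fun i j hij u _ => ?_, fun u hu hu1 => ?_⟩
  · have : (0 : ℝ) < ((k + j : ℕ) : ℝ) := by push_cast; positivity
    positivity
  · obtain ⟨h1, h2⟩ := hat_supp h
    constructor
    · rw [div_le_iff₀ hm0]; linarith
    · rw [← mul_div_assoc, le_div_iff₀ hm0]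
      have h3 : k * κ ≤ ((k + j : ℕ) : ℝ) * κ := by
        push_cast
        nlinarith [mul_nonneg (Nat.cast_nonneg (α := ℝ) (j : ℕ)) hκ.le]
      nlinarith only [h1, h2, h3, hk2]
  · rw [hat_sum]
    linarith [R_le_one m k u, R_nonneg m (k + m) u]
  · by_contra hcon
    obtain ⟨g1, g2⟩ := mul_ne_zero_iff.1 hcon
    obtain ⟨-, h2⟩ := hat_supp g1
    obtain ⟨h3, -⟩ := hat_supp g2
    have h4 : (((i : ℕ) + 2 : ℕ) : ℝ) ≤ ((j : ℕ) : ℝ) := by exact_mod_cast hij
    push_cast at h2 h3 h4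
    linarith
  · rw [hat_sum, R_eq_zero (k := k + m) (by push_cast; nlinarith)]
    rcases le_total ((k : ℝ) + 1) (m * u) with h | h
    · rw [R_eq_one h]; simp only [sub_zero, sub_self, mul_zero]; exact hθ.le
    · have h5 : u ≤ θ := by
        by_contra hcon
        push Not at hcon
        nlinarith only [h, hm2, hcon, hm0]
      have h6 := R_nonneg m k u
      have h7 := R_le_one m k u
      nlinarith only [h5, h6, h7, hu, mul_nonneg hu h6]

end Vale.Agent.P133.H832
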