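import Vale.Agent.P133.H832.Slice

/-!
P133 (helper832): the norm of a sum over slices.
-/

open scoped ComplexOrder

namespace Vale.Agent.P133.H832

open Vale.Agent.P133

universe u

variable {M : Type u} [CStarAlgebra M] [PartialOrder M] [StarOrderedRing M]

/-- the sum over a set `S` of separated slices -/
theorem sep_norm {a : M} {p : ℕ} (e : Fin p → ℝ → ℝ) (t : Fin p → ℝ) {κ : ℝ} (hκ : 0 < κ)
    (he : ∀ j, Continuous (e j)) (ht : ∀ j, 0 < t j)
    (hsupp : ∀ j u, 0 ≤ u → e j u ≠ 0 → t j ≤ u ∧ u ≤ (1 + κ) * t j)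
    (S : Finset (Fin p)) (hS : ∀ i ∈ S, ∀ j ∈ S, i ≠ j → ∀ u, 0 ≤ u → e i u * e j u = 0)
    (s : Fin p → M) :
    ‖∑ j ∈ S, cfc (fun u => (Real.sqrt (u / t j) - 1) * e j u) (star a * a) * s j‖ ^ 2 ≤
      κ ^ 2 * ‖∑ j, (t j)⁻¹ • (star (a * cfc (e j) (star a * a) * s j) *
        (a * cfc (e j) (star a * a) * s j))‖ := by
  classical
  set Q : M := star a * a with hQ
  have hQ0 : 0 ≤ Q := star_mul_self_nonneg a
  have hphi : ∀ j, Continuous (fun u => (Real.sqrt (u / t j) - 1) * e j u) := fun j =>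
    ((Real.continuous_sqrt.comp (continuous_id.div_const _)).sub continuous_const).mul (he j)
  set E : M := ∑ j ∈ S, cfc (fun u => (Real.sqrt (u / t j) - 1) * e j u) Q * s j with hE
  have h1 : star E * E = ∑ j ∈ S, star (s j) *
      cfc (fun u => ((Real.sqrt (u / t j) - 1) * e j u) * ((Real.sqrt (u / t j) - 1) * e j u)) Q *
        s j := by
    rw [hE, star_sum, Finset.sum_mul_sum]
    refine Finset.sum_congr rfl fun i hi => ?_
    rw [Finset.sum_eq_single i]
    · rw [star_mul, star_cfc, ← cfc_mul' (hphi i) (hphi i)]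
      simp only [mul_assoc]
    · intro j hj hji
      rw [star_mul, star_cfc]
      have h2 : cfc (fun u => (Real.sqrt (u / t i) - 1) * e i u) Q *
          cfc (fun u => (Real.sqrt (u / t j) - 1) * e j u) Q = 0 := by
        rw [cfc_mul' (hphi i) (hphi j)]
        have h3 : cfc (fun u => ((Real.sqrt (u / t i) - 1) * e i u) *
            ((Real.sqrt (u / t j) - 1) * e j u)) Q = cfc (fun _ => (0 : ℝ)) Q := by
          refine cfc_congr' hQ0 (fun u hu => ?_)
          have := hS i hi j hj (Ne.symm hji) u hu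
          calc _ = (Real.sqrt (u / t i) - 1) * (Real.sqrt (u / t j) - 1) * (e i u * e j u) := by
                ring
            _ = 0 := by rw [this, mul_zero]
        rw [h3, cfc_const_zero]
      calc _ = star (s i) * (cfc (fun u => (Real.sqrt (u / t i) - 1) * e i u) Q *
          cfc (fun u => (Real.sqrt (u / t j) - 1) * e j u) Q) * s j := by
            simp only [mul_assoc]
        _ = 0 := by rw [h2]; simp
    · intro hni; exact absurd hi hni
  have h4 : ∀ j, star (a * cfc (e j) Q * s j) * (a * cfc (e j) Q * s j) =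
      star (s j) * cfc (fun u => e j u * (u * e j u)) Q * s j := by
    intro j
    have hid : Continuous (fun s => s * e j s) := continuous_id.mul (he j)
    have h5 : cfc (fun u => e j u * (u * e j u)) Q = cfc (e j) Q * (Q * cfc (e j) Q) := by
      rw [mul_cfc (he j) hQ0, cfc_mul' (he j) hid]
    rw [h5, star_mul, star_mul, star_cfc, hQ]
    simp only [mul_assoc]
  have h6 : ∀ j, star (s j) * cfc (fun u => ((Real.sqrt (u / t j) - 1) * e j u) *
      ((Real.sqrt (u / t j) - 1) * e j u)) Q * s j ≤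
      κ ^ 2 • ((t j)⁻¹ • (star (a * cfc (e j) Q * s j) * (a * cfc (e j) Q * s j))) := by
    intro j
    rw [h4, smul_smul]
    have hc1 : Continuous (fun u => ((Real.sqrt (u / t j) - 1) * e j u) *
      ((Real.sqrt (u / t j) - 1) * e j u)) := (hphi j).mul (hphi j)
    have hc2 : Continuous (fun u => e j u * (u * e j u)) := (he j).mul (continuous_id.mul (he j))
    have hc3 : Continuous (fun u => (κ ^ 2 * (t j)⁻¹) • (e j u * (u * e j u))) := by
      simp only [smul_eq_mul]
      exact continuous_const.mul hc2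
    have h7 : cfc (fun u => ((Real.sqrt (u / t j) - 1) * e j u) *
        ((Real.sqrt (u / t j) - 1) * e j u)) Q ≤
        (κ ^ 2 * (t j)⁻¹) • cfc (fun u => e j u * (u * e j u)) Q := by
      rw [← cfc_smul (κ ^ 2 * (t j)⁻¹) _ Q hc2.continuousOn]
      refine cfc_le_cfc hc1 hc3 hQ0 (fun u hu => ?_)
      simp only [smul_eq_mul]
      by_cases hz : e j u = 0
      · rw [hz]; simp
      · obtain ⟨g1, g2⟩ := hsupp j u hu hz
        have ht0 := ht j
        have g3 : 1 ≤ u / t j := (one_le_div₀ ht0).2 g1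
        have g4 : u / t j ≤ 1 + κ := (div_le_iff₀ ht0).2 g2
        have g5 : 1 ≤ Real.sqrt (u / t j) := by
          rw [Real.one_le_sqrt]; exact g3
        have g6 : Real.sqrt (u / t j) ≤ 1 + κ := by
          refine (Real.sqrt_le_left (by linarith)).2 ?_
          nlinarith
        have g7 : (Real.sqrt (u / t j) - 1) ^ 2 ≤ κ ^ 2 :=
          pow_le_pow_left₀ (by linarith) (by linarith) 2
        have g8 : 0 ≤ e j u ^ 2 := sq_nonneg _
        calc ((Real.sqrt (u / t j) - 1) * e j u) * ((Real.sqrt (u / t j) - 1) * e j u)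
            = (Real.sqrt (u / t j) - 1) ^ 2 * e j u ^ 2 := by ring
          _ ≤ κ ^ 2 * (u / t j * e j u ^ 2) := by
              refine mul_le_mul g7 ?_ g8 (sq_nonneg _)
              nlinarith
          _ = κ ^ 2 * (t j)⁻¹ * (e j u * (u * e j u)) := by
              rw [div_eq_mul_inv]; ring
    calc _ ≤ star (s j) * ((κ ^ 2 * (t j)⁻¹) • cfc (fun u => e j u * (u * e j u)) Q) * s j :=
          K.conj_le h7 _
      _ = _ := by rw [mul_smul_comm, smul_mul_assoc]
  have hpos : ∀ j, 0 ≤ (t j)⁻¹ • (star (a * cfc (e j) Q * s j) * (a * cfc (e j) Q * s j)) :=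
    fun j => smul_nonneg (inv_nonneg.2 (ht j).le) (star_mul_self_nonneg _)
  have h8 : star E * E ≤ κ ^ 2 • ∑ j, (t j)⁻¹ • (star (a * cfc (e j) Q * s j) *
        (a * cfc (e j) Q * s j)) := by
    rw [h1, Finset.smul_sum]
    calc _ ≤ ∑ j ∈ S, κ ^ 2 • ((t j)⁻¹ • (star (a * cfc (e j) Q * s j) *
          (a * cfc (e j) Q * s j))) := Finset.sum_le_sum fun j _ => h6 j
      _ ≤ _ := Finset.sum_le_sum_of_subset_of_nonneg (Finset.subset_univ _)
          (fun j _ _ => smul_nonneg (by positivity) (hpos j))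
  have h9 := K.norm_mono (star_mul_self_nonneg E) h8
  rw [norm_smul, Real.norm_of_nonneg (by positivity), CStarRing.norm_star_mul_self, ← sq] at h9
  exact h9

theorem slice_norm {a : M} {p : ℕ} (e : Fin p → ℝ → ℝ) (t : Fin p → ℝ) {κ : ℝ} (hκ : 0 < κ)
    (hκ1 : κ ≤ 1) (he : ∀ j, Continuous (e j)) (ht : ∀ j, 0 < t j)
    (hsupp : ∀ j u, 0 ≤ u → e j u ≠ 0 → t j ≤ u ∧ u ≤ (1 + κ) * t j)
    (hsum : ∀ u, 0 ≤ u → ∑ j, e j u ^ 2 ≤ 1)
    (hsep : ∀ i j : Fin p, (i : ℕ) + 2 ≤ j → ∀ u, 0 ≤ u → e i u * e j u = 0)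
    (s : Fin p → M) {δ η : ℝ}
    (hd : ∀ j, ‖star (a * cfc (e j) (star a * a) * s j) * (a * cfc (e j) (star a * a) * s j) -
      star (a * cfc (e j) (star a * a)) * (a * cfc (e j) (star a * a))‖ ≤ δ)
    (hc : ∀ i j, i ≠ j → ‖star (a * cfc (e i) (star a * a) * s i) *
      (a * cfc (e j) (star a * a) * s j)‖ ≤ η) (hη0 : 0 ≤ η)
    (hδ : ∑ j, (t j)⁻¹ * δ ≤ κ)
    (hη : ∑ i, ∑ j, (Real.sqrt (t i))⁻¹ * (Real.sqrt (t j))⁻¹ * η ≤ κ) :
    ‖∑ j, cfc (e j) (star a * a) * s j‖ ≤ 1 + 6 * κ := by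
  classical
  set Q : M := star a * a with hQ
  have hQ0 : 0 ≤ Q := star_mul_self_nonneg a
  set w : Fin p → M := fun j => a * cfc (e j) Q * s j with hw
  set W : M := ∑ j, (t j)⁻¹ • (star (w j) * w j) with hW
  -- the norm of `W`
  have hstar : ∀ j, star (a * cfc (e j) Q) * (a * cfc (e j) Q) =
      cfc (fun u => e j u * (u * e j u)) Q := by
    intro j
    have hid : Continuous (fun s => s * e j s) := continuous_id.mul (he j)
    rw [star_mul, star_cfc]
    calc cfc (e j) Q * star a * (a * cfc (e j) Q) = cfc (e j) Q * (Q * cfc (e j) Q) := by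
          rw [hQ]; simp only [mul_assoc]
      _ = _ := by rw [mul_cfc (he j) hQ0, cfc_mul' (he j) hid]
  have hc2 : ∀ j, Continuous (fun u => e j u * (u * e j u)) := fun j =>
    (he j).mul (continuous_id.mul (he j))
  have hWn : ‖W‖ ≤ 1 + 2 * κ := by
    have h1 : W = ∑ j, (t j)⁻¹ • (star (w j) * w j -
        star (a * cfc (e j) Q) * (a * cfc (e j) Q)) +
        ∑ j, (t j)⁻¹ • (star (a * cfc (e j) Q) * (a * cfc (e j) Q)) := by
      rw [← Finset.sum_add_distrib, hW]
      refine Finset.sum_congr rfl fun j _ => ?_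
      rw [← smul_add, sub_add_cancel]
    have h2 : ‖∑ j, (t j)⁻¹ • (star (w j) * w j -
        star (a * cfc (e j) Q) * (a * cfc (e j) Q))‖ ≤ κ := by
      refine (norm_sum_le _ _).trans (le_trans (Finset.sum_le_sum fun j _ => ?_) hδ)
      rw [norm_smul, Real.norm_of_nonneg (inv_nonneg.2 (ht j).le)]
      exact mul_le_mul_of_nonneg_left (hd j) (inv_nonneg.2 (ht j).le)
    have h3 : ‖∑ j, (t j)⁻¹ • (star (a * cfc (e j) Q) * (a * cfc (e j) Q))‖ ≤ 1 + κ := by
      have h4 : ∑ j, (t j)⁻¹ • (star (a * cfc (e j) Q) * (a * cfc (e j) Q)) =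
          cfc (fun u => ∑ j, (t j)⁻¹ * (e j u * (u * e j u))) Q := by
        have h5 := cfc_sum_univ (fun j : Fin p => fun u : ℝ => (t j)⁻¹ * (e j u * (u * e j u))) Q
          (fun j => (continuous_const.mul (hc2 j)).continuousOn)
        have h6 : (∑ j : Fin p, fun u : ℝ => (t j)⁻¹ * (e j u * (u * e j u))) =
            fun u => ∑ j, (t j)⁻¹ * (e j u * (u * e j u)) := by
          ext u; simp only [Finset.sum_apply]
        rw [← h6, h5]
        refine Finset.sum_congr rfl fun j _ => ?_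
        rw [hstar, ← cfc_smul (t j)⁻¹ _ Q (hc2 j).continuousOn]
        rfl
      rw [h4]
      refine norm_cfc_le' hQ0 (by linarith) (fun u hu _ => ?_)
      have h7 : ∀ j, 0 ≤ (t j)⁻¹ * (e j u * (u * e j u)) := fun j => by
        have := mul_nonneg hu (mul_self_nonneg (e j u))
        have h8 : e j u * (u * e j u) = u * (e j u * e j u) := by ring
        rw [h8]
        exact mul_nonneg (inv_nonneg.2 (ht j).le) this
      rw [abs_of_nonneg (Finset.sum_nonneg fun j _ => h7 j)]
      calc ∑ j, (t j)⁻¹ * (e j u * (u * e j u)) ≤ ∑ j, (1 + κ) * e j u ^ 2 := by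
            refine Finset.sum_le_sum fun j _ => ?_
            by_cases hz : e j u = 0
            · rw [hz]; simp
            · obtain ⟨-, g2⟩ := hsupp j u hu hz
              have g3 : (t j)⁻¹ * u ≤ 1 + κ := by
                rw [inv_mul_le_iff₀ (ht j)]; linarith
              calc (t j)⁻¹ * (e j u * (u * e j u)) = ((t j)⁻¹ * u) * e j u ^ 2 := by ring
                _ ≤ (1 + κ) * e j u ^ 2 := mul_le_mul_of_nonneg_right g3 (sq_nonneg _)
        _ = (1 + κ) * ∑ j, e j u ^ 2 := by rw [Finset.mul_sum]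
        _ ≤ (1 + κ) * 1 := mul_le_mul_of_nonneg_left (hsum u hu) (by linarith)
        _ = 1 + κ := mul_one _
    rw [h1]
    exact (norm_add_le _ _).trans (by linarith)
  -- the element `Z`
  set Z : M := ∑ j, (Real.sqrt (t j))⁻¹ • (cfc (e j) Q * s j) with hZ
  have haZ : a * Z = ∑ j, (Real.sqrt (t j))⁻¹ • w j := by
    rw [hZ, Finset.mul_sum]
    refine Finset.sum_congr rfl fun j _ => ?_
    rw [mul_smul_comm, hw]
    simp only [mul_assoc]
  have haZn : ‖a * Z‖ ^ 2 ≤ 1 + 3 * κ := by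
    have h1 : star (a * Z) * (a * Z) = W + ∑ i, ∑ j, (if i = j then (0 : M) else
        ((Real.sqrt (t i))⁻¹ * (Real.sqrt (t j))⁻¹) • (star (w i) * w j)) := by
      rw [haZ, star_sum, Finset.sum_mul_sum, hW, ← Finset.sum_add_distrib]
      refine Finset.sum_congr rfl fun i _ => ?_
      have h2 : ∀ j, star ((Real.sqrt (t i))⁻¹ • w i) * ((Real.sqrt (t j))⁻¹ • w j) =
          (if i = j then (t i)⁻¹ • (star (w i) * w i) else 0) + (if i = j then (0 : M) else
          ((Real.sqrt (t i))⁻¹ * (Real.sqrt (t j))⁻¹) • (star (w i) * w j)) := by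
        intro j
        rw [star_smul, star_trivial, smul_mul_smul_comm]
        by_cases hij : i = j
        · subst hij
          simp only [if_true, add_zero]
          congr 1
          rw [← mul_inv, Real.mul_self_sqrt (ht i).le]
        · simp only [if_neg hij, zero_add]
      rw [Finset.sum_congr rfl fun j _ => h2 j, Finset.sum_add_distrib]
      congr 1
      simp
    rw [sq, ← CStarRing.norm_star_mul_self, h1]
    refine (norm_add_le _ _).trans ?_
    have h2 : ‖∑ i, ∑ j, (if i = j then (0 : M) else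
        ((Real.sqrt (t i))⁻¹ * (Real.sqrt (t j))⁻¹) • (star (w i) * w j))‖ ≤ κ := by
      refine (norm_sum_le _ _).trans (le_trans (Finset.sum_le_sum fun i _ => ?_) hη)
      refine (norm_sum_le _ _).trans (Finset.sum_le_sum fun j _ => ?_)
      have hp : 0 ≤ (Real.sqrt (t i))⁻¹ * (Real.sqrt (t j))⁻¹ := by positivity
      split_ifs with hij
      · rw [norm_zero]; exact mul_nonneg hp hη0
      · rw [norm_smul, Real.norm_of_nonneg hp]
        exact mul_le_mul_of_nonneg_left (hc i j hij) hp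
    linarith
  have haZ1 : ‖a * Z‖ ≤ 1 + 2 * κ := by
    have h1 : ‖a * Z‖ ^ 2 ≤ (1 + 2 * κ) ^ 2 := by nlinarith
    exact (abs_le_of_sq_le_sq' h1 (by linarith)).2
  -- comparison with `√Q Z`
  have hr : cfc Real.sqrt Q * cfc Real.sqrt Q = Q := by
    rw [cfc_mul' Real.continuous_sqrt Real.continuous_sqrt]
    conv_rhs => rw [← cfc_id' ℝ Q (IsSelfAdjoint.of_nonneg hQ0)]
    exact cfc_congr' hQ0 (fun u hu => Real.mul_self_sqrt hu)
  have hTn : ‖cfc Real.sqrt Q * Z‖ = ‖a * Z‖ := by
    have h1 : ‖cfc Real.sqrt Q * Z‖ * ‖cfc Real.sqrt Q * Z‖ = ‖a * Z‖ * ‖a * Z‖ := by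
      rw [← CStarRing.norm_star_mul_self, ← CStarRing.norm_star_mul_self]
      congr 1
      rw [star_mul, star_mul, star_cfc]
      calc star Z * cfc Real.sqrt Q * (cfc Real.sqrt Q * Z) =
            star Z * (cfc Real.sqrt Q * cfc Real.sqrt Q) * Z := by simp only [mul_assoc]
        _ = star Z * star a * (a * Z) := by rw [hr, hQ]; simp only [mul_assoc]
    exact (mul_self_inj (norm_nonneg _) (norm_nonneg _)).1 h1
  have hphi : ∀ j, Continuous (fun u => (Real.sqrt (u / t j) - 1) * e j u) := fun j =>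
    ((Real.continuous_sqrt.comp (continuous_id.div_const _)).sub continuous_const).mul (he j)
  have hdiff : cfc Real.sqrt Q * Z - ∑ j, cfc (e j) Q * s j =
      ∑ j, cfc (fun u => (Real.sqrt (u / t j) - 1) * e j u) Q * s j := by
    rw [hZ, Finset.mul_sum, ← Finset.sum_sub_distrib]
    refine Finset.sum_congr rfl fun j _ => ?_
    have hsq : Continuous (fun u => Real.sqrt u * e j u) := Real.continuous_sqrt.mul (he j)
    have hsq2 : Continuous (fun u => (Real.sqrt (t j))⁻¹ • (Real.sqrt u * e j u)) := by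
      simp only [smul_eq_mul]
      exact continuous_const.mul hsq
    rw [mul_smul_comm, ← mul_assoc, cfc_mul' Real.continuous_sqrt (he j), ← smul_mul_assoc,
      ← cfc_smul _ _ Q hsq.continuousOn, ← sub_mul,
      ← cfc_sub _ _ Q hsq2.continuousOn (he j).continuousOn]
    congr 1
    refine cfc_congr' hQ0 (fun u hu => ?_)
    simp only [smul_eq_mul]
    rw [Real.sqrt_div hu]
    ring
  -- even and odd slices
  have hpar : ∀ r : ℕ, ∀ i ∈ Finset.univ.filter (fun j : Fin p => (j : ℕ) % 2 = r),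
      ∀ j ∈ Finset.univ.filter (fun j : Fin p => (j : ℕ) % 2 = r), i ≠ j →
        ∀ u, 0 ≤ u → e i u * e j u = 0 := by
    intro r i hi j hj hij u hu
    simp only [Finset.mem_filter, Finset.mem_univ, true_and] at hi hj
    have hij' : (i : ℕ) ≠ j := fun h => hij (Fin.ext h)
    rcases lt_or_gt_of_ne hij' with h | h
    · exact hsep i j (by omega) u hu
    · rw [mul_comm]; exact hsep j i (by omega) u hu
  have hEn : ∀ r : ℕ, ‖∑ j ∈ Finset.univ.filter (fun j : Fin p => (j : ℕ) % 2 = r),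
      cfc (fun u => (Real.sqrt (u / t j) - 1) * e j u) Q * s j‖ ≤ 2 * κ := by
    intro r
    have h1 := sep_norm e t hκ he ht hsupp _ (hpar r) s (a := a)
    rw [← hQ] at h1
    have h2 : κ ^ 2 * ‖W‖ ≤ (2 * κ) ^ 2 := by nlinarith [sq_nonneg κ]
    exact (abs_le_of_sq_le_sq' (h1.trans h2) (by linarith)).2
  have hsplit : ∑ j, cfc (fun u => (Real.sqrt (u / t j) - 1) * e j u) Q * s j =
      ∑ j ∈ Finset.univ.filter (fun j : Fin p => (j : ℕ) % 2 = 0),
        cfc (fun u => (Real.sqrt (u / t j) - 1) * e j u) Q * s j +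
      ∑ j ∈ Finset.univ.filter (fun j : Fin p => (j : ℕ) % 2 = 1),
        cfc (fun u => (Real.sqrt (u / t j) - 1) * e j u) Q * s j := by
    rw [← Finset.sum_filter_add_sum_filter_not Finset.univ (fun j : Fin p => (j : ℕ) % 2 = 0)]
    congr 1
    refine Finset.sum_congr ?_ fun _ _ => rfl
    ext j
    simp only [Finset.mem_filter, Finset.mem_univ, true_and]
    omega
  have h10 : ‖∑ j, cfc (fun u => (Real.sqrt (u / t j) - 1) * e j u) Q * s j‖ ≤ 4 * κ := by
    rw [hsplit]
    exact (norm_add_le _ _).trans (by linarith [hEn 0, hEn 1])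
  calc ‖∑ j, cfc (e j) Q * s j‖ = ‖cfc Real.sqrt Q * Z -
        (cfc Real.sqrt Q * Z - ∑ j, cfc (e j) Q * s j)‖ := by rw [sub_sub_cancel]
    _ ≤ ‖cfc Real.sqrt Q * Z‖ + ‖cfc Real.sqrt Q * Z - ∑ j, cfc (e j) Q * s j‖ :=
        norm_sub_le _ _
    _ ≤ (1 + 2 * κ) + 4 * κ := by
        rw [hdiff, hTn]
        exact add_le_add haZ1 h10
    _ = 1 + 6 * κ := by ring

end Vale.Agent.P133.H832
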