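import Vale.Agent.P133.H832.ChainE
import Vale.Agent.P133.H832.ChainF
import Vale.Agent.P133.H832.TameDef

/-!
P133 (helper832): closed ideals, prime quotients, maximal ideals of elements below `a`.
-/

open scoped ComplexOrder

namespace Vale.Agent.P133.H832

open Vale.Agent.P133

universe u

section

variable {A : Type u} [NonUnitalCStarAlgebra A] [PartialOrder A] [StarOrderedRing A]

theorem approx_unit (x : A) {ε : ℝ} (hε : 0 < ε) : ∃ G : A, ‖x * (star x * x * G) - x‖ < ε := by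
  set y : A := star x * x with hy
  have hy0 : 0 ≤ y := star_mul_self_nonneg x
  set η : ℝ := (ε / 2) ^ 2 with hη
  have hη0 : 0 < η := by positivity
  set g : ℝ → ℝ := fun t => t / (max t η) ^ 2 with hg
  have hpos : ∀ t : ℝ, 0 < (max t η) ^ 2 := fun t => by
    have : η ≤ max t η := le_max_right _ _
    positivity
  have hgc : Continuous g := Continuous.div continuous_id (by fun_prop) fun s => (hpos s).ne'
  have hg0 : g 0 = 0 := by simp only [hg, zero_div]
  set f : ℝ → ℝ := fun t => t * g t with hf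
  have hfc : Continuous f := continuous_id.mul hgc
  have hf0 : f 0 = 0 := by simp only [hf, zero_mul]
  refine ⟨cfcₙ g y, ?_⟩
  have h1 : y * cfcₙ g y = cfcₙ f y := by
    rw [hf, cfcₙ_mul (fun x : ℝ => x) g y (by fun_prop) rfl hgc.continuousOn hg0, cfcₙ_id' ℝ y]
  rw [h1]
  set F : A := cfcₙ f y with hF
  have hFs : star F = F := (cfcₙ_predicate (p := IsSelfAdjoint) f y).star_eq
  have h2 : star (x * F - x) * (x * F - x) =
      cfcₙ (fun t => (f t * t * f t - f t * t) - (t * f t - t)) y := by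
    have e1 : star (x * F - x) * (x * F - x) = (F * y * F - F * y) - (y * F - y) := by
      rw [star_sub, star_mul, hFs, sub_mul, mul_sub, mul_sub, hy]
      simp only [mul_assoc]
    have hc1 : Continuous (fun t => f t * t) := hfc.mul continuous_id
    have hc2 : Continuous (fun t => t * f t) := continuous_id.mul hfc
    have hc3 : Continuous (fun t => f t * t * f t) := hc1.mul hfc
    rw [e1, cfcₙ_sub (fun t => f t * t * f t - f t * t) (fun t => t * f t - t) y
      (hc3.sub hc1).continuousOn (by simp [hf0]) (hc2.sub continuous_id).continuousOn (by simp),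
      cfcₙ_sub (fun t => f t * t * f t) (fun t => f t * t) y
      hc3.continuousOn (by simp) hc1.continuousOn (by simp),
      cfcₙ_sub (fun t => t * f t) (fun t => t) y
      hc2.continuousOn (by simp) (by fun_prop) rfl,
      cfcₙ_mul (fun t => f t * t) f y hc1.continuousOn (by simp) hfc.continuousOn hf0,
      cfcₙ_mul f (fun t => t) y hfc.continuousOn hf0 (by fun_prop) rfl,
      cfcₙ_mul (fun t => t) f y (by fun_prop) rfl hfc.continuousOn hf0, cfcₙ_id' ℝ y]
  have h3 : ‖star (x * F - x) * (x * F - x)‖ ≤ η := by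
    rw [h2]
    refine norm_cfcₙ_le fun t ht => ?_
    have ht0 : 0 ≤ t := quasispectrum_nonneg_of_nonneg y hy0 t ht
    have e2 : (f t * t * f t - f t * t) - (t * f t - t) = t * (1 - f t) ^ 2 := by ring
    rw [e2, Real.norm_of_nonneg (by positivity)]
    rcases le_total t η with h | h
    · have h4 : f t = t ^ 2 / η ^ 2 := by
        simp only [hf, hg, max_eq_right h]; ring
      have h5 : f t ≤ 1 := by
        rw [h4, div_le_one (by positivity)]; nlinarith
      have h6 : 0 ≤ f t := by rw [h4]; positivity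
      have h7 : (1 - f t) ^ 2 ≤ 1 := by nlinarith
      calc t * (1 - f t) ^ 2 ≤ η * 1 := mul_le_mul h h7 (sq_nonneg _) hη0.le
        _ = η := mul_one _
    · have ht1 : t ≠ 0 := by linarith
      have h4 : f t = 1 := by
        simp only [hf, hg, max_eq_left h]; field_simp
      rw [h4]; nlinarith
  rw [CStarRing.norm_star_mul_self, ← sq] at h3
  have h4 : ‖x * F - x‖ ≤ ε / 2 := by
    rw [hη] at h3
    exact (sq_le_sq₀ (norm_nonneg _) (by positivity)).1 h3
  linarith

omit [PartialOrder A] [StarOrderedRing A] in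
theorem IsClosedIdeal.lim {J : Submodule ℂ A} (hJ : IsClosedIdeal J) {x : A}
    (h : ∀ ε : ℝ, 0 < ε → ∃ y ∈ J, ‖y - x‖ < ε) : x ∈ J := by
  have h1 : x ∈ closure (J : Set A) := Metric.mem_closure_iff.2 fun ε hε => by
    obtain ⟨y, hy, h1⟩ := h ε hε
    exact ⟨y, hy, by rw [dist_comm, dist_eq_norm]; exact h1⟩
  rwa [hJ.1.closure_eq] at h1

omit [PartialOrder A] [StarOrderedRing A] in
theorem IsClosedIdeal.inId {J : Submodule ℂ A} (hJ : IsClosedIdeal J) {x y : A} (hx : x ∈ J)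
    (h : InId x y) : y ∈ J := hJ.lim fun ε hε => by
  obtain ⟨m, r, s, h1⟩ := h ε hε
  exact ⟨_, J.sum_mem fun k _ => (hJ.2 _ _ (hJ.2 _ _ hx).1).2, h1⟩

theorem IsClosedIdeal.of_star_mul_self {J : Submodule ℂ A} (hJ : IsClosedIdeal J) {x : A}
    (hx : star x * x ∈ J) : x ∈ J := hJ.lim fun ε hε => by
  obtain ⟨G, hG⟩ := approx_unit x hε
  exact ⟨_, (hJ.2 _ _ (hJ.2 _ _ hx).2).1, hG⟩

theorem IsClosedIdeal.star_mem {J : Submodule ℂ A} (hJ : IsClosedIdeal J) {x : A}
    (hx : x ∈ J) : star x ∈ J := hJ.of_star_mul_self (by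
  rw [star_star]; exact (hJ.2 _ _ hx).2)

theorem IsClosedIdeal.of_le {J : Submodule ℂ A} (hJ : IsClosedIdeal J) {x y : A} (hx : 0 ≤ x)
    (hxy : x ≤ y) (hy : y ∈ J) : x ∈ J := hJ.lim fun ε hε => by
  obtain ⟨d, hd⟩ := order_factor hx hxy (half_pos hε)
  exact ⟨_, (hJ.2 _ _ (hJ.2 _ _ hy).1).2, by linarith⟩

omit [PartialOrder A] [StarOrderedRing A] in
theorem InId.mulL {x y : A} (h : InId x y) (b : A) : InId x (b * y) := by
  intro ε hε
  obtain ⟨m, r, s, h1⟩ := h (ε / (‖b‖ + 1)) (by positivity)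
  refine ⟨m, fun k => b * r k, s, ?_⟩
  have h2 : ∑ k, b * r k * x * s k - b * y = b * (∑ k, r k * x * s k - y) := by
    rw [mul_sub, Finset.mul_sum]
    congr 1
    refine Finset.sum_congr rfl fun k _ => ?_
    simp only [mul_assoc]
  rw [h2]
  calc _ ≤ ‖b‖ * ‖∑ k, r k * x * s k - y‖ := norm_mul_le _ _
    _ ≤ ‖b‖ * (ε / (‖b‖ + 1)) := by gcongr
    _ = ‖b‖ / (‖b‖ + 1) * ε := by ring
    _ < ε := by
        have h3 : ‖b‖ / (‖b‖ + 1) < 1 := by
          rw [div_lt_one (by positivity)]; linarith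
        nlinarith

omit [PartialOrder A] [StarOrderedRing A] in
theorem isClosedIdeal_inId (x : A) :
    ∃ I : Submodule ℂ A, IsClosedIdeal I ∧ ∀ y, y ∈ I ↔ InId x y := by
  let I : Submodule ℂ A :=
    { carrier := {y | InId x y}
      zero_mem' := InId.zero x
      add_mem' := fun h h' => InId.add h h'
      smul_mem' := fun c y h => InId.smul c h }
  refine ⟨I, ⟨?_, fun a y hy => ⟨InId.mulL hy a, InId.mulR hy a⟩⟩, fun y => Iff.rfl⟩
  rw [← isSeqClosed_iff_isClosed]
  intro u y hu huy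
  refine InId.lim fun ε hε => ?_
  obtain ⟨n, hn⟩ := (Metric.tendsto_atTop.1 huy) ε hε
  exact ⟨u n, hu n, by rw [← dist_eq_norm]; exact hn n le_rfl⟩

theorem InId.refl (x : A) : InId x x := by
  refine InId.lim fun ε hε => ?_
  obtain ⟨G, hG⟩ := approx_unit x hε
  refine ⟨_, ?_, hG⟩
  have h1 : x * (star x * x * G) = (x * star x) * x * G := by simp only [mul_assoc]
  rw [h1]
  exact InId.term _ _ _

theorem subId_of_inId' {c h : A} (hc : 0 ≤ c) (h0 : 0 ≤ h) (hI : InId c h) : SubId c h := by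
  refine subId_of_inId hc h0 ?_
  obtain ⟨I, hI1, hI2⟩ := isClosedIdeal_inId c
  have h1 : InId c (CFC.sqrt h) := by
    rw [← hI2]
    refine hI1.of_star_mul_self ?_
    rw [(IsSelfAdjoint.of_nonneg (CFC.sqrt_nonneg h)).star_eq, CFC.sqrt_mul_sqrt_self h h0, hI2]
    exact hI
  refine InId.trans ?_ h1
  have h2 := (InId.refl (CFC.sqrt c)).mulR (CFC.sqrt c)
  rwa [CFC.sqrt_mul_sqrt_self c hc] at h2

theorem IsClosedIdeal.quot {J : Submodule ℂ A} (hJ : IsClosedIdeal J) :
    ∃ (B : Type u) (_ : NonUnitalCStarAlgebra B) (_ : PartialOrder B) (_ : StarOrderedRing B)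
      (φ : A →⋆ₙₐ[ℂ] B), Function.Surjective φ ∧ ∀ x, φ x = 0 ↔ x ∈ J :=
  exists_quotient J hJ.1 (fun a x h => (hJ.2 a x h).1) (fun a x h => (hJ.2 a x h).2)
    fun _ h => hJ.star_mem h

omit [PartialOrder A] [StarOrderedRing A] in
theorem isClosedIdeal_closure {N : Submodule ℂ A} (hN : ∀ a x : A, x ∈ N → a * x ∈ N ∧ x * a ∈ N) :
    IsClosedIdeal N.topologicalClosure := by
  refine ⟨N.isClosed_topologicalClosure, fun a x hx => ⟨?_, ?_⟩⟩
  · have h1 : Continuous fun y : A => a * y := by fun_prop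
    exact map_mem_closure (f := fun y : A => a * y) h1 hx fun y hy => (hN a y hy).1
  · have h1 : Continuous fun y : A => y * a := by fun_prop
    exact map_mem_closure (f := fun y : A => y * a) h1 hx fun y hy => (hN a y hy).2

omit [PartialOrder A] [StarOrderedRing A] in
theorem exists_max {Q : Submodule ℂ A → Prop} {J : Submodule ℂ A} (hJ : IsClosedIdeal J)
    (hQJ : Q J) (hQ : ∀ N : Submodule ℂ A, (∀ x ∈ N, ∃ P, IsClosedIdeal P ∧ Q P ∧ x ∈ P) →
      Q N.topologicalClosure) :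
    ∃ P, J ≤ P ∧ IsClosedIdeal P ∧ Q P ∧ ∀ P', P ≤ P' → IsClosedIdeal P' → Q P' → P' = P := by
  obtain ⟨P, hP, hPm⟩ := zorn_le_nonempty₀ {P : Submodule ℂ A | IsClosedIdeal P ∧ Q P} (by
    intro c hc hch y hy
    have h1 : ∀ x, x ∈ sSup c ↔ ∃ P ∈ c, x ∈ P := fun x =>
      Submodule.mem_sSup_of_directed ⟨y, hy⟩ hch.directedOn
    refine ⟨(sSup c).topologicalClosure, ⟨isClosedIdeal_closure fun a x hx => ?_,
      hQ _ fun x hx => ?_⟩, fun z hz => ?_⟩
    · obtain ⟨P, hP, hx⟩ := (h1 x).1 hx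
      exact ⟨(h1 _).2 ⟨P, hP, ((hc hP).1.2 a x hx).1⟩, (h1 _).2 ⟨P, hP, ((hc hP).1.2 a x hx).2⟩⟩
    · obtain ⟨P, hP, hx⟩ := (h1 x).1 hx
      exact ⟨P, (hc hP).1, (hc hP).2, hx⟩
    · exact (le_sSup hz).trans (Submodule.le_topologicalClosure _)) J ⟨hJ, hQJ⟩
  exact ⟨P, hP, hPm.prop.1, hPm.prop.2, fun P' h h' h'' =>
    le_antisymm (hPm.le_of_ge ⟨h', h''⟩ h) h⟩

/-- a cut of `a` is in every closed ideal at small distance -/
theorem IsClosedIdeal.cut_mem {J : Submodule ℂ A} (hJ : IsClosedIdeal J) {a : A} (ha : 0 ≤ a)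
    {y : A} (hy : y ∈ J) {s : ℝ} (hs : ‖a - y‖ < s) :
    cfcₙ (fun t : ℝ => max (t - s) 0) a ∈ J := by
  obtain ⟨B, i1, i2, i3, φ, hφ, hk⟩ := hJ.quot
  have hs0 : 0 < s := (norm_nonneg _).trans_lt hs
  have hf : Continuous (fun t : ℝ => max (t - s) 0) := by fun_prop
  have hf0 : (fun t : ℝ => max (t - s) 0) 0 = 0 := by
    simp only [zero_sub]; exact max_eq_right (by linarith)
  have hφa : 0 ≤ φ a := by
    have h1 : a = star (CFC.sqrt a) * CFC.sqrt a := by
      rw [(IsSelfAdjoint.of_nonneg (CFC.sqrt_nonneg a)).star_eq, CFC.sqrt_mul_sqrt_self a ha]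
    rw [h1, map_mul, map_star]
    exact star_mul_self_nonneg _
  have hφs : IsSelfAdjoint (φ a) := IsSelfAdjoint.of_nonneg hφa
  have hn : ‖φ a‖ < s := by
    have h1 : φ a = φ (a - y) := by rw [map_sub, (hk y).2 hy, sub_zero]
    rw [h1]
    exact (NonUnitalStarAlgHom.norm_apply_le φ _).trans_lt hs
  rw [← hk]
  have h2 : φ (cfcₙ (fun t : ℝ => max (t - s) 0) a) = cfcₙ (fun t : ℝ => max (t - s) 0) (φ a) :=
    NonUnitalStarAlgHomClass.map_cfcₙ φ _ a (hf := hf.continuousOn) (hf₀ := hf0)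
      (hφ := map_continuous φ) (ha := IsSelfAdjoint.of_nonneg ha) (hφa := hφs)
  rw [h2, ← norm_le_zero_iff]
  refine norm_cfcₙ_le fun t ht => ?_
  have h3 : ‖t‖ ≤ ‖φ a‖ := by
    have := norm_apply_le_norm_cfcₙ (fun x : ℝ => x) (φ a) ht
    rwa [cfcₙ_id' ℝ (φ a)] at this
  have h4 : t ≤ s := (le_abs_self t).trans (h3.trans hn.le)
  rw [max_eq_right (by linarith), norm_zero]

end

end Vale.Agent.P133.H832
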