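import Vale.Agent.P133.H832.Tame2

/-!
P133 (helper832): examples of tame ideal lattices.
-/

namespace Vale.Agent.P133.H832

universe u

variable {A : Type u} [NonUnitalCStarAlgebra A] [PartialOrder A]

omit [PartialOrder A] in
/-- simple C*-algebras have totally ordered ideals -/
theorem chain_of_simple' (hA : IsSimpleC A) : IsChainC A := by
  intro a b
  by_cases ha : a = 0
  · subst ha
    exact Or.inr (InId.zero b)
  · exact Or.inl (hA a b ha)

/-- If the primitive ideal space of `A` has a basis of compact open sets, i.e. if for every closed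
ideal `J` and every `a ∉ J` there is a compact ideal `⟨e⟩ = ⟨d⟩` inside `⟨a⟩` but not inside `J`,
then the ideals of `A` are tame. -/
theorem tame_of_compact (hA : ∀ J : Submodule ℂ A, IsClosedIdeal J → ∀ a ∉ J, ∃ e d : A,
    0 ≤ e ∧ e * d = d ∧ InId a e ∧ e ∉ J ∧ InId d e) : IsTameC A := by
  intro J hJ a ha
  obtain ⟨e, d, h1, h2, h3, h4, h5⟩ := hA J hJ a ha
  exact ⟨e, d, h1, h2, h3, h4, fun x _ hx => h5.trans hx⟩

end Vale.Agent.P133.H832
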