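import Vale.Agent.P133.H832.TameDef

/-!
P133 (helper832, helper681): inductive dimension of the lattice of closed ideals.
-/

open scoped ComplexOrder

namespace Vale.Agent.P133.H832

universe u

/-- Inductive dimension of the primitive ideal space of `A`, starting with tame algebras in
dimension zero: `A` has dimension at most `n + 1` if it has dimension at most `n` or any two open
sets (closed ideals `J₁`, `J₂`) can be separated along a closed subset of dimension at most `n`,
i.e. if there are closed ideals `I₁`, `I₂` with `I₁ ∩ I₂ = 0` such that a given element of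
`J₁ + J₂` is approximated by elements of `J₁ + I₂` that are also in `J₂ + I₁`, and the quotient of
`A` by the closure of `I₁ + I₂` has dimension at most `n`. -/
def TameDimLE : ℕ → (A : Type u) → [NonUnitalCStarAlgebra A] → [PartialOrder A] → Prop
  | 0, A, _, _ => IsTameC A
  | n + 1, A, _, _ => TameDimLE n A ∨ ∀ J₁ J₂ : Submodule ℂ A,
      IsClosedIdeal J₁ → IsClosedIdeal J₂ → ∀ w ∈ J₁ ⊔ J₂, ∀ ε : ℝ, 0 < ε → ∃ I₁ I₂ : Submodule ℂ A,
        IsClosedIdeal I₁ ∧ IsClosedIdeal I₂ ∧ (∀ z ∈ I₁, z ∈ I₂ → z = 0) ∧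
        (∃ w' : A, ‖w' - w‖ < ε ∧ w' ∈ J₁ ⊔ I₂ ∧ w' ∈ J₂ ⊔ I₁) ∧
        ∃ (B : Type u) (_ : NonUnitalCStarAlgebra B) (_ : PartialOrder B)
          (_ : StarOrderedRing B) (φ : A →⋆ₙₐ[ℂ] B), Function.Surjective φ ∧
          (∀ z, φ z = 0 ↔ z ∈ (I₁ ⊔ I₂).topologicalClosure) ∧ TameDimLE n B

end Vale.Agent.P133.H832
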